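import Vale.Agent.P352X.R.RES.RedA

/-!
# P352L, block RESW: the abstract sub-rows

`τ I J K φ` is the reduced three point distribution, `u = z1 - z2`, `v = z3 - z2`.
`Ct` forms the Cotton components in one slot, `LC` in all three slots.
-/

set_option linter.all false

open MeasureTheory Filter Topology
open scoped ContDiff

namespace Vale.Agent.P352L.RW

open Vale.Agent.P352 Vale.Agent.P352.GF Vale.Agent.P352.H755 Vale.Agent.P352X
open Vale.Agent.P352X.RS Vale.Agent.P352X.RS.Red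
open MvPolynomial (X C pderiv aeval)

noncomputable section

abbrev I3 := Ix × Ix × Ix
abbrev Tf := V × V → ℂ

/-- the metric -/
def gm (I : I2) : ℂ := if I.1 = I.2 then (eta I.1 : ℂ) else 0
/-- `a_m a_n`, lower indices -/
def aa (I : I2) : ℂ := ((eta I.1 * va I.1 * (eta I.2 * va I.2) : ℝ) : ℂ)

/-! ## functionals -/

/-- directional derivative -/
def Dv (y : V × V) (φ : Tf) : Tf := fun z => fderiv ℝ φ z y
/-- displacement of the first, second, third point in relative coordinates -/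
def e1 (x : V) : V × V := (x, 0)
def e2 (x : V) : V × V := (-x, -x)
def e3 (x : V) : V × V := (0, x)

/-- `S^mn = T^mn - η^mn Θ / 3` -/
def Bt (σ : I2 → Tf → ℂ) (I : I2) (φ : Tf) : ℂ :=
  σ I φ - gm I / 3 * ∑ k, (eta k : ℂ) * σ (k, k) φ
/-- the Cotton components `C^kmn f = η_k S^mn (∂_k f) - η_m S^kn (∂_m f)` -/
def Ct (e : V → V × V) (σ : I2 → Tf → ℂ) (a : I3) (φ : Tf) : ℂ :=
  eta a.1 * Bt σ (a.2.1, a.2.2) (Dv (e (bas a.1 1)) φ) -
    eta a.2.1 * Bt σ (a.1, a.2.2) (Dv (e (bas a.2.1 1)) φ)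
/-- the wave operator -/
def Bx (e : V → V × V) (φ : Tf) : Tf := fun z =>
  ∑ m, (eta m : ℂ) * Dv (e (bas m 1)) (Dv (e (bas m 1)) φ) z
/-- `W F = Θ (∂_a^2 F) + 3 T_aa (□ F)` -/
def Wt (e : V → V × V) (σ : I2 → Tf → ℂ) (φ : Tf) : ℂ :=
  ∑ I, gm I * σ I (Dv (e va) (Dv (e va) φ)) + 3 * ∑ I, aa I * σ I (Bx e φ)

variable (τ : I2 → I2 → I2 → Tf → ℂ)

/-- `⟨C C C⟩` -/
def LC (a b c : I3) : Tf → ℂ :=
  Ct e1 (fun I => Ct e2 (fun J => Ct e3 (fun K => τ I J K) c) b) a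
/-- `⟨W W W⟩` -/
def TW : Tf → ℂ := Wt e1 fun I => Wt e2 fun J => Wt e3 fun K => τ I J K
/-- the divergence in the first slot -/
def DV (n : Ix) (J K : I2) (φ : Tf) : ℂ := ∑ m, τ (m, n) J K (Dv (e1 (bas m 1)) φ)
/-- `⟨div T, C, C⟩` -/
def DW (n : Ix) (b c : I3) : Tf → ℂ :=
  Ct e2 (fun J => Ct e3 (fun K => DV τ n J K) c) b

/-! ## polynomials -/

/-- `h = 0` -/
def z0 : P20 →ₐ[ℂ] P20 := aeval fun i : Fin 5 × Ix => if 3 ≤ i.1 then X i else 0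
/-- the components of the source of a divergence -/
def d5 (n : Ix) (J K : I2) (S : P20) : P20 := pderiv (0, n) (dp 1 J (dp 2 K S))
/-- `η_k ∂_k (χ_kmn - χ_mkn)` -/
def dvP (D : Ix → P20 → P20) (χ : I3 → P20) (I : I2) : P20 :=
  ∑ k, C (eta k : ℂ) * D k (χ (k, I.1, I.2) - χ (I.1, k, I.2))
/-- the symmetric part -/
def syP (β : I2 → P20) (I : I2) : P20 := C (1 / 2 : ℂ) * (β I + β I.swap)
/-- the adjoint of `Bt` -/
def trP (β : I2 → P20) (I : I2) : P20 := β I - C (gm I / 3) * ∑ k, C (eta k : ℂ) * β (k, k)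
/-- the adjoint of `Ct` -/
def AP (D : Ix → P20 → P20) (χ : I3 → P20) : I2 → P20 := trP (syP (dvP D χ))
/-- the derivative with respect to `z3` -/
def D3 (m : Ix) (S : P20) : P20 := pderiv (4, m) S
/-- the adjoint of `Ct` in the slots two and three -/
def A23 (Q : I3 → I3 → P20) (J K : I2) : P20 := AP D2 (fun b => AP D3 (Q b) K) J
/-- the weight `Re (U^2 conj(V)^2) (al u - al v)^6`, `U = u2 + i u3`, `V = v2 + i v3` -/
def PW : P20 := ((X (3, 2) ^ 2 - X (3, 3) ^ 2) * (X (4, 2) ^ 2 - X (4, 3) ^ 2) +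
  4 * X (3, 2) * X (3, 3) * X (4, 2) * X (4, 3)) * (linP vb 3 - linP vb 4) ^ 6

/-! ## rows -/

/-- linearity, symmetry, invariance; homogeneity of the Cotton components -/
structure RDW : Prop where
  lin : ∀ I J K φ ψ (a : ℂ), Dc φ → Dc ψ →
    τ I J K (fun z => φ z + a * ψ z) = τ I J K φ + a * τ I J K ψ
  ind : ∀ I J K, τ I.swap J K = τ I J K
  s12 : ∀ I J K φ, Dc φ → τ I J K (fun z => φ (-z.1, z.2 - z.1)) = τ J I K φ
  s13 : ∀ I J K φ, Dc φ → τ I J K (fun z => φ (z.2, z.1)) = τ K J I φ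
  inv : ∀ w I J K φ, So w → Dc φ → τ I J K (Xf w φ) + (∑ M, l2 w M I * τ M J K φ +
    ∑ M, l2 w M J * τ I M K φ + ∑ M, l2 w M K * τ I J M φ) = 0
  hom : ∀ a b c φ, Dc φ → (0 : V × V) ∉ tsupport φ → LC τ a b c (Ef φ) = 7 * LC τ a b c φ

/-- the divergence vanishes away from `z1 = z2` and `z1 = z3` -/
def DIVCW : Prop := ∀ n J K φ, Dc φ → tsupport φ ⊆ {z | z.1 ≠ 0 ∧ z.1 ≠ z.2} → DV τ n J K φ = 0

/-- the contact terms at `z1 = z2` -/
def DIVAW : Prop := ∀ θ : V → ℝ, Cut θ → ∃ ε > 0, ∀ χ : V → ℝ, Cut χ →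
  tsupport χ ⊆ Metric.ball 0 ε → ∀ (Q : Ix → I3 → I3 → P20) (Ξ3 ζ3 : P20), Deg 5 Ξ3 → Deg 6 ζ3 →
    box3 Ξ3 = 0 → dd3 Ξ3 = 0 → (∀ n b c, Deg 7 (Q n b c)) →
    (∀ n J K, A23 (Q n) J K = z0 (d5 n J K (Ξ3 + d3 ζ3))) →
    ∑ n, ∑ b, ∑ c, DW τ n b c (fun z => (χ z.1 : ℂ) * Ef (cx θ) z.2 * ev8 (Q n b c) z) = 0

/-- the residue of the flow `(0, 2 be, x)` vanishes -/
def RZW : Prop := ∀ (Θ : Tf) (κ : ℂ), Dc Θ → (∀ᶠ z in 𝓝 (0 : V × V), Θ z = κ) →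
  TW τ (fun z => (Ef Θ z - Xf wH Θ z) * ev8 PW z) = 0

/-- row RESW.coc -/
def COCW : Prop := ∀ τ, RDW τ → DIVCW τ → DIVAW τ → RZW τ

end

end Vale.Agent.P352L.RW
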