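import Vale.Agent.P352Y.T3D
import Vale.Agent.P352X.R.RES.Link
import Vale.Agent.P352X.R.RES.RedB
import Vale.Agent.P352L.W
import Vale.Agent.P352L.RES.WSpec

/-!
# P352L, block RESW: calculus of the slot operators, the reduced distribution (no context)
-/

set_option linter.all false

noncomputable section

open Filter Topology Set Metric MeasureTheory
open scoped SchwartzMap ComplexConjugate ContDiff LineDeriv

namespace Vale.Agent.P352L.RA

open Vale.Agent.P352 Vale.Agent.P352.GF Vale.Agent.P352.BW Vale.Agent.P352X Api4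
open Vale.Agent.P352Y (M3 e12 e23 s1 s2 sim3 Cv Rg Rr cj open_Rg open_Rr Rr_cover supp_red fib_red
  fib_sim t_fib tsupport_comp pull pull_apply Lh)
open Vale.Agent.P352X.ST (tens tensL tensR)
open RS RS.Red
open RS.Fib (lor_one)
open SchwartzMap (compCLMOfContinuousLinearEquiv)

/-! ## coefficients -/

section coeff

variable {M : Type*} [AddCommGroup M] [Module ℂ M]

lemma gm_eq (I : I2) : RW.gm I = (gm I : ℂ) := by
  obtain ⟨a, b⟩ := I
  by_cases h : a = b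
  · simp [RW.gm, gm, bas, h]
  · simp [RW.gm, gm, bas, h, Ne.symm h]

lemma sum_gm (β : I2 → M) : ∑ I, (gm I : ℂ) • β I = ∑ k, (eta k : ℂ) • β (k, k) := by
  simp [← gm_eq, RW.gm, Fintype.sum_prod_type]

lemma sum_sS (m n : Ix) (β : I2 → M) : ∑ I, (sS m n I : ℂ) • β I =
    (1 / 2 : ℂ) • (β (m, n) + β (n, m)) - (gm (m, n) / 3 : ℂ) • ∑ k, (eta k : ℂ) • β (k, k) := by
  have a : ∀ m n : Ix, ∑ I : I2, ((bas m 1 I.1 * bas n 1 I.2 : ℝ) : ℂ) • β I = β (m, n) :=
    fun m n => by simp [bas, Fintype.sum_prod_type, apply_ite Complex.ofReal, ite_and]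
  rw [← sum_gm, ← a m n, ← a n m, smul_add, Finset.smul_sum, Finset.smul_sum, Finset.smul_sum,
    ← Finset.sum_add_distrib, ← Finset.sum_sub_distrib]
  refine Finset.sum_congr rfl fun I _ => ?_
  simp only [smul_smul, ← add_smul, ← sub_smul, sS]
  congr 1
  push_cast
  ring

lemma sS_comm (I J : I2) : sS I.1 I.2 J = sS J.1 J.2 I := by
  have e : ∀ a b : Ix, bas a (1 : ℝ) b = bas b 1 a := fun a b => by simp [bas, eq_comm]
  simp only [sS, e I.1 J.1, e I.2 J.2, e I.2 J.1, e I.1 J.2]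
  ring

/-- the coefficients of `aD` -/
def ce (κ : I3) (I : I2) (s : Ix) : ℝ := (if s = κ.1 then eta κ.1 * sS κ.2.1 κ.2.2 I else 0) -
  if s = κ.2.1 then eta κ.2.1 * sS κ.1 κ.2.2 I else 0

lemma sum_ce (κ : I3) (I : I2) (x : Ix → M) : ∑ s, (ce κ I s : ℂ) • x s =
    ((eta κ.1 * sS κ.2.1 κ.2.2 I : ℝ) : ℂ) • x κ.1 -
      ((eta κ.2.1 * sS κ.1 κ.2.2 I : ℝ) : ℂ) • x κ.2.1 := by
  simp only [ce, Complex.ofReal_sub, sub_smul, Finset.sum_sub_distrib, apply_ite Complex.ofReal,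
    Complex.ofReal_zero, ite_smul, zero_smul, Finset.sum_ite_eq', Finset.mem_univ, if_true]

end coeff

/-! ## intertwiners -/

section slots

variable {E E' : Type*} [NormedAddCommGroup E] [NormedSpace ℝ E] [NormedAddCommGroup E']
  [NormedSpace ℝ E'] {e : V →L[ℝ] E} {e' : V →L[ℝ] E'}

lemma aD_ce (κ : I3) (I : I2) (F : 𝓢(E, ℂ)) :
    aD e κ I F = ∑ s, (ce κ I s : ℂ) • pD e s F := by
  rw [sum_ce]
  rfl

/-- `Φ` carries the slot `e` to the slot `e'` -/
structure It (a : ℝ) (Φ : 𝓢(E, ℂ) → 𝓢(E', ℂ)) (e : V →L[ℝ] E) (e' : V →L[ℝ] E') : Prop where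
  lin : IsLinearMap ℝ Φ
  d : ∀ x F, dD (e' x) (Φ F) = a • Φ (dD (e x) F)

variable {a : ℝ} {Φ : 𝓢(E, ℂ) → 𝓢(E', ℂ)}

lemma It.aD (h : It a Φ e e') (κ : I3) (I : I2) (F : 𝓢(E, ℂ)) :
    aD e' κ I (Φ F) = a • Φ (aD e κ I F) := by
  simp only [P352L.aD, pD, ContinuousLinearMap.sub_apply, ContinuousLinearMap.smul_apply,
    Complex.coe_smul, h.d, h.lin.map_sub, h.lin.map_smul, smul_sub, smul_comm a]

lemma It.aD1 (h : It 1 Φ e e') (κ : I3) (I : I2) (F : 𝓢(E, ℂ)) :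
    P352L.aD e' κ I (Φ F) = Φ (P352L.aD e κ I F) := (h.aD κ I F).trans (one_smul _ _)

lemma It.hD (h : It 1 Φ e e') (I : I2) (F : 𝓢(E, ℂ)) : hD e' I (Φ F) = Φ (hD e I F) := by
  have s : ∀ f : Ix → 𝓢(E, ℂ), Φ (∑ i, f i) = ∑ i, Φ (f i) := fun f => map_sum (h.lin.mk' Φ) f _
  simp only [P352L.hD, bD, pD, ContinuousLinearMap.add_apply, ContinuousLinearMap.smul_apply,
    ContinuousLinearMap.sum_apply, ContinuousLinearMap.mul_apply, Complex.coe_smul, h.d, one_smul,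
    h.lin.map_add, h.lin.map_smul, s]

lemma lin_of (Φ : 𝓢(E, ℂ) →L[ℂ] 𝓢(E', ℂ)) : IsLinearMap ℝ Φ :=
  ⟨map_add Φ, fun r F => Φ.map_smul_of_tower r F⟩

lemma it_of (Φ : 𝓢(E, ℂ) →L[ℂ] 𝓢(E', ℂ)) (h : ∀ x F, dD (e' x) (Φ F) = Φ (dD (e x) F)) :
    It 1 Φ e e' := ⟨lin_of Φ, fun x F => (h x F).trans (one_smul _ _).symm⟩

lemma dD_comp (g : E' ≃L[ℝ] E) (v : E') (F : 𝓢(E, ℂ)) :
    dD v (compCLMOfContinuousLinearEquiv ℂ g F) =
      compCLMOfContinuousLinearEquiv ℂ g (dD (g v) F) :=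
  SchwartzMap.lineDerivOp_compCLMOfContinuousLinearEquiv ℂ v g F

lemma it_comp (g : E' ≃L[ℝ] E) (h : ∀ x, g (e' x) = e x) :
    It 1 (compCLMOfContinuousLinearEquiv ℂ g) e e' := it_of _ fun x F => by rw [dD_comp, h]

lemma it_dD (v : E) (e : V →L[ℝ] E) : It 1 (dD v) e e :=
  it_of _ fun x F => congrArg (fun P : 𝓢(E, ℂ) →L[ℂ] 𝓢(E, ℂ) => P F) (dD_comm _ _)

lemma aD_comm (e e' : V →L[ℝ] E) (κ κ' : I3) (I J : I2) (F : 𝓢(E, ℂ)) :
    aD e κ I (aD e' κ' J F) = aD e' κ' J (aD e κ I F) :=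
  (it_of _ fun x F => ((it_dD _ e').aD1 κ' J F).symm).aD1 κ I F

lemma hD_comm (e e' : V →L[ℝ] E) (I J : I2) (F : 𝓢(E, ℂ)) :
    hD e I (hD e' J F) = hD e' J (hD e I F) :=
  (it_of _ fun x F => ((it_dD _ e').hD J F).symm).hD I F

lemma it_cj (e : V →L[ℝ] E) : It 1 cj e e :=
  ⟨⟨map_add cj, map_smul cj⟩, fun x F => SchwartzMap.ext fun z => by
    simp only [one_smul, dD_apply, SchwartzMap.lineDerivOp_apply, lineDeriv, P352Y.cj_apply]
    exact deriv.star⟩

lemma cj_cj (F : 𝓢(E, ℂ)) : cj (cj F) = F := SchwartzMap.ext fun _ => Complex.conj_conj _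

/-- dilations -/
def dl (t : ℝ) : 𝓢(E, ℂ) →L[ℂ] 𝓢(E, ℂ) := compCLMOfContinuousLinearEquiv ℂ
  (ContinuousLinearEquiv.smulLeft (Units.mk0 (Real.exp t) (Real.exp_ne_zero t)))

lemma dl_apply (t : ℝ) (F : 𝓢(E, ℂ)) (x : E) : dl t F x = F (Real.exp t • x) := rfl

lemma dD_dl (t : ℝ) (v : E) (F : 𝓢(E, ℂ)) : dD v (dl t F) = Real.exp t • dl t (dD v F) := by
  rw [dl, dD_comp, ← ContinuousLinearMap.map_smul_of_tower, ← Complex.coe_smul,
    ← ContinuousLinearMap.smul_apply, ← dD_smul]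
  rfl

lemma it_dl (t : ℝ) (e : V →L[ℝ] E) : It (Real.exp t) (dl t) e e :=
  ⟨lin_of _, fun x F => dD_dl t _ F⟩

lemma der_dl [FiniteDimensional ℝ E] (Λ : 𝓢(E, ℂ) →L[ℂ] ℂ) {F F' : 𝓢(E, ℂ)}
    (hF : ∀ x, F' x = fderiv ℝ F x x) {k : ℝ} (h : ∀ t, Λ (dl t F) = Real.exp (k * t) * Λ F) :
    Λ F' = k * Λ F := by
  have F0 : dl 0 F = F := SchwartzMap.ext fun x => by simp [dl_apply]
  have d := Lie.der (g := fun t => Real.exp t • 1) (a := fun _ => 0) (F := F) (F' := F')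
    (Ft := fun t => dl t F) ((Real.hasDerivAt_exp 0).smul_const (1 : E →L[ℝ] E))
    (hasDerivAt_const _ _) (by simp) rfl (.of_forall fun t x => by simp [dl_apply])
    fun x => by simp [hF]
  have d1 : HasDerivAt (fun t => Λ (dl t F)) (Λ F') 0 :=
    hasDerivAt_iff_tendsto_slope_zero.2 (((Λ.continuous.tendsto _).comp d).congr
      fun t => by simp [F0])
  rw [funext h] at d1
  simpa using d1.unique ((((hasDerivAt_id (0 : ℝ)).const_mul k).exp.ofReal_comp).mul_const _)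

lemma dD_tl (x : E) (f : 𝓢(E, ℂ)) (G : 𝓢(E', ℂ)) :
    dD ((x, 0) : E × E') (tens f G) = tens (dD x f) G := SchwartzMap.ext fun z => by
  simp [dD_apply, SchwartzMap.lineDerivOp_apply, lineDeriv]

lemma dD_tr (y : E') (f : 𝓢(E, ℂ)) (G : 𝓢(E', ℂ)) :
    dD ((0, y) : E × E') (tens f G) = tens f (dD y G) := SchwartzMap.ext fun z => by
  simp [dD_apply, SchwartzMap.lineDerivOp_apply, lineDeriv]

lemma ts_dD (v : E) (F : 𝓢(E, ℂ)) : tsupport (dD v F) ⊆ tsupport F :=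
  SchwartzMap.tsupport_lineDerivOp_subset v F

lemma ts_aD (e : V →L[ℝ] E) (κ : I3) (I : I2) (F : 𝓢(E, ℂ)) :
    tsupport (aD e κ I F) ⊆ tsupport F :=
  closure_minimal (fun x hx => by_contra fun k => hx (by
    have z := fun v => image_eq_zero_of_notMem_tsupport fun a => k (ts_dD v F a)
    simp [aD, pD, z])) (isClosed_tsupport _)

lemma pint_zero [FiniteDimensional ℝ E] (x : V) (G : 𝓢(V × E, ℂ)) :
    pint volume (dD ((x, 0) : V × E) G) = 0 := SchwartzMap.ext fun z => by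
  let g : Sch := sl z (compCLMOfContinuousLinearEquiv ℂ (ContinuousLinearEquiv.prodComm ℝ E V) G)
  have e : ∀ y, dD ((x, 0) : V × E) G (y, z) = dD x g y := fun y => by
    simp [dD_apply, SchwartzMap.lineDerivOp_apply, lineDeriv, g]
  have := integral_mul_fderiv_eq_neg_fderiv_mul_of_integrable (μ := volume) (f := fun _ => (1 : ℂ))
    (g := g) (v := x) (by simp) (by simpa only [one_mul, ← dD_eq] using (dD x g).integrable)
    (by simpa only [one_mul] using g.integrable) (fun _ _ => differentiableAt_const _)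
    fun y _ => g.differentiableAt
  simpa [e, dD_eq] using this

/-- pure gauge sources -/
lemma div_tr {G : Type*} [NormedAddCommGroup G] [NormedSpace ℂ G] {σ : I2 → 𝓢(E, ℂ) →L[ℂ] G}
    (hs : ∀ I, σ I.swap = σ I) (e : V →L[ℝ] E) (n : Ix) (F : 𝓢(E, ℂ)) :
    ∑ r, (eta r : ℂ) • ∑ I, σ I (aD e (n, r, r) I F) = -∑ m, σ (m, n) (pD e m F) := by
  have k : ∀ I, ∑ r, (eta r : ℂ) • σ I (aD e (n, r, r) I F) =
      -((bas n (1 / 2) I.1 : ℂ) • σ I (pD e I.2 F) + (bas n (1 / 2) I.2 : ℂ) • σ I (pD e I.1 F)) :=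
    fun I => by
      simpa only [ContinuousLinearMap.sum_apply, ContinuousLinearMap.smul_apply, map_sum, map_smul,
        ContinuousLinearMap.neg_apply, ContinuousLinearMap.add_apply, map_neg, map_add] using
        congrArg (fun P : 𝓢(E, ℂ) →L[ℂ] 𝓢(E, ℂ) => σ I (P F)) (aD_tr e n I)
  have h : ∀ m, σ (n, m) = σ (m, n) := fun m => hs (m, n)
  simp only [Finset.smul_sum]
  rw [Finset.sum_comm]
  simp only [k, Finset.sum_neg_distrib, Finset.sum_add_distrib, Fintype.sum_prod_type, bas,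
    apply_ite Complex.ofReal, Complex.ofReal_zero, ite_smul, zero_smul, Finset.sum_ite_eq',
    Finset.mem_univ, if_true, Finset.sum_ite_irrel, Finset.sum_const_zero, h, ← Finset.smul_sum,
    ← add_smul]
  norm_num

end slots

/-- the second slot in relative coordinates -/
def i3 : V →L[ℝ] V × V := -(i1 + i2)

lemma dD_fib (y : V) (v : V × V) (F : S3) :
    dD v (fib3 volume F) = fib3 volume (dD ((rd3 V).symm (y, v)) F) := by
  have e : ∀ G, fib3 volume G =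
      pint volume (compCLMOfContinuousLinearEquiv ℂ (rd3 V).symm G) := fun _ => rfl
  rw [e, e, ← dD_comp, show ((y, v) : V × V × V) = (y, 0) + (0, v) by simp, dD_add,
    ContinuousLinearMap.add_apply, map_add, pint_zero, zero_add]
  exact pint_deriv volume _ v

lemma it_f1 : It 1 (fib3 (volume : Measure V)) j1 i1 :=
  it_of _ fun x F => (dD_fib 0 _ F).trans (by simp [i1, j1, Prod.mk_zero_zero])

lemma it_f2 : It 1 (fib3 (volume : Measure V)) j2 i3 :=
  it_of _ fun x F => (dD_fib x _ F).trans (by simp [i1, i2, i3, j2])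

lemma it_f3 : It 1 (fib3 (volume : Measure V)) j3 i2 :=
  it_of _ fun x F => (dD_fib 0 _ F).trans (by simp [i2, j3])

lemma aD_t1 (κ : I3) (I : I2) (f : Sch) (G : S2) :
    aD j1 κ I (tens f G) = tens (aD i0 κ I f) G :=
  (it_of (tensL G) fun x f => dD_tl x f G).aD1 κ I f

lemma aD_t2 (κ : I3) (I : I2) (f : Sch) (G : S2) :
    aD j2 κ I (tens f G) = tens f (aD i1 κ I G) :=
  (it_of (tensR f) fun x G => dD_tr _ f G).aD1 κ I G

lemma aD_t3 (κ : I3) (I : I2) (f : Sch) (G : S2) :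
    aD j3 κ I (tens f G) = tens f (aD i2 κ I G) :=
  (it_of (tensR f) fun x G => dD_tr _ f G).aD1 κ I G

/-! ## functionals on functions with compact support -/

section fn

open RW (Tf Dv Bt Bx Wt aa)

variable {e : V → V × V} {ε : V →L[ℝ] V × V} {σ : I2 → Tf → ℂ} {σS : I2 → S2 →L[ℂ] ℂ} {φ : Tf}

lemma dc_Dv (hφ : Dc φ) (y : V × V) : Dc (Dv y φ) := dc_fderiv hφ contDiff_const

lemma sch_Dv (hφ : Dc φ) (y : V × V) : sch (Dv y φ) = dD y (sch φ) := sch_fderiv hφ y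

lemma Ct_eq (he : ∀ x, e x = ε x) (h : ∀ I φ, Dc φ → σ I φ = σS I (sch φ))
    (hs : ∀ I, σS I.swap = σS I) (a : I3) (φ : Tf) (hφ : Dc φ) :
    RW.Ct e σ a φ = (∑ I, σS I ∘L aD ε a I) (sch φ) := by
  have b : ∀ m n y, Bt σ (m, n) (Dv y φ) = ∑ I, (sS m n I : ℂ) • σS I (dD y (sch φ)) :=
    fun m n y => by
      rw [sum_sS, show σS (n, m) = σS (m, n) from hs (m, n)]
      simp only [Bt, h _ _ (dc_Dv hφ y), sch_Dv hφ, gm_eq, smul_eq_mul]
      ring
  simp only [RW.Ct, b, he, ContinuousLinearMap.sum_apply, ContinuousLinearMap.comp_apply, aD, pD,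
    ContinuousLinearMap.sub_apply, ContinuousLinearMap.smul_apply, map_sub, map_smul, smul_eq_mul,
    Finset.sum_sub_distrib, Finset.mul_sum, Complex.ofReal_mul, mul_assoc]

lemma Wt_eq (he : ∀ x, e x = ε x) (h : ∀ I φ, Dc φ → σ I φ = σS I (sch φ)) (φ : Tf) (hφ : Dc φ) :
    Wt e σ φ = (∑ I, σS I ∘L hD ε I) (sch φ) := by
  have d := fun m => dc_const_mul (eta m : ℂ) (dc_Dv (dc_Dv hφ (e (bas m 1))) (e (bas m 1)))
  have b : sch (Bx e φ) = bD ε (sch φ) := by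
    rw [show sch (Bx e φ) = _ from sch_sum _ fun m _ => d m]
    simp only [sch_const_mul _ (dc_Dv (dc_Dv hφ _) _), sch_Dv (dc_Dv hφ _), sch_Dv hφ, he, bD, pD,
      ContinuousLinearMap.sum_apply, ContinuousLinearMap.smul_apply, ContinuousLinearMap.mul_apply]
  simp only [Wt, h _ _ (dc_Dv (dc_Dv hφ _) _), h _ (Bx e φ) (dc_sum _ fun m _ => d m), b,
    sch_Dv (dc_Dv hφ _), sch_Dv hφ, he, ContinuousLinearMap.sum_apply,
    ContinuousLinearMap.comp_apply, hD, ContinuousLinearMap.add_apply,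
    ContinuousLinearMap.smul_apply, ContinuousLinearMap.mul_apply, map_add, map_smul, smul_eq_mul,
    Finset.sum_add_distrib, Finset.mul_sum, gm_eq, aa, la, Complex.ofReal_mul, mul_assoc,
    Complex.ofReal_ofNat]

lemma e1_eq (x : V) : RW.e1 x = i1 x := rfl
lemma e2_eq (x : V) : RW.e2 x = i3 x := by simp [RW.e2, i3, i1, i2]
lemma e3_eq (x : V) : RW.e3 x = i2 x := rfl

end fn

/-! ## symmetric Poincare covariant multiplets -/

/-- symmetry and Poincare covariance -/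
structure Sy (t : M3) : Prop where
  s1 : ∀ I J K F, t I J K (s1 F) = t J I K F
  s2 : ∀ I J K F, t I J K (s2 F) = t I K J F
  ind : ∀ I J K, t I.swap J K = t I J K
  cv : ∀ L (hL : IsLor L) a F, Cv one_pos hL a t F

variable {t : M3} {ρ : Sch}

lemma Sy.ind2 (h : Sy t) (I J K : I2) : t I J.swap K = t I J K :=
  ContinuousLinearMap.ext fun F => by rw [← h.s1, h.ind, h.s1]

lemma Sy.ind3 (h : Sy t) (I J K : I2) : t I J K.swap = t I J K :=
  ContinuousLinearMap.ext fun F => by rw [← h.s2, h.ind2, h.s2]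

variable (t ρ) in
/-- the reduced distribution -/
def tS (I J K : I2) : S2 →L[ℂ] ℂ := t I J K ∘L red3 ρ

variable (t ρ) in
def tau (I J K : I2) (φ : RW.Tf) : ℂ := tS t ρ I J K (sch φ)

lemma Sy.fib (h : Sy t) (h1 : ∫ y, ρ y = 1) (I J K : I2) (F : S3) :
    t I J K F = tS t ρ I J K (fib3 volume F) := t_fib (h.cv _ lor_one) h1 I J K F

variable (t) in
/-- `⟨C C C⟩` on three points -/
def TC (a b c : I3) : S3 →L[ℂ] ℂ :=
  ∑ I, ∑ J, ∑ K, t I J K ∘L aD j3 c K ∘L aD j2 b J ∘L aD j1 a I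

variable (t ρ) in
/-- `⟨C C C⟩` in relative coordinates -/
def LS (a b c : I3) : S2 →L[ℂ] ℂ :=
  ∑ I, (∑ J, (∑ K, tS t ρ I J K ∘L aD i2 c K) ∘L aD i3 b J) ∘L aD i1 a I

lemma TC_apply (a b c : I3) (F : S3) : TC t a b c F =
    ∑ I, ∑ J, ∑ K, t I J K (aD j3 c K (aD j2 b J (aD j1 a I F))) := by
  simp only [TC, ContinuousLinearMap.sum_apply, ContinuousLinearMap.comp_apply]

lemma LS_apply (a b c : I3) (φ : S2) : LS t ρ a b c φ =
    ∑ I, ∑ J, ∑ K, tS t ρ I J K (aD i2 c K (aD i3 b J (aD i1 a I φ))) := by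
  simp only [LS, ContinuousLinearMap.sum_apply, ContinuousLinearMap.comp_apply]

lemma Sy.TC_fib (h : Sy t) (h1 : ∫ y, ρ y = 1) (a b c : I3) (F : S3) :
    TC t a b c F = LS t ρ a b c (fib3 volume F) := by
  simp only [TC_apply, LS_apply, it_f1.aD1, it_f2.aD1, it_f3.aD1, ← h.fib h1]

lemma Sy.TC1 (h : Sy t) (a b c : I3) (F : S3) : TC t a b c (P352Y.s1 F) = TC t b a c F := by
  have k1 : It 1 P352Y.s1 j2 j1 := it_comp e12 fun _ => rfl
  have k2 : It 1 P352Y.s1 j1 j2 := it_comp e12 fun _ => rfl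
  have k3 : It 1 P352Y.s1 j3 j3 := it_comp e12 fun _ => rfl
  simp only [TC_apply, k1.aD1, k2.aD1, k3.aD1, h.s1, aD_comm j1 j2]
  exact Finset.sum_comm

lemma Sy.TC2 (h : Sy t) (a b c : I3) (F : S3) : TC t a b c (P352Y.s2 F) = TC t a c b F := by
  have k1 : It 1 P352Y.s2 j1 j1 := it_comp e23 fun _ => rfl
  have k2 : It 1 P352Y.s2 j3 j2 := it_comp e23 fun _ => rfl
  have k3 : It 1 P352Y.s2 j2 j3 := it_comp e23 fun _ => rfl
  simp only [TC_apply, k1.aD1, k2.aD1, k3.aD1, h.s2, aD_comm j2 j3]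
  exact Finset.sum_congr rfl fun _ _ => Finset.sum_comm

lemma Sy.LC_eq (h : Sy t) (a b c : I3) (φ : RW.Tf) (hφ : Dc φ) :
    RW.LC (tau t ρ) a b c φ = LS t ρ a b c (sch φ) := by
  have k3 := fun I J => Ct_eq (σ := fun K => tau t ρ I J K) (σS := tS t ρ I J) e3_eq
    (fun K _ _ => rfl) (fun K => by rw [tS, h.ind3, tS]) c
  have k2 := fun I => Ct_eq e2_eq (k3 I) (fun J => by simp only [tS, h.ind2]) b
  have k := Ct_eq e1_eq k2 (fun I => by simp only [tS, h.ind]) a φ hφ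
  unfold RW.LC LS
  with_reducible exact k

/-- the supports of the two legs -/
def lg (G : S2) : Set V := Prod.fst '' tsupport G ∪ Prod.snd '' tsupport G

lemma lg_mono {G G' : S2} (h : tsupport G' ⊆ tsupport G) : lg G' ⊆ lg G :=
  union_subset_union (image_mono h) (image_mono h)

/-- **the six regions** -/
lemma six {ι : Type*} {Λ : ι → ι → ι → S3 →L[ℂ] ℂ} (h1 : ∀ a b c F, Λ a b c (s1 F) = Λ b a c F)
    (h2 : ∀ a b c F, Λ a b c (s2 F) = Λ a c b F)
    (hA : ∀ a b c (f : Sch) G, Late (tsupport f) (lg G) → Λ a b c (tens f G) = 0)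
    (hB : ∀ a b c (f : Sch) G, Late (lg G) (tsupport f) → Λ a b c (tens f G) = 0) (a b c : ι) {F : S3}
    (hF : ∀ x, (x, x, x) ∉ tsupport F) : Λ a b c F = 0 := by
  have k0 : ∀ e a b c (F : S3), tsupport F ⊆ Rg e → Λ a b c F = 0 := fun e a b c =>
    ST.ker2 _ (open_Rg e) fun f G _ _ s => by
      cases e
      · refine hB a b c f G ?_
        rintro _ (⟨q, hq, rfl⟩ | ⟨q, hq, rfl⟩) x hx
        exacts [(s (mk_mem_prod hx hq)).1, (s (mk_mem_prod hx hq)).2]
      · refine hA a b c f G ?_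
        rintro x hx _ (⟨q, hq, rfl⟩ | ⟨q, hq, rfl⟩)
        exacts [(s (mk_mem_prod hx hq)).1, (s (mk_mem_prod hx hq)).2]
  have k1 : ∀ e a b c (F : S3), tsupport F ⊆ e12 ⁻¹' Rg e → Λ a b c F = 0 := fun e a b c F s =>
    (h1 b a c F).symm.trans (k0 e _ _ _ _ fun z hz =>
      s (tsupport_comp e12.continuous (fun _ a => a) hz))
  refine ST.vanish_local _ F fun q hq => ?_
  obtain ⟨x, y, z⟩ := q
  obtain ⟨e, i, hi⟩ := Rr_cover (x := x) (y := y) (z := z) (by rintro ⟨rfl, rfl⟩; exact hF _ hq)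
  obtain ⟨δ, hδ, hb⟩ := Metric.isOpen_iff.1 (open_Rr e i) _ hi
  refine ⟨δ, hδ, fun f hf => ?_⟩
  replace hf := hf.trans hb
  fin_cases i
  exacts [k0 e _ _ _ _ hf, k1 e _ _ _ _ hf, (h2 a c b f).symm.trans (k1 e _ _ _ _ fun z hz =>
    hf (tsupport_comp e23.continuous (fun _ a => a) hz))]

/-- the diagonal action on two points -/
def bi : (V →L[ℝ] V) →L[ℝ] (V × V) →L[ℝ] V × V := LinearMap.toContinuousLinearMap
  { toFun := fun g => g.prodMap g
    map_add' := fun _ _ => ContinuousLinearMap.ext fun _ => rfl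
    map_smul' := fun _ _ => ContinuousLinearMap.ext fun _ => rfl }

lemma bi_mat (L : Ix → V) (z : V × V) : bi (mat L) z = (sim 1 L 0 z.1, sim 1 L 0 z.2) := by
  rw [sim_mat, sim_mat, one_smul, one_smul]
  rfl

/-- infinitesimal Lorentz invariance -/
lemma Sy.inf (h : Sy t) (h1 : ∫ y, ρ y = 1) {w : Ix → V} (hw : So w) (I J K : I2) {φ φ' : S2}
    (e : ∀ z, φ' z = Xf w φ z) : tS t ρ I J K φ' + (∑ M, l2 w M I * tS t ρ M J K φ +
      ∑ M, l2 w M J * tS t ρ I M K φ + ∑ M, l2 w M K * tS t ρ I J M φ) = 0 := by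
  classical
  obtain ⟨L, hL, L0, hI⟩ := ex_flow hw
  let Ft : ℝ → S2 := fun s => if k : IsLor (L s) then pull k φ else 0
  have e1 : ∀ᶠ s in 𝓝 (0 : ℝ), ∀ z, Ft s z = φ (bi (mat (L s)) z + 0) := hI.mono fun s k z => by
    rw [add_zero, bi_mat, show Ft s = pull k φ from dif_pos k, pull_apply, Lh]
  have g0 : bi (mat (L 0)) = 1 := by
    rw [L0, mat_one]
    rfl
  have F0 : Ft 0 = φ := SchwartzMap.ext fun z => by simpa [g0] using e1.self_of_nhds z
  have e2 := Lie.der (F' := φ') (bi.hasFDerivAt.comp_hasDerivAt 0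
    (mat.hasFDerivAt.comp_hasDerivAt 0 hL)) (hasDerivAt_const _ _) g0 rfl e1 fun z => by
      rw [e, add_zero, bi_mat, Xf]
  have e3 : ∀ I J K, HasDerivAt (fun s => tS t ρ I J K (Ft s)) (tS t ρ I J K φ') 0 := fun I J K =>
    hasDerivAt_iff_tendsto_slope_zero.2 ((((tS t ρ I J K).continuous.tendsto _).comp e2).congr
      fun s => by simp [F0])
  have e4 := HasDerivAt.fun_sum (u := Finset.univ) fun I' _ => HasDerivAt.fun_sum
    (u := Finset.univ) fun J' _ => HasDerivAt.fun_sum (u := Finset.univ) fun K' _ =>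
      (((L2_der hL L0 I' I).fun_mul (L2_der hL L0 J' J)).fun_mul (L2_der hL L0 K' K)).fun_mul
        (e3 I' J' K')
  have e5 := (e4.unique ((hasDerivAt_const 0 (tS t ρ I J K φ)).congr_of_eventuallyEq (by
    filter_upwards [hI] with s k
    have := h.cv _ k 0 (red3 ρ φ) I J K
    simp only [h.fib h1, fib_sim, fib_red h1] at this
    rw [this, show Ft s = pull k φ from dif_pos k])))
  rw [← e5]
  simp only [L0, L2_one, F0, add_mul, Finset.sum_add_distrib, ite_mul, mul_ite, one_mul, zero_mul,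
    mul_one, mul_zero, Finset.sum_ite_eq', Finset.mem_univ, if_true, Finset.sum_ite_irrel,
    Finset.sum_const_zero]
  ring

lemma fib_dl (s : ℝ) (F : S3) :
    fib3 volume (dl s F) = Real.exp (-4 * s) • dl s (fib3 volume F) := SchwartzMap.ext fun z => by
  have := Measure.integral_comp_smul (volume : Measure V)
    (fun y => F (y + Real.exp s • z.1, y, y + Real.exp s • z.2)) (Real.exp s)
  rw [Module.finrank_fin_fun, ← Real.exp_nat_mul, ← Real.exp_neg, abs_of_pos (Real.exp_pos _),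
    ← neg_mul, Nat.cast_ofNat] at this
  simpa [dl_apply] using this

/-- row RDW -/
theorem Sy.rdw (h : Sy t) (h1 : ∫ y, ρ y = 1) (sc : ∀ s a b c (F : S3),
    (∀ x, (x, x, x) ∉ tsupport F) → TC t a b c (dl s F) = Real.exp (3 * s) * TC t a b c F) :
    RW.RDW (tau t ρ) where
  lin I J K φ ψ a hφ hψ := by rw [tau, sch_lin hφ hψ, map_add, map_smul, smul_eq_mul, tau, tau]
  ind I J K := funext fun φ => by rw [tau, tS, h.ind, tau, tS]
  s12 I J K φ hφ := by
    have k : Dc fun z : V × V => φ (-z.1, z.2 - z.1) := dc_inj hφ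
      ((-ContinuousLinearMap.fst ℝ V V).prod (.snd ℝ V V - .fst ℝ V V)) fun ⟨x, y⟩ e => by
        obtain ⟨k1, k2⟩ := Prod.mk_eq_zero.1 e
        obtain rfl : x = 0 := by simpa using k1
        simpa using k2
    refine (h.s1 J I K _).symm.trans ((h.fib h1 _ _ _ _).trans
      (congrArg _ (SchwartzMap.ext fun z => ?_)))
    change ∫ y, red3 ρ (sch fun z : V × V => φ (-z.1, z.2 - z.1)) (y, y + z.1, y + z.2) = _
    simp [sch_apply k, sch_apply hφ, integral_mul_const,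
      integral_add_right_eq_self (fun y => ρ y), h1]
  s13 I J K φ hφ := by
    have k : Dc fun z : V × V => φ (z.2, z.1) := dc_inj hφ
      ((ContinuousLinearMap.snd ℝ V V).prod (.fst ℝ V V))
      fun ⟨x, y⟩ e => Prod.mk_eq_zero.2 (Prod.mk_eq_zero.1 e).symm
    refine ((h.s1 J I K _).symm.trans ((h.s2 J K I _).symm.trans (h.s1 K J I _).symm)).trans
      (congrArg _ (SchwartzMap.ext fun ⟨x, y, z⟩ => ?_))
    change red3 ρ (sch fun z : V × V => φ (z.2, z.1)) (z, y, x) = red3 ρ (sch φ) (x, y, z)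
    simp only [red3_apply, sch_apply hφ, sch_apply k]
  inv w I J K φ hw hφ := h.inf h1 hw I J K fun z => by
    have k := dc_der hφ (bi (mat w))
    simp only [bi_mat] at k
    rw [coe_sch hφ]
    exact sch_apply k z
  hom a b c φ hφ h0 := by
    rw [h.LC_eq a b c (Ef φ) (dc_der hφ 1), h.LC_eq a b c _ hφ]
    refine der_dl _ (k := 7) (fun z => by rw [coe_sch hφ]; exact sch_apply (dc_der hφ 1) z)
      fun s => ?_
    have := sc s a b c (red3 ρ (sch φ)) fun x k => h0 (by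
      have m := supp_red ρ (sch φ) k
      rw [tsupport_sch hφ] at m
      simpa [Prod.mk_zero_zero] using m)
    rw [h.TC_fib h1, h.TC_fib h1, fib_dl, fib_red h1] at this
    generalize LS t ρ a b c = Λ, sch φ = ψ at this ⊢
    rw [Λ.map_smul_of_tower, Complex.real_smul] at this
    rw [show 7 * s = 4 * s + 3 * s by ring, Real.exp_add, Complex.ofReal_mul, mul_assoc, ← this,
      ← mul_assoc, ← Complex.ofReal_mul, ← Real.exp_add]
    simp

/-! ## the link -/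

lemma ev8_PW (y : V) (z : V × V) : ev8 RW.PW z =
    (((tx (y - (y + z.1)) 0 ^ 2 - tx (y - (y + z.1)) 1 ^ 2) *
      (tx (y - (y + z.2)) 0 ^ 2 - tx (y - (y + z.2)) 1 ^ 2) +
      4 * (tx (y - (y + z.1)) 0 * tx (y - (y + z.1)) 1 *
        (tx (y - (y + z.2)) 0 * tx (y - (y + z.2)) 1))) * (al (y + z.1) - al (y + z.2)) ^ 6 : ℝ) := by
  have e : ev8 (linP vb 3 - linP vb 4) z = (al (y + z.1) - al (y + z.2) : ℝ) := by
    simp [ev8, linP, al, GF.mdot, Fin.sum_univ_four]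
    ring
  rw [RW.PW, ev8_mul, show ∀ S : P20, ev8 (S ^ 6) z = ev8 S z ^ 6 from fun S => map_pow _ _ _, e,
    Complex.ofReal_mul, Complex.ofReal_pow]
  congr 1
  simp [ev8]
  ring

lemma Sy.TW_eq (h : Sy t) (h1 : ∫ y, ρ y = 1) {φ : RW.Tf} (hφ : Dc φ) {G : S3}
    (e : ∀ z, fib3 volume G z = φ z) : RW.TW (tau t ρ) φ =
      ∑ J, ∑ I, ∑ K, t I J K (hD j1 I (hD j3 K (hD j2 J G))) := by
  rw [show RW.TW (tau t ρ) φ = _ from Wt_eq e1_eq (fun I => Wt_eq e2_eq fun J =>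
    Wt_eq (σS := tS t ρ I J) e3_eq fun K _ _ => rfl) φ hφ, sch_eq _ e, Finset.sum_comm]
  simp only [ContinuousLinearMap.sum_apply, ContinuousLinearMap.comp_apply, it_f1.hD, it_f2.hD,
    it_f3.hD, ← h.fib h1, hD_comm j1 j3, hD_comm j1 j2]

end Vale.Agent.P352L.RA
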