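import Vale.Agent.P352X.R.RES.DvD
import Vale.Agent.P352L.Den
import Vale.Agent.P352L.RES.An1

/-!
# P352L, block RESW: densities with logarithms (no context)
-/

set_option linter.all false

noncomputable section

open Filter Topology Set Metric MeasureTheory
open scoped SchwartzMap ComplexConjugate ContDiff LineDeriv

namespace Vale.Agent.P352L.RA

open Vale.Agent.P352 Vale.Agent.P352.GF Vale.Agent.P352.BW Vale.Agent.P352.H496
open Vale.Agent.P352X Api4 RS RS.Dva
open Vale.Agent.P352X.ST (tens tensL tensR)
open MvPolynomial (X C)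
open Complex (I)

/-- polynomials in the momentum and in the logarithm -/
abbrev LP := Polynomial P4

/-- the value for the momentum `p` and the logarithm `y` -/
def evl (y : ℝ) (p : V) : LP →ₐ[ℂ] ℂ :=
  Polynomial.aevalTower (MvPolynomial.aeval fun m => (p m : ℂ)) (y : ℂ)

variable {x y : ℝ} {p : V} {f g m : Sch} {q q' : LP}

lemma evl_smul (a : P4) (q : LP) : evl y p (a • q) = evp a p * evl y p q := by
  rw [Polynomial.smul_eq_C_mul, map_mul, evl, Polynomial.aevalTower_C]
  rfl

lemma evl_mon (j : ℕ) (a : P4) : evl y p (Polynomial.monomial j a) = (y : ℂ) ^ j * evp a p := by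
  rw [← Polynomial.smul_X_eq_monomial, evl_smul, map_pow, evl, Polynomial.aevalTower_X, mul_comm]

lemma evl_zero (q : LP) : evl 0 p q = evp (q.coeff 0) p := by
  induction q using Polynomial.induction_on' with
  | add a b ha hb => rw [map_add, ha, hb, Polynomial.coeff_add, evp_add]
  | monomial j a => rw [evl_mon]; cases j <;> simp [Polynomial.coeff_monomial, evp]

lemma int_evl (x : ℝ) (q : LP) (f g : Sch) : IntegrableOn (fun p =>
    evl (Real.log (mu p) + x) p q * (conj (ft (ev f) p) * ft (ev g) p)) Fc := by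
  induction q using Polynomial.induction_on' with
  | add a b ha hb => simp only [map_add, add_mul]; exact ha.add hb
  | monomial j a =>
    have := Two.int_pol (n := j) (q := fun t => (2 * t + x) ^ j) ((IsPol.of_poly (F := (· ^ j)) {0}
      (fun _ : ℕ => Polynomial.X ^ j) (fun _ => (1 : ℝ)) (by simp) (by simp)).aff 2 x) a
      ⟨f, rfl⟩ ⟨g, rfl⟩
    simpa only [Two.lm, mul_div_cancel₀ _ (two_ne_zero' ℝ), evl_mon, Complex.ofReal_pow] using this

lemma cont_evl (x : ℝ) (q : LP) : ContinuousOn (fun p => evl (Real.log (mu p) + x) p q) Fc := by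
  induction q using Polynomial.induction_on' with
  | add a b ha hb => simp only [map_add]; exact ha.add hb
  | monomial j a =>
    simp only [evl_mon]
    exact ((Complex.continuous_ofReal.comp_continuousOn ((cont_mu.continuousOn.log
      fun p hp => ne_of_gt hp.1).add continuousOn_const)).pow j).mul (tev a).1.continuous.continuousOn

/-- the overlap with the density `q` -/
def LI (x : ℝ) (f g : Sch) : LP →ₗ[ℂ] ℂ where
  toFun q := ∫ p in Fc, evl (Real.log (mu p) + x) p q * (conj (ft (ev f) p) * ft (ev g) p)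
  map_add' a b := by
    simp only [map_add, add_mul]
    exact integral_add (int_evl x a f g) (int_evl x b f g)
  map_smul' a q := by
    simp only [map_smul, smul_eq_mul, mul_assoc, integral_const_mul, RingHom.id_apply]

lemma LI_apply (q : LP) : LI x f g q =
    ∫ p in Fc, evl (Real.log (mu p) + x) p q * (conj (ft (ev f) p) * ft (ev g) p) := rfl

/-- the symbol of the partial derivative -/
def xm (s : Ix) : P4 := (-I * eta s) • X s

lemma ft_pD (s : Ix) (g : Sch) (p : V) : ft (ev (pD i0 s g)) p = evp (xm s) p * ft (ev g) p := by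
  rw [ev_pD, ft_pd ⟨g, rfl⟩]
  simp [xm, evp, mul_assoc]

lemma LI_r (s : Ix) : LI x f (pD i0 s g) q = LI x f g (xm s • q) := by
  simp only [LI_apply, ft_pD, evl_smul]
  exact integral_congr_ae (.of_forall fun p => by ring)

lemma LI_l (s : Ix) : LI x (pD i0 s f) g q = -LI x f g (xm s • q) := by
  simp only [LI_apply, ft_pD, evl_smul, ← integral_neg]
  refine integral_congr_ae (.of_forall fun p => ?_)
  simp [xm, evp]
  ring

lemma ft_dl (t : ℝ) (f : Sch) (p : V) :
    ft (ev (dl t f)) (Real.exp t • p) = (Real.exp (-4 * t) : ℝ) * ft (ev f) p := by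
  have h0 := Real.exp_pos t
  refine (ft_conf0 (conf_smul h0.ne') (ev f) _).trans ?_
  rw [smul_smul, smul_smul, mul_assoc _ _ (Real.exp t), ← pow_two, inv_mul_cancel₀ (by positivity),
    one_smul, ← pow_mul, ← Real.exp_nat_mul, ← Real.exp_neg]
  norm_num

lemma LI_dl {t : ℝ} {κ : ℂ} (h : ∀ y p, evl y (Real.exp t • p) q' = κ * evl y p q) :
    LI 0 (dl t f) (dl t g) q' = (Real.exp (-4 * t) : ℝ) * κ * LI (2 * t) f g q := by
  have h0 := Real.exp_pos t
  rw [LI_apply, (scF_smul h0).integral', LI_apply, inv_inv, ← integral_const_mul, ← integral_smul]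
  refine setIntegral_congr_fun meas_Fc fun p hp => ?_
  have e : Real.log (mu (Real.exp t • p)) + 0 = Real.log (mu p) + 2 * t := by
    rw [show mu (Real.exp t • p) = Real.exp t ^ 2 * mu p from (conf_smul h0.ne').md p p,
      Real.log_mul (y := mu p) (by positivity) (ne_of_gt hp.1), Real.log_pow, Real.log_exp]
    simp [add_comm]
  have e2 : ((Real.exp t ^ 4 : ℝ) : ℂ) * (Real.exp (-4 * t) : ℝ) = 1 := by
    rw [← Complex.ofReal_mul, ← Real.exp_nat_mul, ← Real.exp_add]
    simp
  simp only [h, e, ft_dl, map_mul, Complex.conj_ofReal, Complex.real_smul]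
  linear_combination (Real.exp (-4 * t) : ℝ) * κ * evl (Real.log (mu p) + 2 * t) p q *
    (conj (ft (ev f) p) * ft (ev g) p) * e2

/-- **homogeneous overlaps have no logarithms** -/
lemma log_drop (h : ∀ x f, LI x f g q = LI 0 f g q) (f : Sch) :
    LI 0 f g q = ∫ p in Fc, evp (q.coeff 0) p * (conj (ft (ev f) p) * ft (ev g) p) := by
  have k : ∀ x, EqOn (fun p => (evl (Real.log (mu p) + x) p q - evl (Real.log (mu p) + 0) p q) *
      ft (ev g) p) (fun _ => 0) Fc := fun x => by
    have c := ((cont_evl x q).sub (cont_evl 0 q)).mul (cont_ft ⟨g, rfl⟩).continuousOn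
    refine Measure.eqOn_open_of_ae_eq (μ := volume) ((ae_restrict_iff' meas_Fc).2
      (isOpen_Fc.ae_eq_zero_of_integral_contDiff_smul_eq_zero (c.locallyIntegrableOn meas_Fc)
        fun ψ h1 h2 h3 => ?_)) isOpen_Fc c continuousOn_const
    have := sub_eq_zero.2 (h x (ftS.symm (sch (cx ψ))))
    rw [LI_apply, LI_apply, ← integral_sub (int_evl _ _ _ _) (int_evl _ _ _ _), ft_symm,
      show ev (sch (cx ψ)) = cx ψ from coe_sch (dc_cx ⟨h1, h2⟩),
      setIntegral_eq_integral_of_forall_compl_eq_zero fun p hp => by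
        simp [cx, image_eq_zero_of_notMem_tsupport fun k => hp (h3 k)]] at this
    refine Eq.trans (integral_congr_ae (.of_forall fun p => ?_)) this
    simp [cx]
    ring
  refine setIntegral_congr_fun meas_Fc fun p hp => ?_
  have := k (-Real.log (mu p)) hp
  simp only [add_neg_cancel, evl_zero] at this
  linear_combination -conj (ft (ev f) p) * this

end Vale.Agent.P352L.RA
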