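import Vale.Agent.P352X.R.RES.Divc
import Vale.Agent.P352L.Spec2
import Vale.Agent.P352L.RES.An2

/-!
# P352L, block RESW: the divergence of the three point function (no context)
-/

set_option linter.all false

noncomputable section

open Filter Topology Set Metric MeasureTheory
open scoped SchwartzMap ComplexConjugate ContDiff LineDeriv

namespace Vale.Agent.P352L.RA

open Vale.Agent.P352 Vale.Agent.P352.GF Vale.Agent.P352.BW Vale.Agent.P352.H496
open Vale.Agent.P352X Api4 RS RS.Dva RS.Red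
open Vale.Agent.P352Y (M3 s1 s2 cj supp_red fib_red tsupport_comp tsupport_cj)
open Vale.Agent.P352X.ST (tens tensL tensR)
open UniformSpace (Completion)
open Complex (I)
open MvPolynomial (pderiv)

/-! ## the densities of the contact terms -/

section dens

/-- families of densities -/
abbrev FM (M : Type*) := (k : ℕ) → (Fin k → Ix) → M

variable {M : Type*} [AddCommGroup M] [Module ℂ M] [Module P4 M] (k0 : ℕ)

/-- the density of the contact terms -/
def QG (π : FM M) (m : V → ℂ) : M :=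
  ∑ k ∈ Finset.range (k0 + 1), ∑ γ, (k.factorial : ℂ)⁻¹ • d0 γ m • π k γ

/-- the same between Cotton components -/
def QW (π : I2 → I2 → FM M) (b c : I3) (m : Sch) : M :=
  ∑ K, ∑ J, ∑ t, ∑ s, (ce c K t : ℂ) • (ce b J s : ℂ) • xm t •
    (QG k0 (π J K) (pD i0 s m) - xm s • QG k0 (π J K) m)

/-- the terms without logarithms -/
def c0 (π : I2 → I2 → FM LP) : I2 → I2 → FM P4 := fun J K k γ => (π J K k γ).coeff 0

lemma QW_c0 (π : I2 → I2 → FM LP) (b c : I3) (m : Sch) :
    (QW k0 π b c m).coeff 0 = QW k0 (c0 π) b c m := by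
  simp only [QW, QG, c0, Polynomial.finset_sum_coeff, Polynomial.coeff_smul, Polynomial.coeff_sub]

lemma d0_dl {k : ℕ} (γ : Fin k → Ix) (t : ℝ) (m : Sch) :
    d0 γ (dl t m) = (Real.exp t : ℂ) ^ k * d0 γ m := by
  have := congrFun (iteratedFDeriv_comp_const_smul (Real.exp t) (m.smooth k)) 0
  rw [smul_zero] at this
  rw [d0, show (dl t m : V → ℂ) = fun z => m (Real.exp t • z) from rfl, this]
  simp [d0]

lemma QW_dl {π : I2 → I2 → FM LP} (h : ∀ J K k γ y p (s : ℝ),
    (s : ℂ) ^ k * evl y (s • p) (π J K k γ) = s ^ 5 * evl y p (π J K k γ)) (b c : I3) (m : Sch)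
    (t y : ℝ) (p : V) : evl y (Real.exp t • p) (QW k0 π b c (dl t m)) =
      (Real.exp t : ℂ) ^ 7 * evl y p (QW k0 π b c m) := by
  have a : ∀ J K (m : Sch) (r : ℝ), evl y (Real.exp t • p) (QG k0 (π J K) (r • dl t m : Sch)) =
      r * (Real.exp t : ℂ) ^ 5 * evl y p (QG k0 (π J K) m) := fun J K m r => by
    simp only [QG, map_sum, map_smul, smul_eq_mul, Finset.mul_sum]
    refine Finset.sum_congr rfl fun k _ => Finset.sum_congr rfl fun γ _ => ?_
    rw [show d0 γ (r • dl t m : Sch) = _ from d0_mul γ ((dl t m).smooth ⊤) r, d0_dl]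
    linear_combination (k.factorial : ℂ)⁻¹ * r * d0 γ m * h J K k γ y p (Real.exp t)
  have a1 := fun J K m => a J K m 1
  have x : ∀ s, evp (xm s) (Real.exp t • p) = Real.exp t * evp (xm s) p := fun s => by
    simp [xm, evp]
    ring
  simp only [one_smul] at a1
  simp only [QW, map_sum, map_smul, evl_smul, map_sub, pD, dD_dl, a, a1, x, smul_eq_mul,
    Finset.mul_sum]
  refine Finset.sum_congr rfl fun K _ => Finset.sum_congr rfl fun J _ =>
    Finset.sum_congr rfl fun u _ => Finset.sum_congr rfl fun s _ => ?_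
  push_cast
  ring

end dens

variable {D : Type*} [NormedAddCommGroup D] [InnerProductSpace ℂ D]
  {T : I2 → Sch →L[ℂ] Completion D} {w wp wm : I2 → I2 → S2 →L[ℂ] Completion D} {k0 : ℕ}
  {π : Ix → I2 → I2 → FM LP}

variable (T) in
/-- the Cotton components -/
def TA (κ : I3) : Sch →L[ℂ] Completion D := ∑ I, T I ∘L aD i0 κ I

variable (T w) in
/-- the products of two components -/
structure Ovl (k0 : ℕ) (π : Ix → I2 → I2 → FM LP) : Prop where
  ind : ∀ I J, w I.swap J = w I J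
  sc : ∀ a b c f G t, inner ℂ (TA T a (dl t f)) (wcc w b c (dl t G)) =
    Real.exp (3 * t) * inner ℂ (TA T a f) (wcc w b c G)
  ov : ∀ n J k γ, Ov (5 - k) fun r s => c0 (π n) J (r, s) k γ
  zero : ∀ n J K k γ, 5 < k → c0 (π n) J K k γ = 0
  hom : ∀ n J K k γ y p (s : ℝ),
    (s : ℂ) ^ k * evl y (s • p) (π n J K k γ) = s ^ 5 * evl y p (π n J K k γ)
  eq : ∀ n J K (m g f : Sch), HasCompactSupport m → HasCompactSupport g →
    inner ℂ (T K f) (dv1 w n J (ten2 m g)) = LI 0 f g (QG k0 (π n J K) m)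

lemma wcc_apply (b c : I3) (G : S2) :
    wcc w b c G = ∑ I, ∑ J, w I J (aD i1 b I (aD i2 c J G)) := by
  simp only [wcc, ContinuousLinearMap.sum_apply, ContinuousLinearMap.comp_apply,
    ContinuousLinearMap.mul_apply]

lemma cs_pD {f : Sch} (h : HasCompactSupport f) (s : Ix) : HasCompactSupport (pD i0 s f) :=
  h.of_isClosed_subset (isClosed_tsupport _) (ts_dD _ f)

lemma pD_ten2 (s : Ix) (m g : Sch) :
    pD i2 s (ten2 m g) = ten2 m (pD i0 s g) - ten2 (pD i0 s m) g := by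
  have e : ∀ m g : Sch, ten2 m g = SchwartzMap.compCLMOfContinuousLinearEquiv ℂ (sh2 V) (tens m g) :=
    fun _ _ => rfl
  rw [e, e, e, pD, dD_comp, ← map_sub, pD, ← dD_tl, ← dD_tr, eq_comm, ← ContinuousLinearMap.sub_apply,
    sub_eq_add_neg, ← neg_one_smul ℂ, ← Complex.ofReal_one, ← Complex.ofReal_neg, ← dD_smul, ← dD_add]
  simp [i2]

variable (T w) in
/-- the overlap of the divergence with the Cotton components -/
def Yd (n : Ix) (b c : I3) (f : Sch) (G : S2) : ℂ :=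
  -∑ r, (eta r : ℂ) * inner ℂ (TA T c f) (wcc w (n, r, r) b G)

lemma Ovl.li (h : Ovl T w k0 π) (n : Ix) (b c : I3) {m g : Sch} (hm : HasCompactSupport m)
    (hg : HasCompactSupport g) (f : Sch) :
    Yd T w n b c f (ten2 m g) = LI 0 f g (QW k0 (π n) b c m) := by
  have e : ∀ G, -∑ r, (eta r : ℂ) • wcc w (n, r, r) b G = ∑ J, dv1 w n J (aD i2 b J G) := fun G => by
    have k : ∀ J, dv1 w n J (aD i2 b J G) = -∑ r, (eta r : ℂ) •
        ∑ I, w I J (aD i1 (n, r, r) I (aD i2 b J G)) := fun J => by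
      rw [div_tr (σ := fun I => w I J) fun I => h.ind I J, neg_neg]
      rfl
    simp only [k, wcc_apply, Finset.sum_neg_distrib, Finset.smul_sum]
    exact congrArg _ ((Finset.sum_congr rfl fun _ _ => Finset.sum_comm).trans Finset.sum_comm)
  have e2 : ∀ J G, dv1 w n J G = Str.dvL w n J G := fun J G => (Str.dvL_apply n J G).symm
  simp only [Yd, ← inner_smul_right, ← inner_sum, ← inner_neg_right, e]
  simp only [TA, ContinuousLinearMap.sum_apply, ContinuousLinearMap.comp_apply, aD_ce, e2, map_sum,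
    map_smul, pD_ten2, map_sub, sum_inner, inner_smul_left, Complex.conj_ofReal]
  simp only [inner_sum, inner_smul_right, inner_sub_right, ← e2, h.eq _ _ _ _ _ _ hm (cs_pD hg _),
    h.eq _ _ _ _ _ _ (cs_pD hm _) hg, LI_l, LI_r, QW, map_sum, map_smul, smul_sub, map_sub,
    smul_eq_mul, Finset.mul_sum]
  refine Finset.sum_congr rfl fun K _ => Finset.sum_comm.trans (Finset.sum_congr rfl fun J _ =>
    Finset.sum_congr rfl fun u _ => Finset.sum_congr rfl fun s _ => ?_)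
  ring

/-- **the overlaps have polynomial densities** -/
theorem Ovl.poly (h : Ovl T w k0 π) (n : Ix) (b c : I3) {m g : Sch} (hm : HasCompactSupport m)
    (hg : HasCompactSupport g) (f : Sch) : Yd T w n b c f (ten2 m g) =
      ∫ p in Fc, evp (QW k0 (c0 (π n)) b c m) p * (conj (ft (ev f) p) * ft (ev g) p) := by
  rw [h.li n b c hm hg, ← QW_c0]
  refine log_drop (fun x f => ?_) f
  have d : ∀ {m : Sch}, HasCompactSupport m → HasCompactSupport (dl (x / 2) m) := fun {m} k => by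
    rw [funext (dl_apply (x / 2) m)]
    exact k.comp_smul (Real.exp_ne_zero _)
  have k := h.li n b c (d hm) (d hg) (dl (x / 2) f)
  have s : ∀ G t, Yd T w n b c (dl t f) (dl t G) = Real.exp (3 * t) * Yd T w n b c f G :=
    fun G t => by simp only [Yd, h.sc, Finset.mul_sum, mul_neg, mul_left_comm (eta _ : ℂ)]
  rw [show ten2 (dl (x / 2) m) (dl (x / 2) g) = dl (x / 2) (ten2 m g) from
    SchwartzMap.ext fun z => by simp [dl_apply, smul_sub], LI_dl (QW_dl k0 (h.hom n) b c m _),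
    mul_div_cancel₀ _ two_ne_zero, ← Complex.ofReal_pow, ← Real.exp_nat_mul, ← Complex.ofReal_mul,
    ← Real.exp_add, show -4 * (x / 2) + (7 : ℕ) * (x / 2) = 3 * (x / 2) by push_cast; ring, s,
    h.li n b c hm hg] at k
  exact (mul_left_cancel₀ (by simp) k).symm

/-! ## algebra -/

lemma AP_eq {D : Ix → P20 → P20} (hD : ∀ k a b, D k (a - b) = D k a - D k b) (χ : I3 → P20)
    (I : I2) : RW.AP D χ I = ∑ κ, ∑ s, (ce κ I s : ℂ) • D s (χ κ) := by
  have e : RW.AP D χ I = ∑ M, (sS I.1 I.2 M : ℂ) • RW.dvP D χ M := by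
    rw [sum_sS]
    simp only [RW.AP, RW.trP, RW.syP, MvPolynomial.C_mul', gm_eq, Prod.swap, ← two_smul ℂ, smul_smul]
    norm_num
  simp only [e, sum_ce, RW.dvP, sS_comm I, MvPolynomial.C_mul', hD, smul_sub, Finset.smul_sum,
    Finset.sum_sub_distrib, smul_smul, Fintype.sum_prod_type, Complex.ofReal_mul,
    mul_comm (eta _ : ℂ)]
  exact congrArg₂ _ ((Finset.sum_congr rfl fun _ _ => Finset.sum_comm).trans Finset.sum_comm)
    (Finset.sum_congr rfl fun _ _ => Finset.sum_comm)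

lemma A23_eq (Q : I3 → I3 → P20) (J K : I2) : RW.A23 Q J K = ∑ b, ∑ c, ∑ t, ∑ s,
    (ce c K t : ℂ) • (ce b J s : ℂ) • D2 s (RW.D3 t (Q b c)) := by
  rw [RW.A23, AP_eq fun k a b => by simp only [D2, map_sub]; abel]
  simp only [AP_eq (D := RW.D3) fun k a b => map_sub _ a b, D2, map_sum, Derivation.map_smul,
    ← Finset.sum_add_distrib, ← Finset.sum_neg_distrib, Finset.smul_sum, ← smul_add, ← smul_neg]
  refine Finset.sum_congr rfl fun b _ => Finset.sum_comm.trans (Finset.sum_congr rfl fun c _ =>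
    Finset.sum_comm.trans (Finset.sum_congr rfl fun t _ => Finset.sum_congr rfl fun s _ =>
      smul_comm _ _ _))

/-- derivatives in `u` at `h = 0`, `u = 0` -/
def dL : (k : ℕ) → (Fin k → Ix) → P20 →ₗ[ℂ] P4
  | 0, _ => w4.toLinearMap
  | k + 1, γ => dL k (Fin.tail γ) ∘ₗ (pderiv (3, γ 0)).toLinearMap

lemma dL_eq (k : ℕ) (γ : Fin k → Ix) (S : P20) : dL k γ S = w4 (dU k γ S) := by
  induction k generalizing S with
  | zero => rfl
  | succ k ih => exact (ih _ _).trans (congrArg _ (dU_pd _ _ _ _))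

lemma dL_z0 (k : ℕ) (γ : Fin k → Ix) (S : P20) : dL k γ (RW.z0 S) = dL k γ S := by
  classical
  induction k generalizing S with
  | zero =>
    refine congrArg (fun φ : P20 →ₐ[ℂ] P4 => φ S) (MvPolynomial.algHom_ext (g := w4)
      (f := w4.comp RW.z0) fun ⟨j, m⟩ => ?_)
    fin_cases j <;> simp [w4, RW.z0]
  | succ k ih =>
    refine Eq.trans (congrArg (dL k _) ?_) (ih _ _)
    change pderiv (3, γ 0) (RW.z0 S) = RW.z0 (pderiv (3, γ 0) S)
    induction S using MvPolynomial.induction_on with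
    | C a => simp
    | add p q hp hq => simp only [map_add, hp, hq]
    | mul_X p i hp =>
      have h : pderiv (3, γ 0) (RW.z0 (.X i)) = RW.z0 (pderiv (3, γ 0) (.X i)) := by
        obtain ⟨j, n⟩ := i
        fin_cases j <;> simp [RW.z0, MvPolynomial.pderiv_X, Pi.single_apply, apply_ite]
      simp only [map_mul, Derivation.leibniz, map_add, smul_eq_mul, hp, h]

lemma dL_deg {d k : ℕ} {S : P20} (h : Deg (d + k) S) (γ : Fin k → Ix) :
    (dL k γ S).IsHomogeneous d := by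
  induction k generalizing S with
  | zero => exact w4_deg h
  | succ k ih => exact ih (h.pderiv (i := (3, γ 0)) rfl) _

lemma fi_xm (s : Ix) (q : P4) (k : ℕ) (γ : Fin k → Ix) (S : P20) :
    fi (xm s * q) (dL k γ S) = -I * fi q (dL k γ (pderiv (4, s) S)) := by
  rw [xm, smul_mul_assoc, map_smul, LinearMap.smul_apply, fi_adj, dL_eq, dL_eq, w4_pd, dU_pd,
    smul_eq_mul]
  linear_combination -I * fi q (w4 (pderiv (4, s) (dU k γ S))) * Dva.eta_sq s

lemma pair {B : P4 → P4 → ℂ} {κ : ℂ} (hB : ∀ d q w, q.IsHomogeneous d → w.IsHomogeneous d →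
    B q w = (-I) ^ d * κ * fi q w) {d k : ℕ} {q : P4} (hq : q.IsHomogeneous d) {S : P20}
    (hS : Deg (d + 2 + k) S) (γ : Fin k → Ix) (s t : Ix) :
    B (xm t * q) (dL k γ (pderiv (3, s) S)) - B (xm t * xm s * q) (dL k γ S) =
      -((-I) ^ (d + 2) * κ) * fi q (dL k γ (D2 s (RW.D3 t S))) := by
  have x : ∀ s {d} {q : P4}, q.IsHomogeneous d → (xm s * q).IsHomogeneous (d + 1) :=
    fun s d q hq => by
      rw [xm, smul_mul_assoc, mul_comm _ q, MvPolynomial.smul_eq_C_mul]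
      exact (hq.mul (MvPolynomial.isHomogeneous_X _ _)).C_mul _
  rw [hB _ _ _ (x t hq) (dL_deg (hS.pderiv (i := (3, s)) (n' := d + 1 + k) (by simp; ring)) γ),
    mul_assoc (xm t), hB _ _ _ (x t (x s hq)) (dL_deg hS γ), fi_xm, fi_xm, fi_xm, D2, RW.D3,
    pd_comm (4, t), map_neg, map_add, map_neg, map_add]
  linear_combination -(-I) ^ (d + 2) * κ * fi q (dL k γ (pderiv (4, s) (pderiv (4, t) S))) *
    Complex.I_mul_I

/-- `ψ = E S` near `u = 0` -/
def Nr (E : V → ℂ) (ψ : S2) (S : P20) : Prop :=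
  ∀ v, (fun u => ψ (u, v)) =ᶠ[𝓝 0] fun u => E v * ev8 S (u, v)

lemma Nr.pd {E : V → ℂ} {ψ : S2} {S : P20} (h : Nr E ψ S) (s : Ix) :
    Nr E (pD i1 s ψ) (pderiv (3, s) S) := fun v => (h v).eventually_nhds.mono fun u hu => by
  have := EventuallyEq.lineDeriv_eq (𝕜 := ℝ) (v := bas s 1) hu
  simp only [lineDeriv, deriv_const_mul_field] at this
  simpa [← Dva.ev8_du, ← (ev8_diff S _).lineDeriv_eq_fderiv, lineDeriv, pD, dD_apply,
    SchwartzMap.lineDerivOp_apply, i1] using this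

lemma Nr.rs {E : V → ℂ} {ψ : S2} {S : P20} (h : Nr E ψ S) {k : ℕ} (γ : Fin k → Ix) :
    rs γ ψ = sch fun v => E v * evp (dL k γ S) v := (sch_eq _ fun v => by
  rw [rs_app, dL_eq, ev_w4, ← iter_ev8, ← d0, ← d0_mul γ (m := fun u => ev8 S (u, v))
    ((ev8_smooth S).comp (contDiff_id.prodMk contDiff_const)), d0, d0,
    (EventuallyEq.iteratedFDeriv ℝ (h v) k).eq_of_nhds]).symm

/-! ## the data -/

variable {t : M3} {ρ : Sch}

variable (T wp wm t) in
/-- one member and its time ordered products -/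
structure DT : Prop extends Sy t where
  tt : ∀ I J K (f : Sch) G, Late (tsupport f) (lg G) →
    t I J K (tens f G) = inner ℂ (T I (cj f)) (wp J K G)
  ff : ∀ I J K (f : Sch) G, Late (lg G) (tsupport f) →
    t I J K (tens f G) = inner ℂ (wm J K (cj G)) (T I f)
  con : ∀ n f, ∑ m, T (m, n) (pD i0 m f) = 0
  off : ∀ n J (G : S2), (∀ x, (x, x) ∉ tsupport G) → dv1 wp n J G = 0
  op : ∃ k π, Ovl T wp k π
  om : ∃ k π, Ovl T wm k π

variable (t) in
/-- the divergence in the first slot -/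
def dv3 (n : Ix) (J K : I2) : S3 →L[ℂ] ℂ := ∑ m, t (m, n) J K ∘L pD j1 m

lemma dv3_apply (n : Ix) (J K : I2) (F : S3) :
    dv3 t n J K F = ∑ m, t (m, n) J K (pD j1 m F) := by
  simp only [dv3, ContinuousLinearMap.sum_apply, ContinuousLinearMap.comp_apply]

lemma dv3_tens (n : Ix) (J K : I2) (f : Sch) (G : S2) :
    dv3 t n J K (tens f G) = ∑ m, t (m, n) J K (tens (pD i0 m f) G) :=
  (dv3_apply ..).trans (Finset.sum_congr rfl fun m _ => congrArg _ (dD_tl _ f G))

variable (t ρ) in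
/-- the divergence between Cotton components -/
def DS (n : Ix) (b c : I3) : S2 →L[ℂ] ℂ := -∑ r, (eta r : ℂ) • LS t ρ (n, r, r) b c

lemma DS_apply (n : Ix) (b c : I3) (φ : S2) :
    DS t ρ n b c φ = -∑ r, (eta r : ℂ) * LS t ρ (n, r, r) b c φ := by
  simp only [DS, ContinuousLinearMap.neg_apply, ContinuousLinearMap.sum_apply,
    ContinuousLinearMap.smul_apply, smul_eq_mul]

lemma Sy.DW_eq (h : Sy t) (n : Ix) (b c : I3) (φ : RW.Tf) (hφ : Dc φ) :
    RW.DW (tau t ρ) n b c φ = DS t ρ n b c (sch φ) := by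
  have k3 := fun J => Ct_eq (σ := fun K => RW.DV (tau t ρ) n J K)
    (σS := fun K => ∑ m, tS t ρ (m, n) J K ∘L pD i1 m) e3_eq (fun K φ hφ => by
      simp only [RW.DV, tau, sch_Dv hφ, ContinuousLinearMap.sum_apply,
        ContinuousLinearMap.comp_apply]
      rfl) (fun K => by simp only [tS, h.ind3]) c
  have k := Ct_eq e2_eq k3 (fun J => by simp only [tS, h.ind2]) b φ hφ
  have d : ∀ J K F, ∑ m, tS t ρ (m, n) J K (pD i1 m F) = -∑ r, (eta r : ℂ) •
      ∑ I, tS t ρ I J K (aD i1 (n, r, r) I F) := fun J K F => by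
    rw [div_tr (σ := fun I => tS t ρ I J K) fun I => by rw [tS, h.ind, tS], neg_neg]
  unfold RW.DW
  rw [k]
  simp only [DS_apply, LS_apply, ContinuousLinearMap.sum_apply, ContinuousLinearMap.comp_apply, d,
    aD_comm i1, Finset.sum_neg_distrib, Finset.mul_sum, smul_eq_mul]
  refine congrArg _ ((Finset.sum_congr rfl fun J _ => Finset.sum_comm).trans
    (Finset.sum_comm.trans (Finset.sum_congr rfl fun r _ => ?_)))
  exact (Finset.sum_congr rfl fun J _ => Finset.sum_comm).trans Finset.sum_comm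

lemma Sy.DS_cor (h : Sy t) (h1 : ∫ y, ρ y = 1) (n : Ix) (b c : I3) (m g f : Sch) :
    DS t ρ n b c (tens m (cor g f)) =
      -∑ r, (eta r : ℂ) * TC t c (n, r, r) b (tens f (ten2 m g)) := by
  rw [show tens m (cor g f) = fib3 volume (P352Y.s2 (P352Y.s1 (tens f (ten2 m g)))) from
    SchwartzMap.ext fun z => by
      simp [cor_app, P352Y.s1_apply, P352Y.s2_apply, ← integral_const_mul, mul_comm, mul_left_comm]]
  simp only [DS_apply, ← h.TC_fib h1, h.TC1, h.TC2]

/-- reduction to correlations -/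
lemma ka2 (Λ : S2 →L[ℂ] ℂ) (m : Sch) (R : Sch →L[ℂ] ℂ) {U : Set V} (hU : IsOpen U)
    (h1 : ∫ y, ρ y = 1) (H : ∀ g f : Sch, HasCompactSupport g → (∀ z ∈ tsupport f,
      ∀ y ∈ tsupport g, z - y ∈ U) → Λ (tens m (cor g f)) = R (cor g f)) (k : Sch)
    (hk : tsupport k ⊆ U) : Λ (tens m k) = R k := by
  let Φ := pint (volume : Measure V) ∘L SchwartzMap.compCLMOfContinuousLinearEquiv ℂ
    ((ContinuousLinearEquiv.prodComm ℝ V V).trans (sh2 V).symm)
  have e : ∀ G v, Φ G v = ∫ y, G (v + y, y) := fun _ _ => rfl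
  have := ST.ker2 ((Λ ∘L tensR m - R) ∘L Φ) (U := (fun z => z.1 - z.2) ⁻¹' U) (hU.preimage (by fun_prop))
    (fun f g _ hg hs => by
      rw [ContinuousLinearMap.comp_apply, show Φ (tens f g) = cor g f from SchwartzMap.ext fun v => by
        simp [e, cor_app, mul_comm, add_comm]]
      exact sub_eq_zero.2 (H g f hg fun z hz y hy => hs (mk_mem_prod hz hy))) (ten2 k ρ)
    fun z hz => hk (tsupport_tenE _ _ _ hz).1
  rw [ContinuousLinearMap.comp_apply, show Φ (ten2 k ρ) = k from SchwartzMap.ext fun v => by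
    simp [e, integral_const_mul, h1]] at this
  exact sub_eq_zero.1 this

lemma open_U {m : Sch} (hm : HasCompactSupport m) {φ : V × V → V} (hφ : Continuous φ) :
    IsOpen {v | ∀ u ∈ insert 0 (tsupport m), ¬ Cl (φ (v, u))} :=
  isOpen_iff_mem_nhds.2 fun v hv => (hm.isCompact.insert 0).eventually_forall_of_forall_eventually
    fun u hu => (closed_Cl.isOpen_compl.preimage hφ).mem_nhds (hv u hu)

/-- the contact terms between Cotton components -/
def RQ (k0 : ℕ) (π : I2 → I2 → FM P4) (b c : I3) (ν : P4 →ₗ[ℂ] Sch →L[ℂ] ℂ) : S2 →L[ℂ] ℂ :=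
  ∑ K, ∑ J, ∑ t, ∑ s, (ce c K t : ℂ) • (ce b J s : ℂ) •
    (Dva.RR k0 (π J K) (ν ∘ₗ LinearMap.mul ℂ P4 (xm t)) ∘L pD i1 s -
      Dva.RR k0 (π J K) (ν ∘ₗ LinearMap.mul ℂ P4 (xm t * xm s)))

lemma RQ_tens (k0 : ℕ) (π : I2 → I2 → FM P4) (b c : I3) (ν : P4 →ₗ[ℂ] Sch →L[ℂ] ℂ) (m k : Sch) :
    RQ k0 π b c ν (tens m k) = ν (QW k0 π b c m) k := by
  have e : ∀ s, pD i1 s (tens m k) = tens (pD i0 s m) k := fun s => dD_tl _ m k
  simp only [RQ, QW, ContinuousLinearMap.sum_apply, ContinuousLinearMap.smul_apply, e,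
    ContinuousLinearMap.sub_apply, ContinuousLinearMap.comp_apply, RR_tens, map_sum, map_smul,
    LinearMap.comp_apply, LinearMap.mul_apply', smul_eq_mul (α := P4), mul_sub, map_sub, mul_assoc]
  rfl

namespace DT

variable (h : DT T wp wm t) {a b c : I3} {f g k : Sch} {G : S2} {n : Ix} {J K : I2}
include h

lemma TCA (l : Late (tsupport f) (lg G)) :
    TC t a b c (tens f G) = inner ℂ (TA T a (cj f)) (wcc wp b c G) := by
  simp only [TC_apply, aD_t1, aD_t2, aD_t3, fun I J K a' b' c' => h.tt I J K _ _ (Dvc.late_mono l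
    (ts_aD i0 a a' f) (lg_mono ((ts_aD i2 c c' _).trans (ts_aD i1 b b' G)))), TA, wcc_apply,
    ContinuousLinearMap.sum_apply, ContinuousLinearMap.comp_apply, sum_inner, (it_cj _).aD1]
  simp only [inner_sum, aD_comm i1 i2]

lemma TCB (l : Late (lg G) (tsupport f)) :
    TC t a b c (tens f G) = conj (inner ℂ (TA T a f) (wcc wm b c (cj G))) := by
  simp only [TC_apply, aD_t1, aD_t2, aD_t3, fun I J K a' b' c' => h.ff I J K _ _ (Dvc.late_mono l
    (lg_mono ((ts_aD i2 c c' _).trans (ts_aD i1 b b' G))) (ts_aD i0 a a' f)), TA, wcc_apply,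
    ContinuousLinearMap.sum_apply, ContinuousLinearMap.comp_apply, aD_comm i1 i2, (it_cj _).aD1,
    sum_inner]
  simp only [inner_sum, map_sum, inner_conj_symm]

/-- the Cotton components are homogeneous -/
theorem sc (s : ℝ) (a b c : I3) (F : S3) (hF : ∀ x, (x, x, x) ∉ tsupport F) :
    TC t a b c (dl s F) = Real.exp (3 * s) * TC t a b c F := by
  obtain ⟨_, _, p⟩ := h.op
  obtain ⟨_, _, m⟩ := h.om
  have l : ∀ {A B A' B' : Set V}, Late A B → (∀ x ∈ A', Real.exp s • x ∈ A) →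
      (∀ x ∈ B', Real.exp s • x ∈ B) → Late A' B' := fun l a b x hx y hy k =>
    l _ (a x hx) _ (b y hy) (by
      rw [← smul_sub]
      exact ⟨mul_nonneg (Real.exp_pos s).le k.1, (mu_smul (y - x) (Real.exp s)).ge.trans'
        (mul_nonneg (sq_nonneg _) k.2)⟩)
  have l1 : ∀ f : Sch, ∀ x ∈ tsupport (dl s f), Real.exp s • x ∈ tsupport f := fun f =>
    tsupport_comp (e := fun x => Real.exp s • x) (by fun_prop) fun _ a => a
  have l2 : ∀ G : S2, ∀ x ∈ lg (dl s G), Real.exp s • x ∈ lg G := fun G => by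
    have := tsupport_comp (f := G) (g := dl s G) (e := fun x => Real.exp s • x) (by fun_prop)
      fun _ a => a
    rintro _ (⟨q, hq, rfl⟩ | ⟨q, hq, rfl⟩)
    exacts [.inl ⟨_, this hq, rfl⟩, .inr ⟨_, this hq, rfl⟩]
  have e : ∀ (f : Sch) (G : S2), dl s (tens f G) = tens (dl s f) (dl s G) := fun _ _ => rfl
  have e1 : ∀ F : S3, dl s (s1 F) = s1 (dl s F) := fun _ => rfl
  have e2 : ∀ F : S3, dl s (s2 F) = s2 (dl s F) := fun _ => rfl
  have e3 : ∀ f : Sch, cj (dl s f) = dl s (cj f) := fun _ => rfl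
  have e4 : ∀ f : S2, cj (dl s f) = dl s (cj f) := fun _ => rfl
  have k : ∀ (Λ : S3 →L[ℂ] ℂ) (r : ℂ) F, (Λ ∘L dl s - r • Λ) F = Λ (dl s F) - r * Λ F :=
    fun _ _ _ => rfl
  rw [← sub_eq_zero, ← k]
  refine six (Λ := fun a b c => TC t a b c ∘L dl s - (Real.exp (3 * s) : ℂ) • TC t a b c)
    (fun a b c F => ?_) (fun a b c F => ?_) (fun a b c f G k' => ?_) (fun a b c f G k' => ?_) a b c hF
  · rw [k, k, e1, h.TC1, h.TC1]
  · rw [k, k, e2, h.TC2, h.TC2]
  · rw [k, e, h.TCA k', h.TCA (l k' (l1 f) (l2 G)), e3, p.sc, sub_self]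
  · rw [k, e, h.TCB k', h.TCB (l k' (l2 G) (l1 f)), e4, m.sc, map_mul, Complex.conj_ofReal, sub_self]

/-! ## the divergence away from the diagonals -/

open Dvc in
theorem off3 (n : Ix) (J K : I2) (F : S3) (hF : ∀ q ∈ tsupport F, q.1 ≠ q.2.1 ∧ q.1 ≠ q.2.2) :
    dv3 t n J K F = 0 := by
  have z1 : ∀ (f : Sch) G, Late (tsupport f) (lg G) → dv3 t n J K (tens f G) = 0 := fun f G l => by
    have e : ∀ m, cj (pD i0 m f) = pD i0 m (cj f) := fun m =>
      (((it_cj i0).d _ f).trans (one_smul _ _)).symm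
    simp only [dv3_tens, fun m => h.tt (m, n) J K (pD i0 m f) G (late_mono l (sd m f) subset_rfl), e,
      ← sum_inner, h.con, inner_zero_left]
  have z2 : ∀ (f : Sch) G, Late (lg G) (tsupport f) → dv3 t n J K (tens f G) = 0 := fun f G l => by
    simp only [dv3_tens, fun m => h.ff (m, n) J K (pD i0 m f) G (late_mono l subset_rfl (sd m f)),
      ← inner_sum, h.con, inner_zero_right]
  have z3 : ∀ J K (f g k : Sch), Late (tsupport g) (tsupport f) → Late (tsupport g) (tsupport k) →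
      Disjoint (tsupport f) (tsupport k) → dv3 t n J K (tens f (tens g k)) = 0 :=
    fun J K f g k h1 h2 h3 => by
      have e : ∀ m, t (m, n) J K (tens (pD i0 m f) (tens g k)) =
          inner ℂ (T J (cj g)) (wp (m, n) K (dD ((bas m 1, 0) : V × V) (tens f k))) := fun m => by
        rw [dD_tl, ← h.s1, ← h.tt _ _ _ _ _ fun x hx y hy => ?_]
        · exact congrArg _ (SchwartzMap.ext fun z => mul_left_comm _ _ _)
        · rcases pr_tens _ _ hy with hy | hy
          exacts [h1 x hx y (sd m f hy), h2 x hx y hy]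
      rw [dv3_tens, Finset.sum_congr rfl fun m _ => e m, ← inner_sum]
      exact (congrArg _ (h.off n K (tens f k) fun x hx => Set.disjoint_left.1 h3
        (ST.tsupport_tens f k hx).1 (ST.tsupport_tens f k hx).2)).trans (inner_zero_right _)
  have zsw : ∀ f g k : Sch, dv3 t n J K (tens f (tens g k)) = dv3 t n K J (tens f (tens k g)) :=
    fun f g k => by
      rw [dv3_tens, dv3_tens]
      exact Finset.sum_congr rfl fun m _ => (h.s2 _ _ _ _).symm.trans (congrArg _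
        (SchwartzMap.ext fun z => congrArg (pD i0 m f z.1 * ·) (mul_comm (g z.2.2) (k z.2.1))))
  refine ST.ker3_local _ F fun q hq => ?_
  obtain ⟨h2, h3⟩ := hF q hq
  obtain ⟨x, y, z⟩ := q
  simp only at h2 h3 ⊢
  suffices h : ∀ᶠ δ in 𝓝[>] (0 : ℝ), ∀ f g k : Sch, tsupport f ⊆ ball x δ →
      tsupport g ⊆ ball y δ → tsupport k ⊆ ball z δ → dv3 t n J K (tens f (tens g k)) = 0 by
    obtain ⟨δ, h1, h0⟩ := (h.and self_mem_nhdsWithin).exists
    exact ⟨δ, h0, fun f g k _ _ _ => h1 f g k⟩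
  by_cases a : Lt x y ∧ Lt x z
  · filter_upwards [lt_near a.1, lt_near a.2] with δ d1 d2 f g k s1 s2 s3
    refine z1 _ _ fun u hu v hv => ?_
    rcases pr_tens _ _ hv with hv | hv
    exacts [d1 u (s1 hu) v (s2 hv), d2 u (s1 hu) v (s3 hv)]
  by_cases b : Lt y x ∧ Lt z x
  · filter_upwards [lt_near b.1, lt_near b.2] with δ d1 d2 f g k s1 s2 s3
    refine z2 _ _ fun u hu v hv => ?_
    rcases pr_tens _ _ hu with hu | hu
    exacts [d1 u (s2 hu) v (s1 hv), d2 u (s3 hu) v (s1 hv)]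
  rcases not_and_or.1 a with a | a
  · have t1 := time_lt h2 a
    have t2 := time_lt h3.symm fun b' => b ⟨lt_of_time t1, b'⟩
    filter_upwards [lt_near (lt_of_time t1), lt_near (lt_of_time (t2.trans t1)), dis_near h3]
      with δ d1 d2 d3 f g k s1 s2 s3
    exact z3 _ _ _ _ _ (late_mono d1 s2 s1) (late_mono d2 s2 s3) (d3.mono s1 s3)
  · have t1 := time_lt h3 a
    have t2 := time_lt h2.symm fun b' => b ⟨b', lt_of_time t1⟩
    filter_upwards [lt_near (lt_of_time t1), lt_near (lt_of_time (t2.trans t1)), dis_near h2]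
      with δ d1 d2 d3 f g k s1 s2 s3
    rw [zsw]
    exact z3 _ _ _ _ _ (late_mono d1 s3 s1) (late_mono d2 s3 s2) (d3.mono s1 s2)

/-- row DIVCW -/
theorem divcw : RW.DIVCW (tau t ρ) := fun n J K φ hφ hs => by
  refine Eq.trans (Finset.sum_congr rfl fun m _ => ?_) ((dv3_apply ..).symm.trans
    (h.off3 n J K (red3 ρ (sch φ)) fun q hq => ?_))
  · rw [tau, sch_Dv hφ]
    exact congrArg _ (red_d ρ _ _)
  · have k := supp_red ρ _ hq
    rw [tsupport_sch hφ] at k
    exact ⟨fun e => (hs k).1 (sub_eq_zero.2 e), fun e => (hs k).2 (congrArg (· - q.2.1) e)⟩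

/-! ## the contact terms at `z1 = z2` -/

variable {m : Sch}

theorem thmA (p : Ovl T wp k0 π) (h1 : ∫ y, ρ y = 1) (hm : HasCompactSupport m) (n : Ix) (b c : I3)
    (k : Sch) (hk : ∀ v ∈ tsupport k, ∀ u ∈ insert 0 (tsupport m), ¬ Cl (u - v)) :
    DS t ρ n b c (tens m k) = Lc Fc (QW k0 (c0 (π n)) b c m) k := by
  refine ka2 _ m _ (open_U hm (φ := fun z => z.2 - z.1) (by fun_prop)) h1
    (fun g f hg hs => ?_) k hk
  have l : Late (tsupport f) (lg (ten2 m g)) := by
    rintro x hx _ (⟨q, hq, rfl⟩ | ⟨q, hq, rfl⟩) <;> have := tsupport_tenE _ _ _ hq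
    · simpa [Cl] using hs x hx _ this.2 _ (.inr this.1)
    · simpa [Cl] using hs x hx _ this.2 _ (.inl rfl)
  rw [h.DS_cor h1]
  simp only [h.TCA l]
  rw [← Yd, p.poly n b c hm hg]
  simp only [Lc_app, ft_cor, show ev (cj f) = bar (ev f) from rfl, ft_bar, neg_neg,
    Complex.conj_conj, mul_comm (ft (ev f) _)]

theorem thmB (h1 : ∫ y, ρ y = 1) (hm : HasCompactSupport m) (n : Ix) (b c : I3) : ∃ q, ∀ k : Sch,
    (∀ v ∈ tsupport k, ∀ u ∈ insert 0 (tsupport m), ¬ Cl (v - u)) →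
      DS t ρ n b c (tens m k) = Lc nF q k := by
  obtain ⟨k1, π, p⟩ := h.om
  obtain ⟨q, hq⟩ := ex_cj (QW k1 (c0 (π n)) b c (cj m))
  refine ⟨q, ka2 _ m _ (open_U hm (φ := fun z => z.1 - z.2) (by fun_prop)) h1
    fun g f hg hs => ?_⟩
  have l : Late (lg (ten2 m g)) (tsupport f) := by
    rintro _ (⟨q, hq, rfl⟩ | ⟨q, hq, rfl⟩) x hx <;> have := tsupport_tenE _ _ _ hq
    · simpa [Cl] using hs x hx _ this.2 _ (.inr this.1)
    · simpa [Cl] using hs x hx _ this.2 _ (.inl rfl)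
  have := congrArg conj (p.poly n b c (hm.of_isClosed_subset (isClosed_tsupport _) (tsupport_cj m))
    (hg.of_isClosed_subset (isClosed_tsupport _) (tsupport_cj g)) f)
  rw [h.DS_cor h1]
  simp only [h.TCB l, show cj (ten2 m g) = ten2 (cj m) (cj g) from
    SchwartzMap.ext fun z => map_mul conj _ _]
  simp only [Yd, map_neg, map_sum, map_mul, Complex.conj_ofReal, ← integral_conj, ← hq,
    show ev (cj g) = bar (ev g) from rfl, ft_bar, Complex.conj_conj] at this
  simp only [this, Lc_nF, ft_cor, mul_comm (ft (ev f) _)]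

/-- the divergence near `u = 0` -/
theorem glue (hK : KER) (hG : GFF) (p : Ovl T wp k0 π) (h1 : ∫ y, ρ y = 1) {O : Set V}
    (hO : IsOpen O) {ε : ℝ} (hε : ε ≤ 1) {a : V → ℂ} (ha : Cf O ε a) (n : Ix) (b c : I3) (φ : S2)
    (hc : HasCompactSupport φ) (hφ : tsupport φ ⊆ ball 0 ε ×ˢ O) :
    DS t ρ n b c φ = RQ k0 (c0 (π n)) b c (Mu a) φ := by
  refine sub_eq_zero.1 (hK V V (DS t ρ n b c - RQ k0 (c0 (π n)) b c (Mu a)) _ _
    isOpen_ball hO (fun m f G cm hm _ hf e => ?_) φ hc hφ)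
  obtain ⟨q, hB⟩ := h.thmB (ρ := ρ) h1 cm n b c
  have z : ∀ u ∈ insert 0 (tsupport m), ‖u‖ < ε := by
    rintro u (rfl | hu)
    exacts [by simpa using ha.pos, by simpa using hm hu]
  have A := fun (g : Sch) (hg : ∀ v ∈ tsupport g, ∀ u, ‖u‖ < ε → ¬ Cl (u - v)) =>
    h.thmA p h1 cm n b c g fun v hv u hu => hg v hv u (z u hu)
  have B := fun (g : Sch) (hg : ∀ v ∈ tsupport g, ∀ u, ‖u‖ < ε → ¬ Cl (v - u)) =>
    hB g fun v hv u hu => hg v hv u (z u hu)
  have s := sep hG fun g hg => (A g fun v hv u hu => (far (hg hv) (hu.trans_le hε)).1).symm.trans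
    (B g fun v hv u hu => (far (hg hv) (hu.trans_le hε)).2)
  have e1 := SchwartzMap.smulLeftCLM_apply ha.tg f
  rw [ContinuousLinearMap.sub_apply, show G = tens m f from SchwartzMap.ext fun z => e z.1 z.2,
    RQ_tens, Mu_app, ← add_sub_cancel (SchwartzMap.smulLeftCLM ℂ a f) f, ← ST.tensR_apply, map_add,
    map_add, map_add, ST.tensR_apply, ST.tensR_apply, A _ fun v hv => ?_, B _ fun v hv => ?_, ← s,
    map_sub]
  · simp only [add_sub_cancel]
    ring
  · rw [show ((f - SchwartzMap.smulLeftCLM ℂ a f : Sch) : V → ℂ) = fun x => (1 - a) x * f x from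
      funext fun x => by simp [e1, sub_mul]] at hv
    exact ha.B v (hf (tsupport_mul_subset_right hv)) (tsupport_mul_subset_left hv)
  · rw [e1] at hv
    exact ha.A v (hf (tsupport_smul_subset_right _ _ hv)) (tsupport_smul_subset_left _ _ hv)

/-- row DIVAW -/
theorem divaw (hK : KER) (hG : GFF) (hN : NULL) (h1 : ∫ y, ρ y = 1) : RW.DIVAW (tau t ρ) := by
  intro θ hθ
  obtain ⟨r0, r0p, hr0⟩ := Metric.eventually_nhds_iff_ball.1 hθ.2
  obtain ⟨R, hR⟩ := hθ.1.2.isCompact.isBounded.subset_ball_lt 1 0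
  have hr : 0 < min (r0 / 2) 1 := by positivity
  obtain ⟨a, ha⟩ := ex_cf hr ((min_le_right _ _).trans_lt hR.1)
  set O := {v : V | min (r0 / 2) 1 < ‖v‖ ∧ ‖v‖ < R}
  have hc := Api4.dc_cx hθ.1
  have hO : tsupport (fderiv ℝ (cx θ)) ⊆ O := fun v hv => ⟨by_contra fun k => by
    refine notMem_tsupport_iff_eventuallyEq.2 ?_ hv
    have : cx θ =ᶠ[𝓝 v] fun _ => 1 := by
      filter_upwards [isOpen_ball.mem_nhds (mem_ball_zero_iff.2 ((not_lt.1 k).trans_lt
        ((min_le_left _ _).trans_lt (half_lt_self r0p))))] with y hy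
      simp [cx, hr0 y hy]
    exact this.fderiv.trans (.of_forall fun y => by simp), mem_ball_zero_iff.1 (hR.2
      (tsupport_comp_subset (g := Complex.ofReal) rfl θ (tsupport_fderiv_subset ℝ hv)))⟩
  obtain ⟨κ, hκ⟩ := Mu_pair hG ha hc hO
  obtain ⟨k0, π, p⟩ := h.op
  refine ⟨_, ha.pos, fun χ hχ sχ Q Ξ ζ a1 a2 a3 a4 a5 a6 => ?_⟩
  have hS : Nl 5 (Ξ + RS.d3 ζ) := ⟨Ξ, ζ, a1, a2, a3, a4, rfl⟩
  generalize Ξ + RS.d3 ζ = S at hS a6
  have hE : Dc (Ef (cx θ)) := dc_fderiv hc contDiff_id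
  have hφ : Dc fun z : V × V => (χ z.1 : ℂ) * Ef (cx θ) z.2 := dc_tens (Api4.dc_cx hχ.1) hE
  have dm := fun S => dc_mul hφ (ev8_smooth S)
  obtain ⟨Φ, hΦ⟩ : ∃ Φ : Ix → I2 → I2 → P20 →ₗ[ℂ] ℂ, ∀ n J K S, Φ n J K S =
      ∑ k ∈ Finset.range (k0 + 1), ∑ γ, (k.factorial : ℂ)⁻¹ *
        (-((-I) ^ (5 - k + 2) * κ) * fi (c0 (π n) J K k γ) (dL k γ S)) :=
    ⟨fun n J K => ∑ k ∈ Finset.range (k0 + 1), ∑ γ, (k.factorial : ℂ)⁻¹ •
      -((-I) ^ (5 - k + 2) * κ) • fi (c0 (π n) J K k γ) ∘ₗ dL k γ, fun n J K S => by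
      simp only [LinearMap.sum_apply, LinearMap.smul_apply, LinearMap.comp_apply, smul_eq_mul]⟩
  have g : ∀ n b c, RW.DW (tau t ρ) n b c (fun z => (χ z.1 : ℂ) * Ef (cx θ) z.2 * ev8 (Q n b c) z) =
      ∑ K, ∑ J, ∑ u, ∑ s, Φ n J K ((ce c K u : ℂ) • (ce b J s : ℂ) • D2 s (RW.D3 u (Q n b c))) :=
    fun n b c => by
    have nr : Nr (Ef (cx θ)) (sch fun z => (χ z.1 : ℂ) * Ef (cx θ) z.2 * ev8 (Q n b c) z) (Q n b c) :=
      fun v => hχ.2.mono fun u hu => by simp [sch_apply (dm _), hu]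
    rw [h.DW_eq n b c _ (dm _), h.glue hK hG p h1 ((isOpen_lt continuous_const continuous_norm).inter
      (isOpen_lt continuous_norm continuous_const)) (by linarith [min_le_right (r0 / 2) 1]) ha n b c _
      (by rw [coe_sch (dm _)]; exact (dm _).2) (by
        rw [coe_sch (dm _)]
        exact tsupport_mul_subset_left.trans ((closure_minimal (fun z (hz : _ * _ ≠ 0) =>
          Set.mk_mem_prod (subset_tsupport _ fun e => hz (by simp [e]))
            (subset_tsupport _ (right_ne_zero_of_mul hz)))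
          ((isClosed_tsupport χ).prod (isClosed_tsupport (Ef (cx θ))))).trans
            (Set.prod_mono sχ ((ts_vec _ id).trans hO))))]
    simp only [RQ, ContinuousLinearMap.sum_apply, ContinuousLinearMap.smul_apply, map_smul,
      ContinuousLinearMap.sub_apply, ContinuousLinearMap.comp_apply, RR_app, nr.rs, (nr.pd _).rs,
      LinearMap.comp_apply, LinearMap.mul_apply', ← Finset.sum_sub_distrib, ← mul_sub]
    refine Finset.sum_congr rfl fun K _ => Finset.sum_congr rfl fun J _ =>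
      Finset.sum_congr rfl fun u _ => Finset.sum_congr rfl fun s _ => ?_
    rw [hΦ]
    congr 2
    refine Finset.sum_congr rfl fun k _ => Finset.sum_congr rfl fun γ _ => congrArg _ ?_
    rcases lt_or_ge 5 k with hk | hk
    · simp [p.zero _ _ _ _ _ hk]
    · exact pair hκ ((p.ov n J k γ).hom K.1 K.2) ((show 5 - k + 2 + k = 7 by omega).symm ▸ a5 n b c)
        γ s u
  have sw : ∀ f : I3 → I3 → I2 → I2 → ℂ,
      ∑ b, ∑ c, ∑ K, ∑ J, f b c K J = ∑ J, ∑ K, ∑ b, ∑ c, f b c K J := fun f => by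
    simp only [← Fintype.sum_prod_type' (f := fun b c => ∑ K, ∑ J, f b c K J),
      ← Fintype.sum_prod_type' (f := fun b c => f b c _ _)]
    exact Finset.sum_comm.trans ((Finset.sum_congr rfl fun _ _ => Finset.sum_comm).trans
      Finset.sum_comm)
  simp only [g, sw, ← map_sum, ← A23_eq, a6]
  refine Finset.sum_eq_zero fun n _ => Finset.sum_eq_zero fun J _ => ?_
  simp only [hΦ, dL_z0]
  rw [Finset.sum_comm]
  refine Finset.sum_eq_zero fun k _ => ?_
  rw [Finset.sum_comm]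
  refine Finset.sum_eq_zero fun γ _ => ?_
  rw [← Finset.mul_sum, ← Finset.mul_sum]
  refine mul_eq_zero_of_right _ (mul_eq_zero_of_right _ ?_)
  rcases lt_or_ge 5 k with hk | hk
  · simp [p.zero _ _ _ _ _ hk]
  have n1 : Nl (5 - k) (dU k γ (pderiv (0, n) (dp 1 J S))) :=
    Nl.dU ((Nat.sub_add_cancel hk).symm ▸ ((hS.pd (by decide) _ rfl).pd (by decide) _ rfl).pd
      (by decide) _ rfl) γ
  have e : ∀ K, dU k γ (RW.d5 n J K S) = dp 2 K (dU k γ (pderiv (0, n) (dp 1 J S))) := fun K => by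
    rw [RW.d5, dp_comm, dp, pd_comm, pd_comm (0, n), dU_pd, dU_pd]
    rfl
  simp only [dL_eq, e]
  exact null hN (p.ov n J k γ) n1

end DT

end Vale.Agent.P352L.RA
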