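import Vale.Agent.P352L.R.STRUCT
import Vale.Agent.P352L.R.T3P
import Vale.Agent.P352L.RES.An3

/-!
# P352L, block RESW: the data of a context, and the link
-/

set_option linter.all false

noncomputable section

open Filter Topology Set MeasureTheory
open scoped SchwartzMap ComplexConjugate ContDiff

namespace Vale.Agent.P352L.RA

open Vale.Agent.P352 Vale.Agent.P352.GF Vale.Agent.P352.BW Vale.Agent.P352.H755
open Vale.Agent.P352X Api4 RS RS.Dva T3p
open Vale.Agent.P352Y (cj sim3 sim3_apply)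
open Vale.Agent.P352X.ST (tens)
open RS.Fib (lor_one l2_one)
open UniformSpace (Completion)

variable {D : Type*} [NormedAddCommGroup D] [InnerProductSpace ℂ D] {c : Ctx D} {e : Bool}
  {W : ℝ → ℝ → I2 → I2 → S2 →L[ℂ] Completion D}

lemma perp (t : T3 c) (α : ℝ) (I : I2) (f : Sch) : inner ℂ (tO (c.hF.st α) I f) c.Om = 0 :=
  inner_eq_zero_symm.1 ((Completion.inner_coe _ _).trans (t.perp α _ _ ⟨f, rfl⟩))

lemma TA_eq (t : T3 c) (α : ℝ) (κ : I3) (f : Sch) : TA (tO (c.hF.st α)) κ f = c.Cv κ (ev f) := by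
  obtain ⟨x, rfl⟩ : ∃ x, α = c.tau + x := ⟨α - c.tau, by ring⟩
  rw [Ctx.Cv, Ctx.Cf, ← t.wx x _ _ (test_hA ⟨f, rfl⟩ κ) (RR_hA ⟨f, rfl⟩ κ)]
  simp only [TA, ContinuousLinearMap.sum_apply, ContinuousLinearMap.comp_apply, tO_apply, ev_aD,
    Fintype.sum_prod_type, Ctx.Tf, Str.coe_sum]

lemma scl (t : T3 c) (hW : TP2 c.Q c.TT e W) (hc : c.Clo W) (a b b' : I3) (f : Sch) (G : S2)
    (s : ℝ) : inner ℂ (TA (tO c.hT) a (dl s f)) (wcc (W c.tau c.tau) b b' (dl s G)) =
      Real.exp (3 * s) * inner ℂ (TA (tO c.hT) a f) (wcc (W c.tau c.tau) b b' G) := by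
  have hs := Real.exp_pos s
  have e : ∀ x, sim (Real.exp s) GF.one 0 x = Real.exp s • x := fun x => funext fun k => by
    simp [sim, GF.one, bas]
  have k : ∀ K I J g F, inner ℂ (tO c.hT K (dl s g)) (W c.tau c.tau I J (dl s F)) =
      inner ℂ (tO (c.hF.st (c.tau + Real.log (Real.exp s))) K g)
        (W (c.tau + Real.log (Real.exp s)) (c.tau + Real.log (Real.exp s)) I J F) :=
    fun K I J g F => by
      obtain ⟨κ, hκ⟩ := hW.cov c.tau c.tau _ _ 0 I J F (dl s F) hs lor_one fun x y => by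
        rw [e, e]
        rfl
      rw [hκ, inner_add_right, inner_smul_right, perp t, mul_zero, add_zero,
        tO_cov c.hF c.tau hs lor_one 0, show Grp.simS hs lor_one 0 g = dl s g from
          SchwartzMap.ext fun x => (Grp.simS_apply _ _ _ _ _).trans (congrArg g (e x))]
      simp [l2_one, ← ueC_apply hs lor_one]
  have d : ∀ {E : Type} [NormedAddCommGroup E] [NormedSpace ℝ E] (ε : V →L[ℝ] E) κ I F,
      aD ε κ I (dl s F) = (Real.exp s : ℂ) • dl s (aD ε κ I F) := fun ε κ I F =>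
    ((it_dl s ε).aD κ I F).trans (Complex.coe_smul _ _).symm
  rw [TA_eq t _ a f, hc c.tau (c.tau + Real.log (Real.exp s)) a b b' _ G ⟨f, rfl⟩,
    ← TA_eq t (c.tau + Real.log (Real.exp s)), show 3 * s = s + s + s by ring, Real.exp_add, Real.exp_add]
  simp only [TA, wcc_apply, ContinuousLinearMap.sum_apply, ContinuousLinearMap.comp_apply, d,
    map_smul, sum_inner, inner_sum, inner_smul_left, inner_smul_right, k, Complex.conj_ofReal,
    Finset.mul_sum, Complex.ofReal_mul, mul_assoc]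

lemma ex_ovl (t : T3 c) (hW : TP2 c.Q c.TT e W) (hc : c.Clo W) :
    ∃ k π, Ovl (tO c.hT) (W c.tau c.tau) k π := by
  obtain ⟨k0, j0, O, h1, -, h3⟩ := t.struct e W hW 0 0
  choose N π p1 p2 using fun k : ℕ => t.poly (k + 3) (5 - k) j0 (O k)
    (by exact_mod_cast h1 k) ⟨1 - k, by push_cast; ring⟩ c.tau
  have hm : ∀ k j r s μ, (π k j r s μ).IsHomogeneous (5 - k) := fun k j r s μ =>
    (show (5 - k : ℤ).toNat = 5 - k by omega) ▸ ((p1 k j).hom r s μ).1
  have hz := fun (k : ℕ) (hk : 5 < k) j r s μ => ((p1 k j).hom r s μ).2 (by omega)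
  refine ⟨k0, fun n J K k γ => ∑ j ∈ Finset.range (N k),
    Polynomial.monomial j (π k j K.1 K.2 (ix3 n J γ)), fun I J => (hW.ind _ _ I J).symm,
    scl t hW hc, fun n J k γ => ?_, fun n J K k γ hk => by simp [c0, hz k hk],
    fun n J K k γ y p s => ?_, fun n J K m g f cm cg => ?_⟩
  · simp only [c0, Polynomial.finset_sum_coeff, Polynomial.coeff_monomial, Finset.sum_ite_eq']
    split_ifs
    exacts [⟨fun r s => hm k 0 r s _, fun r s => (p1 k 0).sym r s _, fun s => (p1 k 0).con s _,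
      fun r s l => (p1 k 0).dvd r s l _⟩, ⟨fun _ _ => MvPolynomial.isHomogeneous_zero _ _ _,
      fun _ _ => rfl, by simp, by simp⟩]
  · rcases lt_or_ge 5 k with hk | hk
    · simp [hz k hk]
    simp only [map_sum, evl_mon, evp_hom (hm k _ _ _ _), Finset.mul_sum]
    refine Finset.sum_congr rfl fun j _ => ?_
    rw [← pow_mul_pow_sub (s : ℂ) hk]
    ring
  · obtain ⟨κ, hκ⟩ := h3 c.tau n J (ten2 m g) (dc_tenE (sh2 V) (dc_of_sch m cm) (dc_of_sch g cg)).2
    simp only [add_zero] at hκ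
    rw [hκ, inner_add_right, inner_smul_right, perp t, mul_zero, add_zero, QG]
    simp only [inner_sum, inner_smul_right, dg_ten2, map_smul, map_sum (LI 0 f g) _ (Finset.range
      (k0 + 1)), map_sum (LI 0 f g) _ Finset.univ, tO_apply, p2, smul_eq_mul, LI_apply,
      map_sum (evl _ _), evl_mon, add_zero]

theorem dt [Fact c.tp] (t : T3 c) (k : KK c) : DT (tO c.hT) c.wp c.wm c.t where
  s1 I J K F := (c.hTP.swap1 _ J I K F _ fun _ _ _ => rfl).symm
  s2 I J K F := (c.hTP.swap2 _ I K J F _ fun _ _ _ => rfl).symm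
  ind I J K := (c.hTP.ind _ I J K).symm
  cv L hL a F I J K := by
    simpa only [Real.log_one, add_zero] using c.hTP.cov c.tau 1 L a I J K F (sim3 one_pos hL a F)
      one_pos hL (fun x y z => sim3_apply one_pos hL a F (x, y, z)) (.inl rfl)
  tt I J K f G l := c.hTP.fac1 _ I J K f G _ (fun _ _ _ => rfl) l
  ff I J K f G l := by
    rw [Ctx.t, c.hTP.swap1 _ _ _ _ _ (P352Y.s1 _) fun _ _ _ => rfl,
      c.hTP.swap2 _ _ _ _ _ (P352Y.s2 _) fun _ _ _ => rfl]
    exact c.hTP.fac3 _ J K I G (cj G) f _ (fun _ _ _ => mul_comm _ _) (fun _ => rfl) l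
  con n f := by
    simp only [tO_apply, ev_pD, ← Str.coe_sum, c.hT.conserved n (ev f) c.Q.vac ⟨f, rfl⟩,
      Completion.coe_zero]
  off n J G hG := (Str.dvL_apply n J G).symm.trans (StrL.off c.hF.st c.hTP.tp _ _ n J G hG)
  op := ex_ovl t c.hTP.tp k.1
  om := ex_ovl t c.hTP.tm k.2

open Link in
theorem resw_of (hc : RW.COCW) (c : Ctx D) [Fact c.tp] (t : T3 c) (k : KK c) : RESW c := by
  intro ρ1 κ2 κ3 ρ2 θ1 θ3 G h1 h2 h3 h4 h5 h6 k1 k2 hG
  let b : ContDiffBump (0 : V) := ⟨1, 2, one_pos, one_lt_two⟩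
  have r0 : Tst (b.normed volume) := ⟨b.contDiff_normed, b.hasCompactSupport_normed⟩
  have r1 : ∫ y, sch (cx (b.normed volume)) y = 1 := by
    rw [coe_sch (dc_cx r0)]
    exact (integral_complex_ofReal (f := b.normed volume)).trans (by rw [b.integral_normed]; rfl)
  have d := dt t k
  have hΘ := (sch_fib3 volume (dc_Ps h1 h2 h3 h4 h5 h6)).1
  have z := hc _ (d.rdw r1 d.sc) d.divcw (d.divaw t.ker t.gff t.null r1) _ _ hΘ (const h1 h4 k1 k2)
  have x := Red.dc_der hΘ (bi (Red.mat wH))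
  simp only [bi_mat] at x
  replace z := (d.TW_eq r1 (G := G) (by
    exact Red.dc_mul (dc_sub (Red.dc_der hΘ 1) x) (Red.ev8_smooth _)) fun z => by
    rw [fib3_apply, flow h1 h2 h3 h4 h5 h6, ← integral_mul_const]
    refine integral_congr_ae (.of_forall fun y => ?_)
    beta_reduce
    rw [hG, ev8_PW y, ← Complex.ofReal_mul, PhW, q4, ← tx_sub, ← tx_sub]
    congr 1
    ring).symm.trans z
  simpa only [Ctx.tww, Ctx.tw, ContinuousLinearMap.sum_apply, ContinuousLinearMap.comp_apply,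
    ContinuousLinearMap.mul_apply] using z

end Vale.Agent.P352L.RA
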