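import Vale.Agent.P352L.RES.WKey
import Vale.Agent.P352X.R.RES.CocB

/-!
# P352L, block RESW: the residue argument on test functions
-/

set_option linter.all false

open Filter Topology
open scoped ContDiff

namespace Vale.Agent.P352L.RW.B85

open Vale.Agent.P352 Vale.Agent.P352.GF Vale.Agent.P352.H755 Vale.Agent.P352X
open Vale.Agent.P352X.RS Vale.Agent.P352X.RS.Red
open Ko
open MvPolynomial (pderiv)

noncomputable section

/-! ## adjoints -/

section adj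

variable {M : Type} [AddCommGroup M] [Module ℂ M]

def BtL (σ : I2 → M →ₗ[ℂ] ℂ) (I : I2) : M →ₗ[ℂ] ℂ :=
  σ I - (gm I / 3) • ∑ k, (eta k : ℂ) • σ (k, k)

def CtL (P : Op M) (σ : I2 → M →ₗ[ℂ] ℂ) (a : I3) : M →ₗ[ℂ] ℂ :=
  (eta a.1 : ℂ) • BtL σ (a.2.1, a.2.2) ∘ₗ P a.1 - (eta a.2.1 : ℂ) • BtL σ (a.1, a.2.2) ∘ₗ P a.2.1

lemma BtL_apply (σ : I2 → M →ₗ[ℂ] ℂ) (I : I2) (x : M) :
    BtL σ I x = σ I x - gm I / 3 * ∑ k, (eta k : ℂ) * σ (k, k) x := by
  simp [BtL]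

lemma CtL_apply (P : Op M) (σ : I2 → M →ₗ[ℂ] ℂ) (a : I3) (x : M) : CtL P σ a x =
    eta a.1 * BtL σ (a.2.1, a.2.2) (P a.1 x) - eta a.2.1 * BtL σ (a.1, a.2.2) (P a.2.1 x) := rfl

lemma sum_gm2 (f : I2 → ℂ) : ∑ I, gm I * f I = ∑ k, (eta k : ℂ) * f (k, k) := by
  simp [gm, Fintype.sum_prod_type]

lemma adj_tq (σ : I2 → M →ₗ[ℂ] ℂ) (β : I2 → M) :
    ∑ I, σ I (tq (1 / 3) β I) = ∑ I, BtL σ I (β I) := by
  have a : ∀ I, σ I (tq (1 / 3) β I) =
      σ I (β I) - gm I * (1 / 3 * ∑ k, (eta k : ℂ) * σ I (β (k, k))) := fun I => by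
    simp only [tq_apply, tc, map_sub, map_smul, map_sum, smul_eq_mul, mul_assoc]
  have b : ∀ I, BtL σ I (β I) =
      σ I (β I) - gm I * (1 / 3 * ∑ k, (eta k : ℂ) * σ (k, k) (β I)) := fun I => by
    rw [BtL_apply]
    ring
  rw [Finset.sum_congr rfl fun I _ => a I, Finset.sum_congr rfl fun I _ => b I,
    Finset.sum_sub_distrib, Finset.sum_sub_distrib, sum_gm2, sum_gm2]
  simp only [Finset.mul_sum]
  rw [Finset.sum_comm]
  exact congrArg _ (Finset.sum_congr rfl fun _ _ => Finset.sum_congr rfl fun _ _ => by ring)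

lemma adj_sy {σ : I2 → M →ₗ[ℂ] ℂ} (h : ∀ I, σ I.swap = σ I) (β : I2 → M) :
    ∑ I, σ I (sy β I) = ∑ I, σ I (β I) := by
  have : ∑ I, σ I (β I.swap) = ∑ I, σ I (β I) :=
    Fintype.sum_equiv (Equiv.prodComm _ _) _ _ fun I => by
      rw [← h I]
      rfl
  simp only [sy_apply, map_smul, map_add, smul_eq_mul, ← Finset.mul_sum, Finset.sum_add_distrib,
    this]
  ring

theorem adj (P : Op M) {σ : I2 → M →ₗ[ℂ] ℂ} (h : ∀ I, σ I.swap = σ I) (χ : I3 → M) :
    ∑ I, σ I (AT P χ I) = ∑ a, CtL P σ a (χ a) := by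
  rw [AT_apply, adj_tq, Ah_apply, adj_sy fun I => by rw [BtL, BtL, h, gm_swap]]
  simp only [dv_apply, rs_apply, map_sum, map_smul, map_sub, smul_eq_mul, CtL_apply, mul_sub,
    Finset.sum_sub_distrib, Fintype.sum_prod_type]
  congr 1
  · exact (Finset.sum_congr rfl fun _ _ => Finset.sum_comm).trans Finset.sum_comm
  · exact Finset.sum_congr rfl fun _ _ => Finset.sum_comm

theorem adj2 {P Q : Op M} (c : Cm P Q) {σ : I2 → I2 → M →ₗ[ℂ] ℂ} (h : ∀ J, σ J.swap = σ J)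
    (h' : ∀ J K, σ J K.swap = σ J K) (H : I3 → I3 → M) :
    ∑ J, ∑ K, σ J K (B23 P Q H J K) =
      ∑ b, ∑ d, CtL P (fun J => CtL Q (σ J) d) b (H b d) := by
  calc _ = ∑ J, ∑ d, CtL Q (σ J) d (AT P (fun b => H b d) J) :=
        Finset.sum_congr rfl fun J _ => (Finset.sum_congr rfl fun K _ => by
          rw [B23_apply, AT_comm c]).trans (adj Q (h' J) fun d => AT P (fun b => H b d) J)
    _ = ∑ d, ∑ b, CtL P (fun J => CtL Q (σ J) d) b (H b d) :=
        Finset.sum_comm.trans (Finset.sum_congr rfl fun d _ => adj P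
          (σ := fun J => CtL Q (σ J) d) (fun J => by simp only [h]) fun b => H b d)
    _ = _ := Finset.sum_comm

end adj

/-! ## test functions -/

def DM : Submodule ℂ Tf where
  carrier := {φ | Dc φ}
  add_mem' h h' := ⟨h.1.add h'.1, h.2.add h'.2⟩
  zero_mem' := Coc.dc_zero
  smul_mem' a φ h := ⟨contDiff_const.mul h.1, h.2.mul_left (f := fun _ => a)⟩

def TM : Type := DM

instance : AddCommGroup TM := inferInstanceAs (AddCommGroup DM)
instance : Module ℂ TM := inferInstanceAs (Module ℂ DM)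

/-- evaluation -/
def ev (z : V × V) : TM →ₗ[ℂ] ℂ where
  toFun φ := φ.1 z
  map_add' _ _ := rfl
  map_smul' _ _ := rfl

lemma ev_ext {φ ψ : TM} (h : ∀ z, ev z φ = ev z ψ) : φ = ψ := Subtype.ext (funext h)

lemma dc (φ : TM) : Dc φ.1 := φ.2

/-- vector fields -/
def vf (X : V × V → V × V) (hX : ContDiff ℝ ∞ X) : TM →ₗ[ℂ] TM where
  toFun φ := ⟨fun z => fderiv ℝ φ.1 z (X z), Coc.dc_fderiv (dc φ) hX⟩
  map_add' φ ψ := Subtype.ext (funext fun z => by
    have := Coc.fderiv_lin (dc φ) 1 (dc ψ) z (X z)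
    simp only [one_mul] at this
    exact this)
  map_smul' a φ := Subtype.ext (funext fun z => by
    have := Coc.fderiv_lin Coc.dc_zero a (dc φ) z (X z)
    simp only [zero_add, fderiv_fun_const, Pi.zero_apply, ContinuousLinearMap.zero_apply] at this
    exact this)

/-- substitutions -/
def pb (σ : V × V →L[ℝ] V × V) (h : ∀ z, σ (σ z) = z) : TM →ₗ[ℂ] TM where
  toFun φ := ⟨fun z => φ.1 (σ z), Coc.dc_comp (dc φ) σ h⟩
  map_add' _ _ := rfl
  map_smul' _ _ := rfl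

/-- functions that vanish near the origin -/
def ZM : Submodule ℂ TM where
  carrier := {φ | ∀ᶠ z in 𝓝 (0 : V × V), φ.1 z = 0}
  add_mem' {φ ψ} h h' := by
    filter_upwards [h, h'] with z a b
    exact (congrArg₂ (· + ·) a b).trans (add_zero 0)
  zero_mem' := Eventually.of_forall fun _ => rfl
  smul_mem' a φ h := by
    filter_upwards [h] with z b
    exact (congrArg (a * ·) b).trans (mul_zero a)

def ee : Fin 3 → V → V × V := ![e1, e2, e3]

lemma ee_sum (i : Fin 3) (v : V) : ee i v = ∑ m, v m • ee i (bas m 1) := by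
  fin_cases i <;> ext n <;> simp [ee, e1, e2, e3, bas, Prod.fst_sum, Prod.snd_sum]

lemma ee_AX (w : Ix → V) (i : Fin 3) (a : Ix) : Coc.AX w (ee i (bas a 1)) = ee i (w a) := by
  fin_cases i <;> ext n <;> simp [ee, e1, e2, e3, bas, Coc.AX, sim]

lemma der_ee (φ : Tf) (z : V × V) (i : Fin 3) (v : V) :
    fderiv ℝ φ z (ee i v) = ∑ m, (v m : ℂ) * fderiv ℝ φ z (ee i (bas m 1)) := by
  rw [ee_sum, map_sum]
  simp only [map_smul, Complex.real_smul]

def PP (i : Fin 3) : Op TM := fun m => vf (fun _ => ee i (bas m 1)) contDiff_const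
def OO (w : Ix → V) : TM →ₗ[ℂ] TM := vf (Coc.AX w) (Coc.AX w).contDiff
def EE : TM →ₗ[ℂ] TM := vf id contDiff_id

lemma der_const {φ : Tf} (h : Dc φ) (a x v : V × V) :
    fderiv ℝ (fun y => fderiv ℝ φ y a) x v = fderiv ℝ (fderiv ℝ φ) x v a := by
  simpa using Coc.fderiv_vf h 0 a x v

lemma cm_PP (i k : Fin 3) : Cm (PP i) (PP k) := fun m n φ => Subtype.ext (funext fun z =>
  (der_const (dc φ) _ z _).trans ((Coc.snd_symm (dc φ) z _ _).trans (der_const (dc φ) _ z _).symm))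

lemma ro_PP (i : Fin 3) (w : Ix → V) : Ro w (OO w) (PP i) := fun a φ => ev_ext fun z => by
  have h := Coc.fderiv_vf (dc φ) (Coc.AX w) 0 z (ee i (bas a 1))
  simp only [add_zero] at h
  rw [ee_AX, der_ee _ _ _ (w a), Coc.snd_symm (dc φ), ← der_const (dc φ)] at h
  simp only [map_add, map_sum, map_smul]
  exact h

lemma it_pb {σ : V × V →L[ℝ] V × V} (h : ∀ z, σ (σ z) = z) {i k : Fin 3}
    (e : ∀ v, σ (ee k v) = ee i v) : It (pb σ h) (PP i) (PP k) := fun m φ =>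
  Subtype.ext (funext fun z => ((Coc.fderiv_comp_clm (Coc.dc_diff (dc φ)) σ z _).trans
    (by rw [e]; rfl)).symm)

variable {τ : I2 → I2 → I2 → Tf → ℂ}

/-- the functionals -/
def LL (R : RDW τ) (I J K : I2) : TM →ₗ[ℂ] ℂ where
  toFun φ := τ I J K φ.1
  map_add' φ ψ := by
    have := R.lin I J K _ _ 1 (dc φ) (dc ψ)
    simp only [one_mul] at this
    exact this
  map_smul' a φ := by
    have h0 := R.lin I J K _ _ 1 Coc.dc_zero Coc.dc_zero
    have := R.lin I J K _ _ a Coc.dc_zero (dc φ)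
    simp only [mul_zero, add_zero, one_mul, left_eq_add] at h0
    simp only [zero_add, h0] at this
    exact this

lemma L1 (R : RDW τ) (I : I2) : LL R I.swap = LL R I :=
  funext fun J => funext fun K => LinearMap.ext fun φ => congrFun (R.ind I J K) _

lemma L2' (R : RDW τ) (I J : I2) : LL R I J.swap = LL R I J :=
  funext fun K => LinearMap.ext fun φ => (R.s12 _ I K _ (dc φ)).symm.trans
    ((congrFun (R.ind J I K) _).trans (R.s12 J I K _ (dc φ)))

lemma L3 (R : RDW τ) (I J K : I2) : LL R I J K.swap = LL R I J K :=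
  LinearMap.ext fun φ => (R.s13 _ J I _ (dc φ)).symm.trans
    ((congrFun (R.ind K J I) _).trans (R.s13 K J I _ (dc φ)))

def tt (R : RDW τ) : (I2 → I2 → I2 → TM) →ₗ[ℂ] ℂ where
  toFun F := ∑ I, ∑ J, ∑ K, LL R I J K (F I J K)
  map_add' F G := by simp only [Pi.add_apply, map_add, Finset.sum_add_distrib]
  map_smul' a F := by
    simp only [Pi.smul_apply, map_smul, smul_eq_mul, Finset.mul_sum, RingHom.id_apply]

lemma tt_apply (R : RDW τ) (F : I2 → I2 → I2 → TM) :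
    tt R F = ∑ I, ∑ J, ∑ K, LL R I J K (F I J K) := rfl

lemma Ct_eq {σ : I2 → TM →ₗ[ℂ] ℂ} {σ' : I2 → Tf → ℂ} (h : ∀ I φ, σ I φ = σ' I φ.1) (i : Fin 3)
    (a : I3) (φ : TM) : CtL (PP i) σ a φ = Ct (ee i) σ' a φ.1 := by
  simp only [CtL_apply, BtL_apply, h]
  rfl

lemma tt_B3 (R : RDW τ) (G : I3 → I3 → I3 → TM) :
    tt R (B3 (PP 0) (PP 1) (PP 2) G) = ∑ b, ∑ d, ∑ a, LC τ a b d (G a b d).1 := by
  have e : ∀ I J K, B3 (PP 0) (PP 1) (PP 2) G I J K =
      B23 (PP 1) (PP 2) (fun b d => AT (PP 0) (fun a => G a b d) I) J K := fun I J K => by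
    rw [B3_rev cm_PP, B23_apply, AT_comm (cm_PP 1 2)]
  simp only [tt_apply, e, adj2 (cm_PP 1 2) (L2' R _) (L3 R _)]
  rw [Finset.sum_comm]
  refine Finset.sum_congr rfl fun b _ => Finset.sum_comm.trans (Finset.sum_congr rfl fun d _ => ?_)
  rw [adj (PP 0) (σ := fun I => CtL (PP 1) (fun J => CtL (PP 2) (LL R I J) d) b)
    fun I => by simp only [L1]]
  exact Finset.sum_congr rfl fun a _ =>
    Ct_eq (fun I => Ct_eq (fun J => Ct_eq (fun K _ => rfl) 2 d) 1 b) 0 a _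

lemma sw' {α : Type} [Fintype α] (f : α → α → α → ℂ) :
    ∑ J, ∑ K, ∑ L, f J K L = ∑ J, ∑ K, ∑ L, f L K J :=
  (Finset.sum_comm.trans (Finset.sum_congr rfl fun _ _ => Finset.sum_comm)).trans Finset.sum_comm

lemma sw {α : Type} [Fintype α] (f : α → α → α → α → ℂ) :
    ∑ I, ∑ J, ∑ K, ∑ L, f I J K L = ∑ I, ∑ J, ∑ K, ∑ L, f L J K I :=
  Finset.sum_comm.trans ((Finset.sum_congr rfl fun J _ => sw' fun I K L => f I J K L).trans
    Finset.sum_comm)

lemma tt_inv (R : RDW τ) (w : Ix → V) (F : I2 → I2 → I2 → TM) (hw : So w) :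
    tt R (omF w (OO w) F) = 0 := by
  have k : ∀ I J K, LL R I J K (OO w (F I J K)) + (∑ L, l2 w L I * LL R L J K (F I J K) +
      ∑ L, l2 w L J * LL R I L K (F I J K) + ∑ L, l2 w L K * LL R I J L (F I J K)) = 0 :=
    fun I J K => R.inv w I J K _ hw (dc (F I J K))
  have k' := Finset.sum_eq_zero fun I (_ : I ∈ Finset.univ) => Finset.sum_eq_zero
    fun J (_ : J ∈ Finset.univ) => Finset.sum_eq_zero fun K (_ : K ∈ Finset.univ) => k I J K
  have a := sw fun I J K L => l2 w L I * LL R L J K (F I J K)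
  have b := Finset.sum_congr rfl fun I (_ : I ∈ Finset.univ) =>
    sw' fun J K L => l2 w L J * LL R I L K (F I J K)
  have c : ∑ I, ∑ J, ∑ K, ∑ L, l2 w L K * LL R I J L (F I J K) =
      ∑ I, ∑ J, ∑ K, ∑ L, l2 w K L * LL R I J K (F I J L) :=
    Finset.sum_congr rfl fun _ _ => Finset.sum_congr rfl fun _ _ => Finset.sum_comm
  simp only [Finset.sum_add_distrib] at k'
  simp only [tt_apply, omF_apply, map_add, map_sum, map_smul, smul_eq_mul, Finset.sum_add_distrib]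
  rw [← a, ← b, ← c, k']

lemma tt_12 (R : RDW τ) (F : I2 → I2 → I2 → TM) : tt R (p12 (pb Coc.σ12 Coc.σ12_inv) F) = tt R F := by
  have k : ∀ I J K, LL R I J K (p12 (pb Coc.σ12 Coc.σ12_inv) F I J K) = LL R J I K (F J I K) :=
    fun I J K => R.s12 I J K _ (dc (F J I K))
  simp only [tt_apply, k]
  exact Finset.sum_comm

lemma tt_13 (R : RDW τ) (F : I2 → I2 → I2 → TM) : tt R (p13 (pb Coc.σ13 Coc.σ13_inv) F) = tt R F := by
  have k : ∀ I J K, LL R I J K (p13 (pb Coc.σ13 Coc.σ13_inv) F I J K) = LL R K J I (F K J I) :=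
    fun I J K => R.s13 I J K _ (dc (F K J I))
  simp only [tt_apply, k]
  exact (sw' fun I J K => LL R I J K (F I J K)).symm

lemma EE_val (φ : TM) : (EE φ).1 = Ef φ.1 := rfl

lemma tt_hom (R : RDW τ) (G : I3 → I3 → I3 → TM) (h : ∀ a b c, G a b c ∈ ZM) :
    tt R (B3 (PP 0) (PP 1) (PP 2) fun a b c => EE (G a b c)) =
      7 * tt R (B3 (PP 0) (PP 1) (PP 2) G) := by
  simp only [tt_B3, Finset.mul_sum, EE_val]
  exact Finset.sum_congr rfl fun b _ => Finset.sum_congr rfl fun d _ => Finset.sum_congr rfl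
    fun a _ => R.hom a b d _ (dc _) (notMem_tsupport_iff_eventuallyEq.2 (h a b d))

lemma PP_EE (i : Fin 3) (m : Ix) (φ : TM) : PP i m (EE φ) = EE (PP i m φ) + PP i m φ :=
  Subtype.ext ((Coc.Ef_const (dc φ) _).trans (funext fun z => by rw [one_mul]; rfl))

lemma ia (i : Fin 3) : It (pb Coc.σ12 Coc.σ12_inv) (PP i) (PP (![1, 0, 2] i)) :=
  it_pb _ fun v => by fin_cases i <;> simp [ee, e1, e2, e3, Coc.σ12_apply]

lemma ib (i : Fin 3) : It (pb Coc.σ13 Coc.σ13_inv) (PP i) (PP (![2, 1, 0] i)) :=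
  it_pb _ fun v => by fin_cases i <;> simp [ee, e1, e2, e3, Coc.σ13_apply]

/-- the structure on test functions -/
def st (R : RDW τ) : St TM where
  P := PP
  O := OO
  E := EE
  a := pb Coc.σ12 Coc.σ12_inv
  b := pb Coc.σ13 Coc.σ13_inv
  Z := ZM
  t := tt R
  c := cm_PP
  r := ro_PP
  e := PP_EE
  eO w φ := Subtype.ext (Coc.Ef_vf (dc φ) (Coc.AX w))
  ea φ := Subtype.ext (Coc.Ef_comp (Coc.dc_diff (dc φ)) _)
  eb φ := Subtype.ext (Coc.Ef_comp (Coc.dc_diff (dc φ)) _)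
  ia := ia
  ib := ib
  z i m φ h := Coc.fderiv_ev h _
  inv := tt_inv R
  ta := tt_12 R
  tb := tt_13 R
  hom := tt_hom R

/-! ## polynomial times cutoff -/

/-- multiplication by a test function -/
def jj (f : TM) : P20 →ₗ[ℂ] TM where
  toFun S := ⟨fun z => f.1 z * ev8 S z, (dc f).1.mul (ev8_smooth S), (dc f).2.mul_right⟩
  map_add' S T := Subtype.ext (funext fun z => (congrArg _ (ev8_add S T z)).trans (mul_add _ _ _))
  map_smul' a S := Subtype.ext (funext fun z => (congrArg _ (map_smul (MvPolynomial.aeval _ :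
    P20 →ₐ[ℂ] ℂ) a S)).trans (mul_left_comm _ _ _))

lemma ev_jj (f : TM) (S : P20) (z : V × V) : ev z (jj f S) = ev z f * ev8 S z := rfl

lemma ev_vf (X : V × V → V × V) (hX : ContDiff ℝ ∞ X) (f : TM) (S : P20) (z : V × V) :
    ev z (vf X hX (jj f S)) = ev z (vf X hX f) * ev8 S z + ev z f * fderiv ℝ (ev8 S) z (X z) := by
  have := fderiv_fun_mul ((dc f).1.differentiable (by simp) z) (ev8_diff S z)
  refine (congrArg (fun l : V × V →L[ℝ] ℂ => l (X z)) this).trans ?_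
  simp only [ContinuousLinearMap.add_apply, ContinuousLinearMap.smul_apply, smul_eq_mul]
  rw [add_comm, mul_comm]
  rfl

lemma mem_Z {φ : TM} : φ ∈ ZM ↔ ∀ᶠ z in 𝓝 (0 : V × V), ev z φ = 0 := Iff.rfl

variable {f : TM}

lemma jvf (h : ∀ᶠ z in 𝓝 (0 : V × V), ev z f = 1) {X : V × V → V × V} (hX : ContDiff ℝ ∞ X)
    {S T : P20} (e : ∀ z, ev8 T z = fderiv ℝ (ev8 S) z (X z)) : jj f T - vf X hX (jj f S) ∈ ZM := by
  rw [mem_Z]
  filter_upwards [Coc.fderiv_ev h X] with z k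
  rw [map_sub, ev_vf, ev_jj, e, show ev z (vf X hX f) = 0 from k]
  ring

lemma jpb (h : ∀ᶠ z in 𝓝 (0 : V × V), ev z f = 1) {σ : V × V →L[ℝ] V × V} (hσ : ∀ z, σ (σ z) = z)
    {S T : P20} (e : ∀ z, ev8 T z = ev8 S (σ z)) : jj f T - pb σ hσ (jj f S) ∈ ZM := by
  rw [mem_Z]
  filter_upwards [h, Coc.ev_comp h σ] with z k k'
  rw [map_sub, ev_jj, e, k, show ev z (pb σ hσ (jj f S)) = ev (σ z) f * _ from rfl, k', sub_self]

lemma ev8_QQ (i : Fin 3) (m : Ix) (S : P20) (z : V × V) :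
    ev8 (QQ i m S) z = fderiv ℝ (ev8 S) z (ee i (bas m 1)) := by
  have n : ∀ T, ev8 (-T) z = -ev8 T z := fun T => map_neg _ _
  rw [ev8_der, Fintype.sum_prod_type, Fin.sum_univ_five]
  fin_cases i <;> simp [QQ, Q1_apply, Q2_apply, Q3_apply, ee, e1, e2, e3, cv, bas, n, ev8_add,
    apply_ite Complex.ofReal, add_comm]

lemma En_jj (R : RDW τ) (f : TM) {n : ℕ} {S : P20} (h : Deg n S) :
    (st R).En n (jj f S) = jj (EE f) S := ev_ext fun z => by
  have : fderiv ℝ (ev8 S) z (id z) = n * ev8 S z := ev8_E h z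
  rw [St.En_apply, map_sub, map_smul, show (st R).E = vf id contDiff_id from rfl, ev_vf, this,
    ev_jj, ev_jj, EE, smul_eq_mul]
  ring

/-! ## the divergence -/

/-- the pairing with a pure gauge source -/
def WW (R : RDW τ) : (Ix → I3 → I3 → TM) →ₗ[ℂ] ℂ := tt R ∘ₗ B3 (PP 0) (PP 1) (PP 2) ∘ₗ ga

lemma WW_eq (R : RDW τ) (H : Ix → I3 → I3 → TM) :
    WW R H = ∑ n, ∑ b, ∑ c, DW τ n b c (H n b c).1 := by
  have e : ∀ I J K, B3 (PP 0) (PP 1) (PP 2) (ga H) I J K = (1 / 2 : ℂ) •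
      (PP 0 I.1 (B23 (PP 1) (PP 2) (H I.2) J K) + PP 0 I.2 (B23 (PP 1) (PP 2) (H I.1) J K)) :=
    fun I J K => by
      rw [← AT_ga (P := PP 0) (fun n => B23 (PP 1) (PP 2) (H n) J K), B3_apply]
      refine congrArg (fun y => AT (PP 0) y I) (funext fun a => (B23_apply _ J K).symm.trans ?_)
      rw [ga_apply, map_smul]
      rfl
  have k : ∀ J K, ∑ I, LL R I J K (B3 (PP 0) (PP 1) (PP 2) (ga H) I J K) =
      ∑ n, (∑ m, LL R (m, n) J K ∘ₗ PP 0 m) (B23 (PP 1) (PP 2) (H n) J K) := fun J K => by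
    simp only [e]
    refine (adj_sy (σ := fun I => LL R I J K) (fun I => by simp only [L1])
      fun I => PP 0 I.1 (B23 (PP 1) (PP 2) (H I.2) J K)).trans ?_
    simp only [Fintype.sum_prod_type, LinearMap.sum_apply, LinearMap.comp_apply]
    exact Finset.sum_comm
  calc WW R H = ∑ J, ∑ K, ∑ I, LL R I J K (B3 (PP 0) (PP 1) (PP 2) (ga H) I J K) :=
        (tt_apply R _).trans (Finset.sum_comm.trans (Finset.sum_congr rfl fun _ _ =>
          Finset.sum_comm))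
    _ = ∑ n, ∑ J, ∑ K, (∑ m, LL R (m, n) J K ∘ₗ PP 0 m) (B23 (PP 1) (PP 2) (H n) J K) := by
        simp only [k]
        exact (Finset.sum_congr rfl fun _ _ => Finset.sum_comm).trans Finset.sum_comm
    _ = _ := Finset.sum_congr rfl fun n _ => by
        rw [adj2 (cm_PP 1 2) (σ := fun J K => ∑ m, LL R (m, n) J K ∘ₗ PP 0 m)
          (fun J => by simp only [L2']) fun J K => by simp only [L3]]
        exact Finset.sum_congr rfl fun b _ => Finset.sum_congr rfl fun c _ =>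
          Ct_eq (fun J => Ct_eq (fun K φ => LinearMap.sum_apply _ _ _) 2 c) 1 b _

lemma WW_23 (R : RDW τ) (H : Ix → I3 → I3 → TM) :
    WW R (fun n b c => pb Coc.σ23 Coc.σ23_inv (H n c b)) = WW R H := by
  have a : ∀ G, tt R (B3 (PP 0) (PP 1) (PP 2) (p12 (pb Coc.σ12 Coc.σ12_inv) G)) =
      tt R (B3 (PP 0) (PP 1) (PP 2) G) := fun G => by
    rw [B3_p12 (cm_PP 0 1) (ia 0) (ia 1) (ia 2), tt_12]
  have b : ∀ G, tt R (B3 (PP 0) (PP 1) (PP 2) (p13 (pb Coc.σ13 Coc.σ13_inv) G)) =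
      tt R (B3 (PP 0) (PP 1) (PP 2) G) := fun G => by
    rw [B3_p13 (cm_PP 0 1) (cm_PP 0 2) (cm_PP 1 2) (ib 0) (ib 1) (ib 2), tt_13]
  refine Eq.trans (congrArg (fun y => tt R (B3 (PP 0) (PP 1) (PP 2) y)) ?_)
    ((a _).trans ((b _).trans (a (ga H))))
  funext x y z
  refine Subtype.ext (funext fun u => ?_)
  show -gm x.2 * (H x.1 z y).1 (Coc.σ23 u) = -gm x.2 * (H x.1 z y).1 (Coc.σ12 (Coc.σ13 (Coc.σ12 u)))
  rw [Coc.σ23_eq]

lemma Ct_zero {A : Set (V × V)} {σ : I2 → Tf → ℂ} (e : V → V × V)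
    (h : ∀ I φ, Dc φ → tsupport φ ⊆ A → σ I φ = 0) (a : I3) (φ : Tf) (d : Dc φ)
    (s : tsupport φ ⊆ A) : Ct e σ a φ = 0 := by
  have k : ∀ I y, σ I (Dv y φ) = 0 := fun I y => h I _ (Coc.dc_fderiv d contDiff_const)
    ((tsupport_fderiv_apply_subset ℝ y).trans s)
  simp [Ct, Bt, k]

lemma WW_far (R : RDW τ) (hC : DIVCW τ) (s : tsupport f.1 ⊆ {z | z.1 ≠ 0 ∧ z.1 ≠ z.2})
    (Y : Ix → I3 → I3 → P20) : WW R (fun n b c => jj f (Y n b c)) = 0 := by
  rw [WW_eq]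
  exact Finset.sum_eq_zero fun n _ => Finset.sum_eq_zero fun b _ => Finset.sum_eq_zero fun c _ =>
    Ct_zero e2 (fun J => Ct_zero e3 (hC n J) c) b _ (dc _) (tsupport_mul_subset_left.trans s)

lemma ev8_s23 (S : P20) (z : V × V) : ev8 (Coc.s23 S) z = ev8 S (Coc.σ23 z) := by
  rw [Coc.s23_eq, ev8_s12, ev8_s13, ev8_s12, ← Coc.σ23_eq]
  rfl

lemma B23_s23 (Y : I3 → I3 → P20) (J K : I2) :
    B23 Q2 Q3 (fun b c => Coc.s23 (Y c b)) J K = Coc.s23 (B23 Q2 Q3 Y K J) := by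
  have a : It2 Coc.s23.toLinearMap Coc.s23.toLinearMap Q2 Q3 := fun m S => (Coc.p4_s23 m S).symm
  have b : It2 Coc.s23.toLinearMap Coc.s23.toLinearMap Q3 Q2 := fun m S => by
    have := congrArg Coc.s23 (a m (Coc.s23 S))
    simp only [AlgHom.toLinearMap_apply, s23_s23] at this ⊢
    exact this.symm
  refine Eq.symm ((congrArg Coc.s23 ((B23_apply Y K J).trans (AT_comm (cm_pd2 4).symm Y K J))).trans
    ((b.AT _ _).trans ?_))
  simp only [a.AT, B23_apply]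
  rfl

lemma d5_s23 (n : Ix) (J K : I2) (S : P20) :
    Coc.s23 (z0 (d5 n K J S)) = z0 (d5 n J K (Coc.s23 S)) := by
  have h0 : ∀ a S, pderiv (1, a) (s12 S) = s12 (pderiv (0, a) S) := pd_s12 0
  have h1 : ∀ a S, pderiv (0, a) (s12 S) = s12 (pderiv (1, a) S) := pd_s12 1
  have h2 : ∀ a S, pderiv (2, a) (s12 S) = s12 (pderiv (2, a) S) := pd_s12 2
  have k0 : ∀ a S, pderiv (2, a) (s13 S) = s13 (pderiv (0, a) S) := pd_s13 0
  have k1 : ∀ a S, pderiv (1, a) (s13 S) = s13 (pderiv (1, a) S) := pd_s13 1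
  have k2 : ∀ a S, pderiv (0, a) (s13 S) = s13 (pderiv (2, a) S) := pd_s13 2
  rw [d5, dp_comm]
  simp only [Coc.s23_eq, d5, dp, h0, h1, h2, k0, k1, k2, z0_s12, z0_s13]

open Coc in
/-- the splitting of the cutoff -/
lemma split {p : (V → ℝ) → (V → ℝ) → Prop} (hA : ∀ θ : V → ℝ, Cut θ → ∃ ε > 0, ∀ χ : V → ℝ,
    Cut χ → tsupport χ ⊆ Metric.ball 0 ε → p θ χ) : ∃ (Θ : Tf) (θ θ' χ : V → ℝ), Dc Θ ∧
      (∀ᶠ z in 𝓝 (0 : V × V), Θ z = 1) ∧ Cut θ ∧ Cut θ' ∧ Cut χ ∧ p θ χ ∧ p θ' χ ∧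
      tsupport (fun z : V × V => Ef Θ z + -1 * ((χ z.1 : ℂ) * Ef (cx θ) z.2) +
        -1 * ((χ (σ23 z).1 : ℂ) * Ef (cx θ') (σ23 z).2)) ⊆ {z | z.1 ≠ 0 ∧ z.1 ≠ z.2} := by
  obtain ⟨θ, hθ, hθ1, hθ0, -⟩ := exists_cut 1 one_pos
  obtain ⟨th, hth, hth1, -, -⟩ := exists_cut 4 (by norm_num)
  obtain ⟨ε1, hε1, hA1⟩ := hA θ hθ
  obtain ⟨ε2, hε2, hA2⟩ := hA _ (cut_neg hθ)
  obtain ⟨r, hr⟩ : ∃ r : ℝ, r = min (min ε1 ε2) 1 / 4 := ⟨_, rfl⟩
  have hr0 : 0 < r := by
    rw [hr]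
    positivity
  have hr1 : 4 * r ≤ ε1 := by
    have := (min_le_left (min ε1 ε2) 1).trans (min_le_left ε1 ε2)
    linarith
  have hr2 : 4 * r ≤ ε2 := by
    have := (min_le_left (min ε1 ε2) 1).trans (min_le_right ε1 ε2)
    linarith
  have hr3 : 4 * r ≤ 1 := by
    have := min_le_right (min ε1 ε2) 1
    linarith
  obtain ⟨χ, hχ, hχ1, hχ0, hχs⟩ := exists_cut r hr0
  have dθ : Dc (cx θ) := dc_cx hθ.1
  have dθ' : Dc (cx fun x => θ (-x)) := dc_cx (cut_neg hθ).1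
  have dχ : Dc (cx χ) := dc_cx hχ.1
  have dΘ : Dc fun z : V × V => cx th z.1 * cx θ z.2 := dc_tens (dc_cx hth.1) dθ
  have d1' : Dc fun z : V × V => (χ z.1 : ℂ) * Ef (cx θ) z.2 := dc_tens dχ (dc_Ef dθ)
  have d2' : Dc fun z : V × V => (χ z.1 : ℂ) * Ef (cx fun x => θ (-x)) z.2 :=
    dc_tens dχ (dc_Ef dθ')
  have d3' := dc_comp d2' σ23 σ23_inv
  have hneg : ∀ v : V, Ef (cx fun x => θ (-x)) (-v) = Ef (cx θ) v := by
    intro v
    have h1 := congrFun (Ef_comp (dc_diff dθ) (-ContinuousLinearMap.id ℝ V)) (-v)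
    simp only [ContinuousLinearMap.neg_apply, ContinuousLinearMap.id_apply, neg_neg] at h1
    exact h1
  have hopen : ∀ (f : V × V → ℝ) (a : ℝ) (x : V × V), Continuous f → f x < a →
      ∀ᶠ z in 𝓝 x, f z < a := fun f a x hf hx => hf.continuousAt.eventually_lt_const hx
  have hopen' : ∀ (f : V × V → ℝ) (a : ℝ) (x : V × V), Continuous f → a < f x →
      ∀ᶠ z in 𝓝 x, a < f z := fun f a x hf hx => hf.continuousAt.eventually_const_lt hx
  have hE1 : ∀ v : V, ‖v‖ < 1 → Ef (cx θ) v = 0 := by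
    intro v hv
    have h1 : ∀ᶠ y in 𝓝 v, cx θ y = 1 := by
      filter_upwards [continuous_norm.continuousAt.eventually_lt_const hv] with y hy
      simp [cx, hθ1 y hy]
    exact (fderiv_ev h1 id).self_of_nhds
  have hE0 : ∀ v : V, 2 * 1 < ‖v‖ → Ef (cx θ) v = 0 := by
    intro v hv
    have h1 : ∀ᶠ y in 𝓝 v, cx θ y = 0 := by
      filter_upwards [continuous_norm.continuousAt.eventually_const_lt hv] with y hy
      simp [cx, hθ0 y hy]
    exact (fderiv_ev h1 id).self_of_nhds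
  have hEa : ∀ x : V × V, ‖x.1‖ < 4 →
      Ef (fun z : V × V => cx th z.1 * cx θ z.2) x = Ef (cx θ) x.2 := by
    intro x hx
    have h1 : ∀ᶠ z in 𝓝 x, cx th z.1 * cx θ z.2 = cx θ (ContinuousLinearMap.snd ℝ V V z) := by
      filter_upwards [hopen (fun z => ‖z.1‖) 4 x (by fun_prop) hx] with z hz
      simp [cx, hth1 _ hz]
    rw [(Ef_congr h1).self_of_nhds, Ef_comp (dc_diff dθ)]
    rfl
  have hEb : ∀ x : V × V, 2 * 1 < ‖x.2‖ →
      Ef (fun z : V × V => cx th z.1 * cx θ z.2) x = 0 := by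
    intro x hx
    have h1 : ∀ᶠ z in 𝓝 x, cx th z.1 * cx θ z.2 = 0 := by
      filter_upwards [hopen' (fun z => ‖z.2‖) _ x (by fun_prop) hx] with z hz
      simp [cx, hθ0 _ hz]
    exact (fderiv_ev h1 id).self_of_nhds
  refine ⟨_, θ, _, χ, dΘ, ?_, hθ, cut_neg hθ, hχ,
    hA1 χ hχ (hχs.trans (Metric.closedBall_subset_ball (by linarith))),
    hA2 χ hχ (hχs.trans (Metric.closedBall_subset_ball (by linarith))), ?_⟩
  · filter_upwards [hopen (fun z => ‖z.1‖) 4 0 (by fun_prop) (by simp),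
      hopen (fun z => ‖z.2‖) 1 0 (by fun_prop) (by simp)] with z h1 h2
    simp [cx, hth1 _ h1, hθ1 _ h2]
  intro x hx
  by_contra hcon
  refine notMem_tsupport_iff_eventuallyEq.2 (?_ : ∀ᶠ z in 𝓝 x, _ = (0 : ℂ)) hx
  simp only [σ23_apply, hneg]
  simp only [Set.mem_setOf_eq, not_and_or, not_not] at hcon
  rcases hcon with h0 | h0
  · rcases lt_or_ge ‖x.2‖ 1 with hv | hv
    · filter_upwards [hopen (fun z => ‖z.1‖) 4 x (by fun_prop) (by simp [h0]),
        hopen (fun z => ‖z.2‖) 1 x (by fun_prop) hv] with z h1 h2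
      rw [hEa z h1, hE1 _ h2]
      ring
    · filter_upwards [hopen (fun z => ‖z.1‖) r x (by fun_prop) (by simp [h0, hr0]),
        hopen' (fun z => ‖z.1 - z.2‖) (2 * r) x (by fun_prop) (by
          simp only [h0, zero_sub, norm_neg]
          linarith)] with z h1 h2
      rw [hEa z (by linarith), hχ1 _ h1, hχ0 _ h2]
      push_cast
      ring
  · rcases lt_or_ge ‖x.2‖ 1 with hv | hv
    · filter_upwards [hopen (fun z => ‖z.1‖) 4 x (by fun_prop) (by
          simp only [h0]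
          linarith), hopen (fun z => ‖z.2‖) 1 x (by fun_prop) hv] with z h1 h2
      rw [hEa z h1, hE1 _ h2]
      ring
    · rcases lt_or_ge ‖x.2‖ 4 with hv' | hv'
      · filter_upwards [hopen (fun z => ‖z.1‖) 4 x (by fun_prop) (by simp only [h0, hv']),
          hopen' (fun z => ‖z.1‖) (2 * r) x (by fun_prop) (by
            simp only [h0]
            linarith),
          hopen (fun z => ‖z.1 - z.2‖) r x (by fun_prop) (by simp [h0, hr0])] with z h1 h2 h3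
        rw [hEa z h1, hχ0 _ h2, hχ1 _ h3]
        push_cast
        ring
      · filter_upwards [hopen' (fun z => ‖z.2‖) (2 * 1) x (by fun_prop) (by
          show 2 * 1 < ‖x.2‖
          linarith)] with z h1
        rw [hEb z h1, hE0 _ h1]
        ring

/-! ## the source of `W W W` -/

lemma da_val (i : Fin 3) (φ : TM) : (da (PP i) φ).1 = Dv (ee i va) φ.1 := funext fun z => by
  have := congrArg (ev z) (da_apply (P := PP i) φ)
  simp only [map_sum, map_smul] at this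
  exact this.trans (der_ee _ z i va).symm

lemma bx_val (i : Fin 3) (φ : TM) : (bx (PP i) φ).1 = Bx (ee i) φ.1 := funext fun z => by
  have := congrArg (ev z) (bx_apply (P := PP i) φ)
  simp only [map_sum, map_smul] at this
  exact this

lemma Wt_eq {σ : I2 → TM →ₗ[ℂ] ℂ} {σ' : I2 → Tf → ℂ} (h : ∀ I φ, σ I φ = σ' I φ.1) (i : Fin 3)
    (φ : TM) : (∑ I, σ I ∘ₗ hW (PP i) I) φ = Wt (ee i) σ' φ.1 := by
  simp only [LinearMap.sum_apply, LinearMap.comp_apply, hW_apply, map_add, map_smul, smul_eq_mul]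
  simp only [h, da_val, bx_val, Wt, Finset.sum_add_distrib, Finset.mul_sum, mul_assoc]

/-- the functional `W W W` -/
def TL (R : RDW τ) : TM →ₗ[ℂ] ℂ :=
  ∑ I, (∑ J, (∑ K, LL R I J K ∘ₗ hW (PP 2) K) ∘ₗ hW (PP 1) J) ∘ₗ hW (PP 0) I

lemma TL_eq (R : RDW τ) (φ : TM) : TL R φ = TW τ φ.1 := by
  have a := fun I J => Wt_eq (σ := LL R I J) (σ' := τ I J) (fun _ _ => rfl) 2
  have b := fun I => Wt_eq (a I) 1
  have c := Wt_eq b 0 φ
  rw [TL, c, TW]
  rfl

lemma TL_eq' (R : RDW τ) (φ : TM) : (st R).t (h3 (st R).P φ) = TL R φ := by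
  rw [show (st R).t = tt R from rfl, show (st R).P = PP from rfl]
  simp only [TL, LinearMap.sum_apply, LinearMap.comp_apply, tt_apply, h3]

lemma jj_add (f g : TM) (a : ℂ) (S : P20) : jj (f + a • g) S = jj f S + a • jj g S :=
  ev_ext fun z => by
    simp only [ev_jj, map_add, map_smul, smul_eq_mul]
    ring

theorem cocw : COCW := by
  intro τ R hC hA Θ κ hΘ hκ
  obtain ⟨Θ1, θ, θ', χ, d1, h1, cθ, cθ', cχ, p1, p2, hs⟩ := split hA
  have dχ := Coc.dc_cx cχ.1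
  let f : TM := ⟨Θ1, d1⟩
  let f1 : TM := ⟨_, Coc.dc_tens dχ (Coc.dc_Ef (Coc.dc_cx cθ.1))⟩
  let f2 : TM := ⟨_, Coc.dc_tens dχ (Coc.dc_Ef (Coc.dc_cx cθ'.1))⟩
  have k := (st R).key (jj f) (fun i m S => jvf h1 contDiff_const (ev8_QQ i m S))
    (fun w S => jvf h1 (Coc.AX w).contDiff (ev8_om w S)) (fun S => jpb h1 Coc.σ12_inv (ev8_s12 S))
    (fun S => jpb h1 Coc.σ13_inv (ev8_s13 S)) fun Ξ3 ζ3 Ξ2 ζ2 Y g1 g2 g3 g4 he b3 e3 b2 e2 dY hY => by
      have k1 : WW R (fun n b c => jj f1 (Y n b c)) = 0 := (WW_eq R _).trans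
        (p1 Y Ξ3 ζ3 g1 g2 b3 e3 dY fun n J K => (A23_eq _ J K).trans (hY n J K))
      have k2 : WW R (fun n b c => jj f2 (Coc.s23 (Y n c b))) = 0 := (WW_eq R _).trans
        (p2 (fun n b c => Coc.s23 (Y n c b)) (Coc.s23 Ξ2) (Coc.s23 ζ2) (Coc.deg_s23 g3)
          (Coc.deg_s23 g4) (by rw [Coc.box3_s23, b2, map_zero]) (by rw [Coc.dd3_s23, e2, map_zero])
          (fun n b c => Coc.deg_s23 (dY n c b)) fun n J K => by
            rw [A23_eq, B23_s23, hY, d5_s23, Coc.d3_s23, ← map_add, he])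
      rw [← WW_23] at k2
      have k3 := WW_far R hC (f := EE f + (-1 : ℂ) • f1 + (-1 : ℂ) • pb Coc.σ23 Coc.σ23_inv f2) hs Y
      have e : (fun n b c => jj (EE f + (-1 : ℂ) • f1 + (-1 : ℂ) • pb Coc.σ23 Coc.σ23_inv f2)
          (Y n b c)) = (fun n b c => (st R).En 7 (jj f (Y n b c))) +
            (-1 : ℂ) • (fun n b c => jj f1 (Y n b c)) + (-1 : ℂ) • fun n b c =>
              pb Coc.σ23 Coc.σ23_inv (jj f2 (Coc.s23 (Y n b c))) := by
        funext n b c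
        have : pb Coc.σ23 Coc.σ23_inv (jj f2 (Coc.s23 (Y n b c))) =
            jj (pb Coc.σ23 Coc.σ23_inv f2) (Y n b c) := Subtype.ext (funext fun z =>
          congrArg (f2.1 (Coc.σ23 z) * ·) ((ev8_s23 _ _).trans (by rw [Coc.σ23_inv])))
        simp only [Pi.add_apply, Pi.smul_apply, jj_add, En_jj R f (dY n b c), this]
      rw [e, map_add, map_add, map_smul, map_smul, k1, k2, smul_zero, add_zero, add_zero] at k3
      exact k3
  let g : TM := ⟨Θ, hΘ⟩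
  have z := (st R).t_zero (x := jj (g + (-κ) • f) PW) (by
    rw [show (st R).Z = ZM from rfl, mem_Z]
    filter_upwards [h1, hκ] with z a b
    rw [ev_jj, map_add, map_smul, show ev z g = κ from b, show ev z f = 1 from a]
    simp)
  have b := (st R).t_boost (jj g PW)
  rw [jj_add, map_add, map_smul] at z
  rw [TL_eq'] at k z b
  rw [TL_eq'] at b
  rw [map_add, map_smul, k, smul_zero, add_zero, En_jj R g deg_PW] at z
  have e : jj (EE g + (-1 : ℂ) • OO wH g) PW = jj (EE g) PW + (-1 : ℂ) • (st R).O wH (jj g PW) +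
      (6 : ℂ) • jj g PW := ev_ext fun y => by
    have : fderiv ℝ (ev8 PW) y (Coc.AX wH y) = 6 * ev8 PW y := by
      refine (ev8_om wH PW y).symm.trans ?_
      rw [om_PW]
      exact map_smul (MvPolynomial.aeval _ : P20 →ₐ[ℂ] ℂ) _ _
    simp only [map_add, map_smul, ev_jj, show (st R).O wH = vf _ (Coc.AX wH).contDiff from rfl,
      ev_vf, this, OO, smul_eq_mul]
    ring
  have r := congrArg (TL R) e
  rw [map_add, map_add, map_smul, map_smul, z, b, TL_eq] at r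
  refine Eq.trans (congrArg (TW τ) (funext fun y => ?_)) (r.trans (by simp))
  exact congrArg (· * ev8 PW y) (by
    show _ = Ef Θ y + -1 * Xf wH Θ y
    ring)

end

end Vale.Agent.P352L.RW.B85
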