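import Vale.Agent.P352L.RES.WAna

/-!
# P352L, row RESW.coc: the residue of the `W W W` source vanishes
-/

set_option linter.all false

open Filter Topology
open scoped ContDiff

namespace Vale.Agent.P352L.RW

open Vale.Agent.P352 Vale.Agent.P352.GF Vale.Agent.P352X Vale.Agent.P352X.RS Vale.Agent.P352X.RS.Red
open Vale.Agent.P352.H755 Ko Coc
open MvPolynomial (pderiv)

noncomputable section

/-- cutoffs adapted to the two diagonals through the first point -/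
lemma exists_geo (p : (V → ℝ) → (V → ℝ) → Prop) (hA : ∀ θ, Cut θ → ∃ ε > 0, ∀ χ, Cut χ →
    tsupport χ ⊆ Metric.ball 0 ε → p θ χ) : ∃ (Θ : Tf) (θ θ' χ : V → ℝ), Dc Θ ∧
    (∀ᶠ z in 𝓝 (0 : V × V), Θ z = 1) ∧ Cut θ ∧ Cut θ' ∧ Cut χ ∧ p θ χ ∧ p θ' χ ∧
    tsupport (fun z => Ef Θ z - χ z.1 * Ef (cx θ) z.2 - χ (σ23 z).1 * Ef (cx θ') (σ23 z).2) ⊆
      {z | z.1 ≠ 0 ∧ z.1 ≠ z.2} := by
  obtain ⟨θ, hθ, hθ1, hθ0, -⟩ := exists_cut 1 one_pos
  obtain ⟨th, hth, hth1, -, -⟩ := exists_cut 4 (by norm_num)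
  obtain ⟨ε1, hε1, hA1⟩ := hA θ hθ
  obtain ⟨ε2, hε2, hA2⟩ := hA _ (cut_neg hθ)
  obtain ⟨r, hr⟩ : ∃ r : ℝ, r = min (min ε1 ε2) 1 / 4 := ⟨_, rfl⟩
  have hr0 : 0 < r := by
    rw [hr]
    positivity
  have hr1 : 4 * r ≤ ε1 := by
    have := (min_le_left (min ε1 ε2) 1).trans (min_le_left ε1 ε2)
    linarith
  have hr2 : 4 * r ≤ ε2 := by
    have := (min_le_left (min ε1 ε2) 1).trans (min_le_right ε1 ε2)
    linarith
  have hr3 : 4 * r ≤ 1 := by
    have := min_le_right (min ε1 ε2) 1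
    linarith
  obtain ⟨χ, hχ, hχ1, hχ0, hχs⟩ := exists_cut r hr0
  have dθ : Dc (cx θ) := dc_cx hθ.1
  have dΘ : Dc fun z : V × V => cx th z.1 * cx θ z.2 := dc_tens (dc_cx hth.1) dθ
  have hneg : ∀ v : V, Ef (cx fun x => θ (-x)) (-v) = Ef (cx θ) v := by
    intro v
    have h1 := congrFun (Ef_comp (dc_diff dθ) (-ContinuousLinearMap.id ℝ V)) (-v)
    simp only [ContinuousLinearMap.neg_apply, ContinuousLinearMap.id_apply, neg_neg] at h1
    exact h1
  have hopen : ∀ (f : V × V → ℝ) (a : ℝ) (x : V × V), Continuous f → f x < a →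
      ∀ᶠ z in 𝓝 x, f z < a := fun f a x hf hx => hf.continuousAt.eventually_lt_const hx
  have hopen' : ∀ (f : V × V → ℝ) (a : ℝ) (x : V × V), Continuous f → a < f x →
      ∀ᶠ z in 𝓝 x, a < f z := fun f a x hf hx => hf.continuousAt.eventually_const_lt hx
  have hE1 : ∀ v : V, ‖v‖ < 1 → Ef (cx θ) v = 0 := by
    intro v hv
    have h1 : ∀ᶠ y in 𝓝 v, cx θ y = 1 := by
      filter_upwards [continuous_norm.continuousAt.eventually_lt_const hv] with y hy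
      simp [cx, hθ1 y hy]
    exact (fderiv_ev h1 id).self_of_nhds
  have hE0 : ∀ v : V, 2 * 1 < ‖v‖ → Ef (cx θ) v = 0 := by
    intro v hv
    have h1 : ∀ᶠ y in 𝓝 v, cx θ y = 0 := by
      filter_upwards [continuous_norm.continuousAt.eventually_const_lt hv] with y hy
      simp [cx, hθ0 y hy]
    exact (fderiv_ev h1 id).self_of_nhds
  have hEa : ∀ x : V × V, ‖x.1‖ < 4 →
      Ef (fun z : V × V => cx th z.1 * cx θ z.2) x = Ef (cx θ) x.2 := by
    intro x hx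
    have h1 : ∀ᶠ z in 𝓝 x, cx th z.1 * cx θ z.2 = cx θ (ContinuousLinearMap.snd ℝ V V z) := by
      filter_upwards [hopen (fun z => ‖z.1‖) 4 x (by fun_prop) hx] with z hz
      simp [cx, hth1 _ hz]
    rw [(Ef_congr h1).self_of_nhds, Ef_comp (dc_diff dθ)]
    rfl
  have hEb : ∀ x : V × V, 2 * 1 < ‖x.2‖ →
      Ef (fun z : V × V => cx th z.1 * cx θ z.2) x = 0 := by
    intro x hx
    have h1 : ∀ᶠ z in 𝓝 x, cx th z.1 * cx θ z.2 = 0 := by
      filter_upwards [hopen' (fun z => ‖z.2‖) _ x (by fun_prop) hx] with z hz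
      simp [cx, hθ0 _ hz]
    exact (fderiv_ev h1 id).self_of_nhds
  refine ⟨_, θ, _, χ, dΘ, ?_, hθ, cut_neg hθ, hχ,
    hA1 χ hχ (hχs.trans (Metric.closedBall_subset_ball (by linarith))),
    hA2 χ hχ (hχs.trans (Metric.closedBall_subset_ball (by linarith))), ?_⟩
  · filter_upwards [hopen (fun z => ‖z.1‖) 4 0 (by fun_prop) (by simp),
      hopen (fun z => ‖z.2‖) 1 0 (by fun_prop) (by simp)] with z h1 h2
    simp [cx, hth1 _ h1, hθ1 _ h2]
  intro x hx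
  by_contra hcon
  refine notMem_tsupport_iff_eventuallyEq.2 (?_ : ∀ᶠ z in 𝓝 x, _ = (0 : ℂ)) hx
  simp only [σ23_apply, hneg]
  simp only [Set.mem_setOf_eq, not_and_or, not_not] at hcon
  rcases hcon with h0 | h0
  · rcases lt_or_ge ‖x.2‖ 1 with hv | hv
    · filter_upwards [hopen (fun z => ‖z.1‖) 4 x (by fun_prop) (by simp [h0]),
        hopen (fun z => ‖z.2‖) 1 x (by fun_prop) hv] with z h1 h2
      rw [hEa z h1, hE1 _ h2]
      ring
    · filter_upwards [hopen (fun z => ‖z.1‖) r x (by fun_prop) (by simp [h0, hr0]),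
        hopen' (fun z => ‖z.1 - z.2‖) (2 * r) x (by fun_prop) (by
          simp only [h0, zero_sub, norm_neg]
          linarith)] with z h1 h2
      rw [hEa z (by linarith), hχ1 _ h1, hχ0 _ h2]
      push_cast
      ring
  · rcases lt_or_ge ‖x.2‖ 1 with hv | hv
    · filter_upwards [hopen (fun z => ‖z.1‖) 4 x (by fun_prop) (by
          simp only [h0]
          linarith), hopen (fun z => ‖z.2‖) 1 x (by fun_prop) hv] with z h1 h2
      rw [hEa z h1, hE1 _ h2]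
      ring
    · rcases lt_or_ge ‖x.2‖ 4 with hv' | hv'
      · filter_upwards [hopen (fun z => ‖z.1‖) 4 x (by fun_prop) (by simp only [h0, hv']),
          hopen' (fun z => ‖z.1‖) (2 * r) x (by fun_prop) (by
            simp only [h0]
            linarith),
          hopen (fun z => ‖z.1 - z.2‖) r x (by fun_prop) (by simp [h0, hr0])] with z h1 h2 h3
        rw [hEa z h1, hχ0 _ h2, hχ1 _ h3]
        push_cast
        ring
      · filter_upwards [hopen' (fun z => ‖z.2‖) (2 * 1) x (by fun_prop) (by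
          show 2 * 1 < ‖x.2‖
          linarith)] with z h1
        rw [hEb z h1, hE0 _ h1]
        ring

lemma s23_3 : It2 s23.toLinearMap s23.toLinearMap Q2 Q3 := fun m S => (p4_s23 m S).symm
lemma s23_2 : It2 s23.toLinearMap s23.toLinearMap Q3 Q2 := fun m S => by
  have := congrArg s23 (p4_s23 m (s23 S))
  rw [s23_s23, s23_s23] at this
  exact this

lemma B23_s23 (Y : I3 → I3 → P20) (J K : I2) :
    B23 Q2 Q3 (fun b c => s23 (Y c b)) J K = s23 (B23 Q2 Q3 Y K J) := by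
  have c : Cm Q2 Q3 := (cm_pd2 4).symm
  rw [B23_apply, B23_apply, AT_comm c Y, ← AlgHom.toLinearMap_apply s23, s23_2.AT]
  simp only [s23_3.AT, AlgHom.toLinearMap_apply]

lemma d5_s23 (n : Ix) (J K : I2) (S : P20) : z0 (d5 n J K (s23 S)) = s23 (z0 (d5 n K J S)) := by
  have p0 : ∀ S, pderiv (0, n) (s23 S) = s23 (pderiv (0, n) S) := comm s23 _ _ fun ⟨j, m⟩ => by
    classical
    fin_cases j <;> simp [s23, MvPolynomial.pderiv_X, Pi.single_apply, apply_ite]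
  have p1 : ∀ m S, pderiv (1, m) (s23 S) = s23 (pderiv (2, m) S) := fun m S => by
    have := congrArg s23 (p2_s23 m (s23 S))
    rw [s23_s23, s23_s23] at this
    exact this.symm
  rw [s23_eq (z0 _), ← z0_s12, ← z0_s13, ← z0_s12, ← s23_eq, d5, d5, dp_comm 1 2 K]
  simp only [dp, p0, p1, p2_s23]

lemma ev8_s23 (S : P20) (z : V × V) : ev8 (s23 S) (σ23 z) = ev8 S z := by
  rw [s23_eq, ev8_s12, ev8_s13, ev8_s12]
  exact congrArg (ev8 S) ((σ23_eq (σ23 z)).trans (σ23_inv z))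

variable {τ : I2 → I2 → I2 → Tf → ℂ} (R : RDW τ)

lemma En_mu {φ : Tf} (h : Dc φ) {n : ℕ} {S : P20} (d : Deg n S) :
    (st R).En n (mu h S) = mu (dc_Ef h) S := Subtype.ext (funext fun z => by
  have := vf_mu h (ContinuousLinearMap.id ℝ _).contDiff S z
  have e := ev8_E d z
  show (vf _ (ContinuousLinearMap.id ℝ _).contDiff (mu h S)).1 z - n * (φ z * ev8 S z) = Ef φ z * ev8 S z
  rw [this]
  unfold Ef at e ⊢
  simp only [ContinuousLinearMap.id_apply, e]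
  ring)

include R in
lemma DW_zero (hC : DIVCW τ) (n : Ix) (b c : I3) (φ : DD)
    (h : tsupport φ.1 ⊆ {z | z.1 ≠ 0 ∧ z.1 ≠ z.2}) : DW τ n b c φ.1 = 0 := by
  have s : ∀ i m (x : DD), tsupport x.1 ⊆ {z | z.1 ≠ 0 ∧ z.1 ≠ z.2} →
      tsupport (PP i m x).1 ⊆ {z | z.1 ≠ 0 ∧ z.1 ≠ z.2} := fun i m x h =>
    (tsupport_fderiv_apply_subset ℝ _).trans h
  rw [DW_eq R]
  exact CtL_zero (s 1) (fun J => CtL_zero (s 2) (fun K x hx => (DL_apply (τ := tL R) (P := PP 0)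
    n J K x).trans (hC n J K _ x.2 hx)) c) b φ h

lemma st_t : (st R).t = t3 (tL R) := rfl
lemma st_P : (st R).P = PP := rfl

lemma st_ga (G : Ix → I3 → I3 → DD) : (st R).t (B3 ((st R).P 0) ((st R).P 1) ((st R).P 2)
    (ga3 G)) = ∑ n, ∑ b, ∑ c, DW τ n b c (G n b c).1 := by rw [st_t, st_P, tt_ga]

lemma st_TW (φ : DD) : TW τ φ.1 = (st R).t (h3 (st R).P φ) := by rw [st_t, st_P, TW_eq]

lemma aba (φ : DD) (z : V × V) : ((st R).a ((st R).b ((st R).a φ))).1 z = φ.1 (σ23 z) :=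
  congrArg φ.1 (σ23_eq z)

lemma mu_coe {φ : Tf} (h : Dc φ) (S : P20) : (mu h S).1 = fun z => φ z * ev8 S z := rfl

lemma coe_add (φ ψ : DD) (z : V × V) : (φ + ψ).1 z = φ.1 z + ψ.1 z := rfl

lemma gauge (hC : DIVCW τ) {Θ φ ψ : Tf} (d0 : Dc Θ) (d1 : Dc φ) (d2 : Dc ψ)
    (hs : tsupport (fun z => Ef Θ z - φ z - ψ (σ23 z)) ⊆ {z | z.1 ≠ 0 ∧ z.1 ≠ z.2})
    {Y : Ix → I3 → I3 → P20} (dY : ∀ n b c, Deg 7 (Y n b c))
    (q1 : ∑ n, ∑ b, ∑ c, DW τ n b c (fun z => φ z * ev8 (Y n b c) z) = 0)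
    (q2 : ∑ n, ∑ b, ∑ c, DW τ n b c (fun z => ψ z * ev8 (s23 (Y n c b)) z) = 0) :
    (st R).t (B3 ((st R).P 0) ((st R).P 1) ((st R).P 2)
      (ga3 fun n b c => (st R).En 7 (mu d0 (Y n b c)))) = 0 := by
  have dr : Dc fun z => Ef Θ z - φ z - ψ (σ23 z) :=
    DS.sub_mem (DS.sub_mem (dc_Ef d0) d1) (dc_comp d2 σ23 σ23_inv)
  have e : (ga3 fun n b c => (st R).En 7 (mu d0 (Y n b c))) =
      ga3 (fun n b c => mu d1 (Y n b c)) + ga3 (fun n b c => (st R).a ((st R).b ((st R).a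
        (mu d2 (s23 (Y n b c)))))) + ga3 fun n b c => mu dr (Y n b c) := by
    funext a b c
    simp only [ga3, Pi.add_apply, ← smul_add, En_mu R d0 (dY _ _ _)]
    refine congrArg _ (Subtype.ext (funext fun z => ?_))
    simp only [coe_add, aba, mu_coe, ev8_s23]
    ring
  rw [e, map_add, map_add, map_add, map_add, (st R).t_s23 fun n b c => mu d2 (s23 (Y n c b)),
    st_ga, st_ga, st_ga]
  simp only [mu_coe, q1, q2, zero_add]
  exact Finset.sum_eq_zero fun n _ => Finset.sum_eq_zero fun b _ => Finset.sum_eq_zero fun c _ =>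
    DW_zero R hC n b c (mu dr _) (tsupport_mul_subset_left.trans hs)

lemma ex_res (hC : DIVCW τ) (hA : DIVAW τ) : ∃ (Θ : Tf) (h : Dc Θ),
    (∀ᶠ z in 𝓝 (0 : V × V), Θ z = 1) ∧ (st R).t (h3 (st R).P ((st R).En 10 (mu h PW))) = 0 := by
  obtain ⟨Θ1, θ, θ', χ, d1, h1, hθ, hθ', hχ, p1, p2, hs⟩ := exists_geo _ hA
  have dφ : ∀ {θ : V → ℝ}, Cut θ → Dc fun z : V × V => (χ z.1 : ℂ) * Ef (cx θ) z.2 := fun h =>
    dc_tens (dc_cx hχ.1) (dc_Ef (dc_cx h.1))
  refine ⟨Θ1, d1, h1, (st R).key (mu d1) (fun i m S => mu_vf d1 h1 contDiff_const (ev8_QQ i m S))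
    (fun w S => mu_vf d1 h1 (AX w).contDiff (ev8_om w S))
    (fun S => mu_cm d1 h1 σ12_inv (ev8_s12 S)) (fun S => mu_cm d1 h1 σ13_inv (ev8_s13 S))
    fun Ξ3 ζ3 Ξ2 ζ2 Y g1 g2 g3 g4 he b3 e3 b2 e2 dY hY => ?_⟩
  rw [ga3_eq]
  exact gauge R hC d1 (dφ hθ) (dφ hθ') hs dY
    (p1 Y Ξ3 ζ3 g1 g2 b3 e3 dY fun n J K => (A23_eq _ J K).trans (hY n J K))
    (p2 (fun n b c => s23 (Y n c b)) (s23 Ξ2) (s23 ζ2) (deg_s23 g3) (deg_s23 g4)
      (by rw [box3_s23, b2, map_zero]) (by rw [dd3_s23, e2, map_zero])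
      (fun n b c => deg_s23 (dY n c b)) fun n J K => by
        rw [A23_eq, B23_s23, hY, d3_s23, ← map_add, ← he, d5_s23])

lemma St.fin {M : Type} [AddCommGroup M] [Module ℂ M] (s : St M) {x y : M} {κ : ℂ}
    (h : x - κ • y ∈ s.Z) (k : s.t (h3 s.P (s.En 10 y)) = 0) :
    s.t (h3 s.P (s.En 10 x - (s.O wH x - (6 : ℂ) • x))) = 0 := by
  have a : ∀ x y (c : ℂ), s.t (h3 s.P (x - c • y)) = s.t (h3 s.P x) - c * s.t (h3 s.P y) :=
    fun x y c => by
      rw [show h3 s.P (x - c • y) = h3 s.P x - c • h3 s.P y from funext fun I => funext fun J =>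
        funext fun K => by simp only [h3, map_sub, map_smul, Pi.sub_apply, Pi.smul_apply],
        map_sub, map_smul, smul_eq_mul]
  have k2 := s.t_zero h
  rw [map_sub, map_smul, a, k] at k2
  rw [← one_smul ℂ (s.O wH x - _), a, a, s.t_boost]
  linear_combination k2

/-- **row RESW.coc** -/
theorem cocw_row : COCW := by
  intro τ R hC hA Θ κ hΘ hκ
  obtain ⟨Θ1, d1, h1, k⟩ := ex_res R hC hA
  have dΨ : Dc fun z => Ef Θ z - Xf wH Θ z :=
    DS.sub_mem (dc_Ef hΘ) (dc_fderiv hΘ (AX wH).contDiff)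
  have e : mu dΨ PW = (st R).En 10 (mu hΘ PW) -
      ((st R).O wH (mu hΘ PW) - (6 : ℂ) • mu hΘ PW) := by
    rw [En_mu R hΘ deg_PW]
    refine Subtype.ext (funext fun z => ?_)
    have a := vf_mu hΘ (AX wH).contDiff PW z
    have b := ev8_om wH PW z
    rw [om_PW, ← MvPolynomial.C_mul', ev8_mul, ev8_C, Xf_eq] at b
    show (Ef Θ z - Xf wH Θ z) * ev8 PW z = Ef Θ z * ev8 PW z -
      ((vf _ (AX wH).contDiff (mu hΘ PW)).1 z - 6 * (Θ z * ev8 PW z))
    rw [a, Xf_eq]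
    linear_combination (-Θ z) * b
  rw [← mu_coe dΨ, st_TW R, e]
  refine (st R).fin (κ := κ) ?_ k
  filter_upwards [hκ, h1] with z a b
  show Θ z * ev8 PW z - κ * (Θ1 z * ev8 PW z) = 0
  rw [a, b, one_mul, sub_self]

end

end Vale.Agent.P352L.RW
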