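import Mathlib.Algebra.Module.Projective
import Mathlib.LinearAlgebra.Basis.VectorSpace
import Mathlib.Data.Complex.Basic
import Mathlib.Algebra.BigOperators.Fin
import Mathlib.Tactic

/-!
# P352L, block RESW: Koszul complexes, the Hessian complex and its threefold tensor product
-/

set_option linter.all false

namespace Vale.Agent.P352L.RW.Ko

noncomputable section

abbrev J := Fin 4
abbrev J2 := J × J
abbrev J3 := J × J × J

variable {M N M' : Type*} [AddCommGroup M] [Module ℂ M] [AddCommGroup N] [Module ℂ N]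
  [AddCommGroup M'] [Module ℂ M']

/-- families of four operators -/
abbrev Op (M : Type*) [AddCommGroup M] [Module ℂ M] := J → M →ₗ[ℂ] M

/-- commuting operators -/
def Cm (D D' : Op M) : Prop := ∀ i j x, D i (D' j x) = D' j (D i x)

/-- intertwiners -/
def It (f : M →ₗ[ℂ] N) (D : Op M) (D' : Op N) : Prop := ∀ i x, f (D i x) = D' i (f x)

def As2 (y : J → J → M) : Prop := ∀ i j, y j i = -y i j
def As3 (z : J → J → J → M) : Prop := ∀ i j k, z j i k = -z i j k ∧ z i k j = -z i j k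
def As4 (t : J → J → J → J → M) : Prop :=
  ∀ i j k l, t j i k l = -t i j k l ∧ t i k j l = -t i j k l ∧ t i j l k = -t i j k l

def K0 (S : Submodule ℂ M) (D : Op M) : Prop :=
  ∀ f ∈ S, ∃ x : J → M, (∀ i, x i ∈ S) ∧ ∑ i, D i (x i) = f
def K1 (S : Submodule ℂ M) (D : Op M) : Prop := ∀ x : J → M, (∀ i, x i ∈ S) →
  ∑ i, D i (x i) = 0 → ∃ y, (∀ i j, y i j ∈ S) ∧ As2 y ∧ ∀ j, ∑ i, D i (y i j) = x j
def K2 (S : Submodule ℂ M) (D : Op M) : Prop := ∀ y : J → J → M, (∀ i j, y i j ∈ S) → As2 y →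
  (∀ j, ∑ i, D i (y i j) = 0) →
    ∃ z, (∀ i j k, z i j k ∈ S) ∧ As3 z ∧ ∀ j k, ∑ i, D i (z i j k) = y j k
def K3 (S : Submodule ℂ M) (D : Op M) : Prop := ∀ z : J → J → J → M, (∀ i j k, z i j k ∈ S) →
  As3 z → (∀ j k, ∑ i, D i (z i j k) = 0) →
    ∃ t, (∀ i j k l, t i j k l ∈ S) ∧ As4 t ∧ ∀ j k l, ∑ i, D i (t i j k l) = z j k l

lemma half {x : M} (h : x = -x) : x = 0 := by
  have : (2 : ℂ) • x = 0 := by rw [two_smul]; exact eq_neg_iff_add_eq_zero.1 h
  exact (smul_eq_zero.1 this).resolve_left two_ne_zero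

/-- the double divergence of an antisymmetric tensor vanishes -/
lemma dd_as {D : Op M} (h : Cm D D) {y : J → J → M} (hy : As2 y) :
    ∑ j, D j (∑ i, D i (y i j)) = 0 := by
  refine half ?_
  simp only [map_sum]
  refine Finset.sum_comm.trans ?_
  rw [← Finset.sum_neg_distrib]
  refine Finset.sum_congr rfl fun i _ => ?_
  rw [← Finset.sum_neg_distrib]
  exact Finset.sum_congr rfl fun j _ => by rw [h, hy i j, map_neg, map_neg, neg_neg]

/-! ## Weyl modules -/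

/-- the Euler operator -/
def Eu (D X : Op M) (c : ℕ) (x : M) : M := ∑ i, X i (D i x) + (c + 1 : ℂ) • x

structure Wey (S : Submodule ℂ M) (D X : Op M) : Prop where
  dd : Cm D D
  dx : ∀ i j x, D i (X j x) = X j (D i x) + if i = j then x else 0
  mX : ∀ i, ∀ x ∈ S, X i x ∈ S
  inj : ∀ c x, Eu D X c x = 0 → x = 0
  sur : ∀ c, ∀ y ∈ S, ∃ x ∈ S, Eu D X c x = y

lemma Eu_add (D X : Op M) (c : ℕ) (x y : M) : Eu D X c (x + y) = Eu D X c x + Eu D X c y := by
  simp only [Eu, map_add, Finset.sum_add_distrib, smul_add]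
  abel

lemma Eu_sum (D X : Op M) (c : ℕ) (x : J → M) : Eu D X c (∑ i, x i) = ∑ i, Eu D X c (x i) := by
  simp only [Fin.sum_univ_four, Eu_add]

lemma Eu_map {D X : Op M} {D' X' : Op N} {f : M →ₗ[ℂ] N} (h : It f D D') (h' : It f X X') (c : ℕ)
    (x : M) : f (Eu D X c x) = Eu D' X' c (f x) := by
  simp only [Eu, map_add, map_sum, map_smul, h' _, h _]

variable {S : Submodule ℂ M} {D X : Op M}

lemma Wey.dE (w : Wey S D X) (c : ℕ) (j : J) (x : M) :
    D j (Eu D X c x) = Eu D X (c + 1) (D j x) := by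
  simp only [Eu, map_add, map_sum, map_smul, w.dx, Finset.sum_add_distrib, Finset.sum_ite_eq,
    Finset.mem_univ, if_true, w.dd j]
  push_cast
  module

lemma Wey.dX (w : Wey S D X) (x : M) : ∑ i, D i (X i x) = Eu D X 3 x := by
  simp only [Eu, w.dx, Finset.sum_add_distrib, if_true, Finset.sum_const, Finset.card_univ,
    Fintype.card_fin]
  push_cast
  module

lemma Wey.dX' (w : Wey S D X) (j : J) (x : J → M) (h : ∑ i, D i (x i) = 0) :
    ∑ i, D i (X j (x i)) = x j := by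
  simp only [w.dx, Finset.sum_add_distrib, Finset.sum_ite_eq', Finset.mem_univ, if_true,
    ← map_sum, h, map_zero, zero_add]

lemma Wey.div (w : Wey S D X) {c : ℕ} {x y : J → M} (e : ∀ i, Eu D X c (x i) = y i)
    (h : ∑ i, D i (y i) = 0) : ∑ i, D i (x i) = 0 :=
  w.inj (c + 1) _ (by simp only [Eu_sum, ← w.dE, e, h])

lemma Wey.neg (w : Wey S D X) {c : ℕ} {x x' : M} (h : Eu D X c x' = -Eu D X c x) : x' = -x :=
  eq_neg_iff_add_eq_zero.2 (w.inj c _ (by rw [Eu_add, h, neg_add_cancel]))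

lemma Eu_succ (c : ℕ) (x : M) : Eu D X (c + 1) x = Eu D X c x + x := by
  simp only [Eu]
  push_cast
  module

theorem Wey.k0 (w : Wey S D X) : K0 S D := fun f hf => by
  obtain ⟨g, hg, e⟩ := w.sur 3 f hf
  exact ⟨fun i => X i g, fun i => w.mX i g hg, (w.dX g).trans e⟩

theorem Wey.k1 (w : Wey S D X) : K1 S D := fun x hx h => by
  choose g hg e using fun i => w.sur 2 (x i) (hx i)
  refine ⟨fun i j => X i (g j) - X j (g i), fun i j => S.sub_mem (w.mX _ _ (hg _)) (w.mX _ _ (hg _)),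
    fun i j => (neg_sub _ _).symm, fun j => ?_⟩
  simp only [map_sub, Finset.sum_sub_distrib]
  rw [w.dX, w.dX' j g (w.div e h), Eu_succ, e, add_sub_cancel_right]

theorem Wey.k2 (w : Wey S D X) : K2 S D := fun y hy a h => by
  choose g hg e using fun i j => w.sur 1 (y i j) (hy i j)
  have ga : As2 g := fun i j => w.neg (by rw [e, e, a])
  have d1 : ∀ j, ∑ i, D i (g i j) = 0 := fun j => w.div (fun i => e i j) (h j)
  have d2 : ∀ j, ∑ i, D i (g j i) = 0 := fun j => by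
    simp only [ga _ j, map_neg, Finset.sum_neg_distrib, d1, neg_zero]
  refine ⟨fun i j k => X i (g j k) + X j (g k i) + X k (g i j), fun i j k =>
    S.add_mem (S.add_mem (w.mX _ _ (hg _ _)) (w.mX _ _ (hg _ _))) (w.mX _ _ (hg _ _)),
    fun i j k => ⟨?_, ?_⟩, fun j k => ?_⟩
  · simp only [ga k i, ga j k, ga i j, map_neg]
    abel
  · simp only [ga k i, ga j k, ga i j, map_neg]
    abel
  · simp only [map_add, Finset.sum_add_distrib]
    rw [w.dX, w.dX' j (g k) (d2 k), w.dX' k (fun i => g i j) (d1 j), Eu_succ, Eu_succ, e, ga j k]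
    abel

theorem Wey.k3 (w : Wey S D X) : K3 S D := fun z hz a h => by
  choose g hg e using fun i j k => w.sur 0 (z i j k) (hz i j k)
  have g1 : ∀ i j k, g j i k = -g i j k := fun i j k => w.neg (by rw [e, e, (a i j k).1])
  have g2 : ∀ i j k, g i k j = -g i j k := fun i j k => w.neg (by rw [e, e, (a i j k).2])
  have d1 : ∀ j k, ∑ i, D i (g i j k) = 0 := fun j k => w.div (fun i => e i j k) (h j k)
  refine ⟨fun i j k l => X i (g j k l) - X j (g i k l) + X k (g i j l) - X l (g i j k),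
    fun i j k l => S.sub_mem (S.add_mem (S.sub_mem (w.mX _ _ (hg _ _ _)) (w.mX _ _ (hg _ _ _)))
      (w.mX _ _ (hg _ _ _))) (w.mX _ _ (hg _ _ _)), fun i j k l => ⟨?_, ?_, ?_⟩, fun j k l => ?_⟩
  · simp only [g1 i j, map_neg]
    abel
  · simp only [g1 j k l, g2 i j k, map_neg]
    abel
  · simp only [g2 j k l, g2 i k l, map_neg]
    abel
  · simp only [map_add, map_sub, Finset.sum_add_distrib, Finset.sum_sub_distrib]
    rw [w.dX, w.dX' j (fun i => g i k l) (d1 k l), w.dX' k (fun i => g i j l) (d1 j l),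
      w.dX' l (fun i => g i j k) (d1 j k), Eu_succ, Eu_succ, Eu_succ, e, g1 j k l, g1 j l k,
      g2 j k l]
    abel

/-- componentwise action -/
def up (ι : Type*) (D : Op M) : Op (ι → M) := fun i => (D i).compLeft ι

@[simp] lemma up_apply (ι : Type*) (D : Op M) (i : J) (x : ι → M) (a : ι) :
    up ι D i x a = D i (x a) := rfl

lemma Eu_up (ι : Type*) (c : ℕ) (x : ι → M) (a : ι) :
    Eu (up ι D) (up ι X) c x a = Eu D X c (x a) := by
  simp [Eu]

lemma Cm.up {D D' : Op M} (h : Cm D D') (ι : Type*) : Cm (up ι D) (up ι D') :=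
  fun i j x => funext fun a => h i j (x a)

theorem Wey.up (w : Wey ⊤ D X) (ι : Type*) : Wey ⊤ (up ι D) (up ι X) where
  dd := w.dd.up ι
  dx i j x := funext fun a => by
    simp only [up_apply, w.dx, Pi.add_apply]
    split_ifs <;> rfl
  mX _ _ _ := trivial
  inj c x h := funext fun a => w.inj c _ (by rw [← Eu_up, h]; rfl)
  sur c y _ := by
    choose x _ e using fun a => w.sur c (y a) trivial
    exact ⟨x, trivial, funext fun a => (Eu_up ι c x a).trans (e a)⟩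

theorem Wey.ker {D' X' : Op N} (w : Wey ⊤ D X) (w' : Wey ⊤ D' X') {q : M →ₗ[ℂ] N}
    (h : It q D D') (h' : It q X X') : Wey (LinearMap.ker q) D X where
  dd := w.dd
  dx := w.dx
  mX i x hx := by rw [LinearMap.mem_ker, h', LinearMap.mem_ker.1 hx, map_zero]
  inj := w.inj
  sur c y hy := by
    obtain ⟨x, -, e⟩ := w.sur c y trivial
    exact ⟨x, w'.inj c _ (by rw [← Eu_map h h', e, LinearMap.mem_ker.1 hy]), e⟩

/-- linear lifts -/
lemma lift_ex {A B C : Type*} [AddCommGroup A] [Module ℂ A] [AddCommGroup B] [Module ℂ B]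
    [AddCommGroup C] [Module ℂ C] (f : A →ₗ[ℂ] B) (g : C →ₗ[ℂ] B) (h : ∀ c, ∃ a, f a = g c) :
    ∃ σ : C →ₗ[ℂ] A, ∀ c, f (σ c) = g c := by
  obtain ⟨σ, hσ⟩ := Module.projective_lifting_property f.rangeRestrict
    (g.codRestrict (LinearMap.range f) h) f.surjective_rangeRestrict
  exact ⟨σ, fun c => congrArg Subtype.val (LinearMap.congr_fun hσ c)⟩

/-- linear lifts from a subspace -/
lemma lift_sub (f : N →ₗ[ℂ] M') (g : M →ₗ[ℂ] M') (S : Submodule ℂ M) (T : Submodule ℂ N)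
    (h : ∀ c ∈ S, ∃ a ∈ T, f a = g c) :
    ∃ σ : M →ₗ[ℂ] N, (∀ c, σ c ∈ T) ∧ ∀ c ∈ S, f (σ c) = g c := by
  obtain ⟨σ, hσ⟩ := lift_ex (f ∘ₗ T.subtype) (g ∘ₗ S.subtype) fun c =>
    (h c c.2).elim fun a ha => ⟨⟨a, ha.1⟩, ha.2⟩
  obtain ⟨π, hπ⟩ := S.subtype.exists_leftInverse_of_injective S.ker_subtype
  refine ⟨T.subtype ∘ₗ σ ∘ₗ π, fun c => (σ (π c)).2, fun c hc => ?_⟩
  have : π c = ⟨c, hc⟩ := LinearMap.congr_fun hπ ⟨c, hc⟩
  exact (hσ (π c)).trans (by rw [this]; rfl)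

/-- the diagram chase -/
theorem k2_ker {S0 : Submodule ℂ N} {D0 : Op N} {p : M →ₗ[ℂ] N} (hp : It p D D0) (dd : Cm D D)
    (mD : ∀ i, ∀ x ∈ S, D i x ∈ S) (m0 : ∀ x ∈ S, p x ∈ S0) (su : ∀ y ∈ S0, ∃ x ∈ S, p x = y)
    (k2 : K2 S D) (k3 : K3 S0 D0) : K2 (S ⊓ LinearMap.ker p) D := fun y hy a h => by
  obtain ⟨z, hz, za, e⟩ := k2 y (fun i j => (hy i j).1) a h
  obtain ⟨t, ht, ta, e'⟩ := k3 (fun i j k => p (z i j k)) (fun i j k => m0 _ (hz i j k))
    (fun i j k => ⟨(congrArg p (za i j k).1).trans (map_neg _ _),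
      (congrArg p (za i j k).2).trans (map_neg _ _)⟩) fun j k => by
      simp only [← hp _, ← map_sum, e]
      exact (hy j k).2
  obtain ⟨σ, s1, s2⟩ := lift_sub p LinearMap.id S0 S su
  refine ⟨fun j k l => z j k l - ∑ i, D i (σ (t i j k l)), fun j k l => ⟨S.sub_mem (hz _ _ _)
    (S.sum_mem fun i _ => mD i _ (s1 _)), ?_⟩, fun j k l => ⟨?_, ?_⟩, fun k l => ?_⟩
  · simp only [SetLike.mem_coe, LinearMap.mem_ker, map_sub, map_sum, hp _, s2 _ (ht _ _ _ _),
      LinearMap.id_apply, e', sub_self]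
  · simp only [(za j k l).1, fun i => (ta i j k l).2.1, map_neg, Finset.sum_neg_distrib]
    abel
  · simp only [(za j k l).2, fun i => (ta i j k l).2.2, map_neg, Finset.sum_neg_distrib]
    abel
  · simp only [map_sub, Finset.sum_sub_distrib]
    rw [e, dd_as dd (y := fun i j => σ (t i j k l)) fun i j =>
      (congrArg σ (ta i j k l).1).trans (map_neg _ _), sub_zero]

/-! ## the Hessian complex -/

/-- the symmetric part -/
def sy : (J2 → M) →ₗ[ℂ] J2 → M where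
  toFun β I := (1 / 2 : ℂ) • (β I + β I.swap)
  map_add' x y := funext fun I => by simp only [Pi.add_apply]; module
  map_smul' a x := funext fun I => by simp only [Pi.smul_apply, RingHom.id_apply]; module

lemma sy_apply (β : J2 → M) (I : J2) : sy β I = (1 / 2 : ℂ) • (β I + β I.swap) := rfl

lemma sy_sy (β : J2 → M) : sy (sy β) = sy β := funext fun I => by
  simp only [sy_apply, Prod.swap_swap]
  module

/-- `D_k (χ_kmn - χ_mkn)` -/
def dv (D : Op M) : (J3 → M) →ₗ[ℂ] J2 → M where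
  toFun χ I := ∑ k, D k (χ (k, I.1, I.2) - χ (I.1, k, I.2))
  map_add' x y := funext fun I => by
    simp only [Pi.add_apply, ← Finset.sum_add_distrib, ← map_add]
    exact Finset.sum_congr rfl fun k _ => congrArg _ (by abel)
  map_smul' a x := funext fun I => by
    simp only [Pi.smul_apply, RingHom.id_apply, Finset.smul_sum, ← map_smul, smul_sub]

lemma dv_apply (D : Op M) (χ : J3 → M) (I : J2) :
    dv D χ I = ∑ k, D k (χ (k, I.1, I.2) - χ (I.1, k, I.2)) := rfl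

def Ah (D : Op M) : (J3 → M) →ₗ[ℂ] J2 → M := sy ∘ₗ dv D

lemma Ah_apply (D : Op M) (χ : J3 → M) : Ah D χ = sy (dv D χ) := rfl

/-- the double divergence -/
def Rh (D : Op M) : (J2 → M) →ₗ[ℂ] M where
  toFun β := ∑ n, D n (∑ m, D m (β (m, n)))
  map_add' x y := by simp only [Pi.add_apply, map_add, Finset.sum_add_distrib]
  map_smul' a x := by simp only [Pi.smul_apply, RingHom.id_apply, map_smul, ← Finset.smul_sum]

lemma Rh_apply (D : Op M) (β : J2 → M) : Rh D β = ∑ n, D n (∑ m, D m (β (m, n))) := rfl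

lemma Rh_sy (h : Cm D D) (β : J2 → M) : Rh D (sy β) = Rh D β := by
  have := dd_as h (y := fun m n => β (m, n) - β (n, m)) fun i j => (neg_sub _ _).symm
  simp only [map_sub, Finset.sum_sub_distrib] at this
  simp only [Rh_apply, sy_apply, map_smul, map_add, Finset.sum_add_distrib, ← Finset.smul_sum,
    Prod.swap_prod_mk, ← sub_eq_zero.1 this]
  module

lemma Rh_Ah (h : Cm D D) (χ : J3 → M) : Rh D (Ah D χ) = 0 := by
  rw [Ah_apply, Rh_sy h, Rh_apply]
  refine Finset.sum_eq_zero fun n _ => ?_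
  simp only [dv_apply]
  rw [dd_as h (y := fun k m => χ (k, m, n) - χ (m, k, n)) fun i j => (neg_sub _ _).symm, map_zero]

theorem hess0 (k0 : K0 S D) (f : M) (hf : f ∈ S) : ∃ β : J2 → M, (∀ I, β I ∈ S) ∧ Rh D β = f := by
  obtain ⟨x, hx, e⟩ := k0 f hf
  choose y hy e' using fun n => k0 (x n) (hx n)
  exact ⟨fun I => y I.2 I.1, fun I => hy _ _, by simp only [Rh_apply, e', e]⟩

theorem hess1 (dd : Cm D D) (mD : ∀ i, ∀ x ∈ S, D i x ∈ S) (k1 : K1 S D) (β : J2 → M)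
    (hβ : ∀ I, β I ∈ S) (h : Rh D β = 0) : ∃ χ : J3 → M, (∀ a, χ a ∈ S) ∧ Ah D χ = sy β := by
  have hs : ∀ I, sy β I ∈ S := fun I => S.smul_mem _ (S.add_mem (hβ _) (hβ _))
  obtain ⟨w, hw, wa, e⟩ := k1 (fun n => ∑ m, D m (sy β (m, n)))
    (fun n => S.sum_mem fun m _ => mD _ _ (hs _)) ((Rh_sy dd β).trans h)
  choose y hy ya e' using fun n => k1 (fun m => sy β (m, n) - w m n)
    (fun m => S.sub_mem (hs _) (hw _ _)) (by
      simp only [map_sub, Finset.sum_sub_distrib, e, sub_self])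
  refine ⟨fun a => (1 / 2 : ℂ) • y a.2.2 a.1 a.2.1, fun a => S.smul_mem _ (hy _ _ _), ?_⟩
  have : dv D (fun a => (1 / 2 : ℂ) • y a.2.2 a.1 a.2.1) = fun I => sy β I - w I.1 I.2 :=
    funext fun I => by
      rw [dv_apply, ← e' I.2 I.1]
      exact Finset.sum_congr rfl fun k _ => congrArg _ (by rw [ya I.2 k I.1]; module)
  rw [Ah_apply, this]
  funext I
  simp only [sy_apply, Prod.swap_swap, Prod.fst_swap, Prod.snd_swap, wa I.1 I.2]
  module

/-- the syzygies of `Ah` with values in `S` -/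
def Syz (S : Submodule ℂ M) (D : Op M) (χ : J3 → M) : Prop :=
  ∃ (s r : J → J → J → M) (ψ : J → J → J → J → M), (∀ k m n, s k m n ∈ S ∧ r k m n ∈ S) ∧
    (∀ l k m n, ψ l k m n ∈ S) ∧ (∀ k m n, s m k n = s k m n) ∧ As3 r ∧
    (∀ n, As3 fun l k m => ψ l k m n) ∧
    ∀ k m n, χ (k, m, n) = s k m n + r k m n + ∑ l, D l (ψ l k m n)

theorem Syz.zero (dd : Cm D D) {χ : J3 → M} (h : Syz S D χ) : Ah D χ = 0 := by
  obtain ⟨s, r, ψ, -, -, hs, hr, hψ, e⟩ := h
  have : ∀ m n, dv D χ (m, n) = (2 : ℂ) • ∑ k, D k (r k m n) := fun m n => by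
    have z := dd_as dd (y := fun l k => ψ l k m n) fun i j => (hψ n i j m).1
    have z' : ∀ k l, ψ l m k n = -ψ l k m n := fun k l => (hψ n l k m).2
    simp only [dv_apply, e, hs m, (hr _ m n).1, z', map_neg, Finset.sum_neg_distrib, map_sub,
      map_add, Finset.sum_add_distrib, Finset.sum_sub_distrib, z]
    module
  funext ⟨m, n⟩
  simp only [Ah_apply, sy_apply, Prod.swap_prod_mk, this, fun k => (hr k m n).2, map_neg,
    Finset.sum_neg_distrib, Pi.zero_apply]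
  module

theorem hess2 (dd : Cm D D) (mD : ∀ i, ∀ x ∈ S, D i x ∈ S) (k2 : K2 S D) (χ : J3 → M)
    (hχ : ∀ a, χ a ∈ S) (h : Ah D χ = 0) : Syz S D χ := by
  let c : J → J → J → M := fun k m n => (1 / 2 : ℂ) • (χ (k, m, n) - χ (m, k, n))
  have hc : ∀ k m n, c k m n ∈ S := fun k m n => S.smul_mem _ (S.sub_mem (hχ _) (hχ _))
  have ca : ∀ n, As2 fun k m => c k m n := fun n k m => by
    simp only [c]
    module
  have ec : ∀ m n, ∑ k, D k (c k m n) = (1 / 2 : ℂ) • dv D χ (m, n) := fun m n => by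
    simp only [c, map_smul, dv_apply, Finset.smul_sum]
  obtain ⟨r, hr, ra, e⟩ := k2 (fun m n => ∑ k, D k (c k m n))
    (fun m n => S.sum_mem fun k _ => mD _ _ (hc _ _ _)) (fun m n => by
      have := congrFun h (m, n)
      simp only [Ah_apply, sy_apply, Prod.swap_prod_mk, smul_add, Pi.zero_apply] at this
      simp only [ec]
      exact eq_neg_of_add_eq_zero_right this) fun n => dd_as dd (ca n)
  choose ψ hψ ψa e' using fun n => k2 (fun k m => c k m n - r k m n)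
    (fun k m => S.sub_mem (hc _ _ _) (hr _ _ _))
    (fun k m => by simp only [ca n k m, (ra k m n).1]; abel) fun m => by
      simp only [map_sub, Finset.sum_sub_distrib, e, sub_self]
  refine ⟨fun k m n => χ (k, m, n) - c k m n, r, fun l k m n => ψ n l k m,
    fun k m n => ⟨S.sub_mem (hχ _) (hc _ _ _), hr _ _ _⟩, fun l k m n => hψ _ _ _ _,
    fun k m n => ?_, ra, ψa, fun k m n => ?_⟩
  · simp only [c]
    module
  · simp only [e']
    abel

lemma It.dv {D' : Op N} {f : M →ₗ[ℂ] N} (h : It f D D') (χ : J3 → M) (I : J2) :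
    f (dv D χ I) = dv D' (fun a => f (χ a)) I := by
  simp only [dv_apply, map_sum, h _, map_sub]

lemma map_sy (f : M →ₗ[ℂ] N) (β : J2 → M) (I : J2) : f (sy β I) = sy (fun I => f (β I)) I := by
  simp only [sy_apply, map_smul, map_add]

lemma It.Ah {D' : Op N} {f : M →ₗ[ℂ] N} (h : It f D D') (χ : J3 → M) (I : J2) :
    f (Ah D χ I) = Ah D' (fun a => f (χ a)) I := by
  simp only [Ah_apply, map_sy, h.dv]

lemma It.Rh {D' : Op N} {f : M →ₗ[ℂ] N} (h : It f D D') (β : J2 → M) :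
    f (Rh D β) = Rh D' fun a => f (β a) := by
  simp only [Rh_apply, map_sum, h _]

/-- syzygies lift -/
theorem lift_syz {D' : Op N} {S' : Submodule ℂ N} {f : M →ₗ[ℂ] N} {π : N →ₗ[ℂ] N}
    (hf : It f D D') (hπ : It π D' D') (e : ∀ x, π (f x) = f x)
    (su : ∀ y ∈ S', ∃ x, f x = π y) {χ : J3 → M} (h : Syz S' D' fun a => f (χ a)) :
    ∃ U, Syz ⊤ D U ∧ ∀ a, f (χ a - U a) = 0 := by
  obtain ⟨s, r, ψ, h1, h2, hs, hr, hψ, e'⟩ := h
  obtain ⟨σ, -, s2⟩ := lift_sub f π S' ⊤ fun y hy => (su y hy).imp fun x a => ⟨trivial, a⟩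
  refine ⟨fun a => σ (s a.1 a.2.1 a.2.2) + σ (r a.1 a.2.1 a.2.2) +
    ∑ l, D l (σ (ψ l a.1 a.2.1 a.2.2)), ⟨fun k m n => σ (s k m n), fun k m n => σ (r k m n),
      fun l k m n => σ (ψ l k m n), fun _ _ _ => ⟨trivial, trivial⟩, fun _ _ _ _ => trivial,
      fun k m n => congrArg σ (hs k m n), fun k m n => ⟨?_, ?_⟩, fun n l k m => ⟨?_, ?_⟩,
      fun _ _ _ => rfl⟩, fun ⟨k, m, n⟩ => ?_⟩
  · exact (congrArg σ (hr k m n).1).trans (map_neg _ _)
  · exact (congrArg σ (hr k m n).2).trans (map_neg _ _)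
  · exact (congrArg σ (hψ n l k m).1).trans (map_neg _ _)
  · exact (congrArg σ (hψ n l k m).2).trans (map_neg _ _)
  · rw [map_sub, ← e, show f (χ (k, m, n)) = _ from e' k m n]
    simp only [map_add, map_sum, hf _, hπ _, s2 _ (h1 _ _ _).1, s2 _ (h1 _ _ _).2,
      s2 _ (h2 _ _ _ _), sub_self]

/-! ## three slots -/

/-- three commuting families of derivatives with radial vector fields -/
structure Tri (D1 D2 D3 X1 X2 X3 : Op M) : Prop where
  w1 : Wey ⊤ D1 X1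
  w2 : Wey ⊤ D2 X2
  w3 : Wey ⊤ D3 X3
  c12 : Cm D1 D2
  c13 : Cm D1 D3
  c23 : Cm D2 D3
  x12 : Cm X1 D2
  x23 : Cm X2 D3
  x32 : Cm X3 D2

lemma Cm.symm {D D' : Op M} (h : Cm D D') : Cm D' D := fun i j x => (h j i x).symm

lemma Cm.it {D D' : Op M} (h : Cm D D') (i : J) : It (D i) D' D' := fun j x => h i j x

lemma it_Rh {D D' : Op M} (h : Cm D' D) : It (Rh D) (up J2 D') D' :=
  fun i x => ((h.it i).Rh x).symm

lemma it_Ah {D D' : Op M} (h : Cm D' D) : It (Ah D) (up J3 D') (up J2 D') :=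
  fun i x => funext fun I => ((h.it i).Ah x I).symm

lemma it_sy (D : Op M) : It sy (up J2 D) (up J2 D) :=
  fun i x => funext fun I => (map_sy (D i) x I).symm

lemma It.up {D' : Op N} {f : M →ₗ[ℂ] N} (h : It f D D') (ι : Type*) :
    It (f.compLeft ι) (up ι D) (up ι D') := fun i x => funext fun a => h i (x a)

lemma It.comp {D' : Op N} {D'' : Op M'} {f : M →ₗ[ℂ] N} {g : N →ₗ[ℂ] M'} (h : It f D D')
    (h' : It g D' D'') : It (g ∘ₗ f) D D'' := fun i x => by
  simp only [LinearMap.comp_apply, h _, h' _]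

variable {D1 D2 D3 X1 X2 X3 : Op M}

/-- the operator in the slots two and three -/
def A23 (D2 D3 : Op M) : (J3 → J3 → M) →ₗ[ℂ] J2 → J2 → M :=
  Ah (up J2 D2) ∘ₗ (Ah D3).compLeft J3

lemma A23_apply (Q : J3 → J3 → M) : A23 D2 D3 Q = Ah (up J2 D2) fun b => Ah D3 (Q b) := rfl

/-- symmetrization in both slots -/
def S23 : (J2 → J2 → M) →ₗ[ℂ] J2 → J2 → M := sy ∘ₗ sy.compLeft J2

lemma S23_apply (Y : J2 → J2 → M) : S23 Y = sy fun J => sy (Y J) := rfl

/-- the double divergence in the second slot -/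
def R2 (D2 : Op M) : (J2 → J2 → M) →ₗ[ℂ] J2 → M := Rh (up J2 D2)
/-- the double divergence in the third slot -/
def R3 (D3 : Op M) : (J2 → J2 → M) →ₗ[ℂ] J2 → M := (Rh D3).compLeft J2

lemma R2_apply (Y : J2 → J2 → M) (K : J2) : R2 D2 Y K = Rh D2 fun J => Y J K :=
  It.Rh (f := LinearMap.proj K) (D := up J2 D2) (fun _ _ => rfl) Y

theorem Tri.sur (t : Tri D1 D2 D3 X1 X2 X3) (Y : J2 → J2 → M) (h2 : R2 D2 Y = 0)
    (h3 : R3 D3 Y = 0) : ∃ Q, A23 D2 D3 Q = S23 Y := by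
  have w := (t.w2.up J2).ker t.w2 (it_Rh t.c23) (it_Rh t.x23)
  obtain ⟨χ, hχ, e⟩ := hess1 w.dd (fun i x hx => by
    rw [LinearMap.mem_ker, it_Rh t.c23, LinearMap.mem_ker.1 hx, map_zero]) w.k1 Y
    (fun J => congrFun h3 J) h2
  choose Q _ e' using fun b => hess1 (S := ⊤) t.w3.dd (fun _ _ _ => trivial) t.w3.k1 (χ b)
    (fun _ => trivial) (hχ b)
  refine ⟨Q, funext fun J => ?_⟩
  rw [A23_apply, funext e', ← (it_sy D2).Ah, e, map_sy, S23_apply]

theorem Tri.k2 (t : Tri D1 D2 D3 X1 X2 X3) :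
    K2 (LinearMap.ker (R2 D2) ⊓ LinearMap.ker (R3 D3)) (up J2 (up J2 D1)) := by
  have w := ((t.w1.up J2).up J2).ker (t.w1.up J2) (q := R2 D2) (it_Rh (t.c12.up J2))
    (it_Rh (t.x12.up J2))
  have w0 := (t.w1.up J2).ker t.w1 (it_Rh t.c12) (it_Rh t.x12)
  have w3 := (t.w3.up J2).ker t.w3 (it_Rh t.c23.symm) (it_Rh t.x32)
  refine k2_ker ((it_Rh t.c13).up J2) w.dd (fun i x hx => ?_) (fun x hx => ?_) (fun f hf => ?_)
    w.k2 w0.k3
  · rw [LinearMap.mem_ker, R2, it_Rh (t.c12.up J2), ← R2, LinearMap.mem_ker.1 hx, map_zero]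
  · exact ((it_Rh t.c23).Rh x).symm.trans ((congrArg _ (LinearMap.mem_ker.1 hx)).trans
      (map_zero _))
  · obtain ⟨β, hβ, e⟩ := hess0 w3.k0 f hf
    refine ⟨fun J K => β K J, funext fun K => (R2_apply _ K).trans (hβ K), funext fun J => ?_⟩
    rw [← e]
    exact (R2_apply β J).symm

/-- **The kernel of the threefold operator is spanned by the syzygies of the three slots.** -/
theorem Tri.syz (t : Tri D1 D2 D3 X1 X2 X3) (Q : J3 → J3 → J3 → M)
    (h : Ah (up J2 (up J2 D1)) (fun a => A23 D2 D3 (Q a)) = 0) :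
    ∃ U1 U2 U3 : J3 → J3 → J3 → M, Syz ⊤ (up J3 (up J3 D1)) U1 ∧
      (∀ a, Syz ⊤ (up J3 D2) (U2 a)) ∧ (∀ a b, Syz ⊤ D3 (U3 a b)) ∧ Q = U1 + U2 + U3 := by
  have i1 : It (A23 D2 D3) (up J3 (up J3 D1)) (up J2 (up J2 D1)) :=
    ((it_Ah t.c13).up J3).comp (it_Ah (t.c12.up J2))
  have m1 : ∀ Y, A23 D2 D3 Y ∈ LinearMap.ker (R2 D2) ⊓ LinearMap.ker (R3 D3) := fun Y =>
    ⟨Rh_Ah (t.w2.dd.up J2) _, funext fun J => by
      refine ((it_Rh t.c23).Ah _ J).trans ?_
      rw [show (fun b => Rh D3 ((Ah D3).compLeft J3 Y b)) = 0 from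
        funext fun b => Rh_Ah t.w3.dd _]
      exact congrFun (map_zero (Ah D2)) J⟩
  obtain ⟨U1, s1, e1⟩ := lift_syz (π := S23)
    (S' := LinearMap.ker (R2 D2) ⊓ LinearMap.ker (R3 D3)) i1 (((it_sy D1).up J2).comp (it_sy _)) (fun Y => by
      funext J
      rw [S23_apply, ← map_sy, A23_apply, Ah_apply, sy_sy, ← Ah_apply, (it_sy D2).Ah]
      simp only [Ah_apply D3, sy_sy])
    (fun y hy => t.sur y hy.1 hy.2) (hess2 (S := LinearMap.ker (R2 D2) ⊓ LinearMap.ker (R3 D3))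
      ((t.w1.dd.up J2).up J2) (fun i x hx => ⟨by
      rw [SetLike.mem_coe, LinearMap.mem_ker, R2, it_Rh (t.c12.up J2), ← R2,
        LinearMap.mem_ker.1 hx.1, map_zero], by
      rw [SetLike.mem_coe, LinearMap.mem_ker, R3, (it_Rh t.c13).up J2, ← R3,
        LinearMap.mem_ker.1 hx.2, map_zero]⟩) t.k2 _ (fun a => m1 _) h)
  have w := (t.w2.up J2).ker t.w2 (it_Rh t.c23) (it_Rh t.x23)
  choose U2 s2 e2 using fun a => lift_syz (π := sy) (it_Ah t.c23) (it_sy D2)
    (fun Y => by rw [Ah_apply, sy_sy])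
    (fun y hy => (hess1 (S := ⊤) t.w3.dd (fun _ _ _ => trivial) t.w3.k1 y (fun _ => trivial) hy).imp
      fun _ a => a.2) (hess2 w.dd (fun i x hx => by
      rw [LinearMap.mem_ker, it_Rh t.c23, LinearMap.mem_ker.1 hx, map_zero]) w.k2
      (fun b => Ah D3 ((Q a - U1 a) b)) (fun b => Rh_Ah t.w3.dd _) (e1 a))
  exact ⟨U1, U2, fun a b => (Q a - U1 a) b - U2 a b, s1, s2, fun a b => hess2 (S := ⊤)
    t.w3.dd (fun _ _ _ => trivial) t.w3.k2 _ (fun _ => trivial) (e2 a b), by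
      funext a b
      simp only [Pi.add_apply, Pi.sub_apply]
      abel⟩

end

end Vale.Agent.P352L.RW.Ko
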