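import Vale.Agent.P352L.RES.Kos
import Vale.Agent.P352L.RES.WSpec
import Mathlib.Analysis.InnerProductSpace.Projection.FiniteDimensional

/-!
# P352L, block RESW: the adjoint of the Cotton operator on modules, equivariance, projections
-/

set_option linter.all false

namespace Vale.Agent.P352L.RW

open Vale.Agent.P352 Vale.Agent.P352.GF Vale.Agent.P352X Vale.Agent.P352X.RS Vale.Agent.P352X.RS.Red
open Ko
open scoped ComplexConjugate

noncomputable section

variable {M N : Type*} [AddCommGroup M] [Module ℂ M] [AddCommGroup N] [Module ℂ N]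

lemma eta_sq (i : Ix) : (eta i : ℂ) * eta i = 1 := by
  unfold eta
  split_ifs <;> simp

lemma gm_swap (I : I2) : gm I.swap = gm I := by
  obtain ⟨a, b⟩ := I
  by_cases h : a = b
  · subst h; rfl
  · simp [gm, h, Ne.symm h]

lemma gm_diag (k : Ix) : gm (k, k) = eta k := if_pos rfl

lemma sum_gm (m : Ix) (x : Ix → M) : ∑ k, gm (k, m) • x k = (eta m : ℂ) • x m := by
  simp [gm]

lemma sum_gm' (m : Ix) (x : Ix → M) : ∑ k, gm (m, k) • x k = (eta m : ℂ) • x m := by
  simp [gm]

/-- raising the index -/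
def rs (P : Op M) : Op M := fun k => (eta k : ℂ) • P k

lemma rs_apply (P : Op M) (k : Ix) (x : M) : rs P k x = (eta k : ℂ) • P k x := rfl

/-- the trace -/
def tc (β : I2 → M) : M := ∑ k, (eta k : ℂ) • β (k, k)

/-- `β - a η tr β` -/
def tq (a : ℂ) : (I2 → M) →ₗ[ℂ] I2 → M where
  toFun β I := β I - (gm I * a) • tc β
  map_add' x y := funext fun I => by
    simp only [tc, Pi.add_apply, smul_add, Finset.sum_add_distrib]
    abel
  map_smul' b x := funext fun I => by
    simp only [tc, Pi.smul_apply, RingHom.id_apply, smul_comm _ b, ← Finset.smul_sum, smul_sub]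

lemma tq_apply (a : ℂ) (β : I2 → M) (I : I2) : tq a β I = β I - (gm I * a) • tc β := rfl

lemma tc_tq (a : ℂ) (β : I2 → M) : tc (tq a β) = (1 - 4 * a) • tc β := by
  have : ∀ k : Ix, (eta k : ℂ) • tq a β (k, k) = (eta k : ℂ) • β (k, k) - a • tc β := fun k => by
    rw [tq_apply, smul_sub, smul_smul, gm_diag, ← mul_assoc, eta_sq, one_mul]
  rw [tc]
  simp only [this, Finset.sum_sub_distrib, Finset.sum_const, Finset.card_univ, Fintype.card_fin]
  rw [← tc]
  module

lemma tq_tq {a b : ℂ} (h : a + b = 4 * a * b) (β : I2 → M) : tq a (tq b β) = β := funext fun I => by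
  rw [tq_apply, tc_tq, tq_apply, smul_smul, sub_sub, ← add_smul,
    show gm I * b + gm I * a * (1 - 4 * b) = 0 by linear_combination gm I * h, zero_smul, sub_zero]

lemma map_tq (f : M →ₗ[ℂ] N) (a : ℂ) (β : I2 → M) (I : I2) :
    f (tq a β I) = tq a (fun I => f (β I)) I := by
  simp only [tq_apply, tc, map_sub, map_smul, map_sum]

lemma tq_sy (a : ℂ) (β : I2 → M) : tq a (sy β) = sy (tq a β) := funext fun I => by
  have : tc (sy β) = tc β := Finset.sum_congr rfl fun k _ => by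
    simp only [sy_apply, Prod.swap_prod_mk]
    module
  simp only [tq_apply, sy_apply, this, gm_swap]
  module

/-- the adjoint of the Cotton operator -/
def AT (P : Op M) : (I3 → M) →ₗ[ℂ] I2 → M := tq (1 / 3) ∘ₗ Ah (rs P)

lemma AT_apply (P : Op M) (χ : I3 → M) : AT P χ = tq (1 / 3) (Ah (rs P) χ) := rfl

lemma AT_swap (P : Op M) (χ : I3 → M) (I : I2) : AT P χ I.swap = AT P χ I := by
  rw [AT_apply, Ah_apply, tq_sy, sy_apply, sy_apply, Prod.swap_swap, add_comm]

/-- `f P = P' g` -/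
def It2 (f g : M →ₗ[ℂ] N) (P : Op M) (P' : Op N) : Prop := ∀ i x, f (P i x) = P' i (g x)

variable {P : Op M} {P' : Op N} {f g : M →ₗ[ℂ] N}

lemma It2.dv (h : It2 f g P P') (χ : I3 → M) (I : I2) :
    f (Ko.dv (rs P) χ I) = Ko.dv (rs P') (fun a => g (χ a)) I := by
  simp only [dv_apply, map_sum, rs_apply, map_smul, h _, map_sub g]

lemma It2.AT (h : It2 f g P P') (χ : I3 → M) (I : I2) :
    f (AT P χ I) = AT P' (fun a => g (χ a)) I := by
  simp only [AT_apply, map_tq, Ah_apply, map_sy, h.dv]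

lemma AT_up {ι : Type*} (G : I3 → ι → M) (I : I2) (b : ι) :
    AT (up ι P) G I b = AT P (fun a => G a b) I :=
  It2.AT (f := LinearMap.proj b) (g := LinearMap.proj b) (P := up ι P) (fun _ _ => rfl) G I

lemma cm_rs {Q : Op M} (h : Cm P Q) : Cm (rs P) (rs Q) := fun i j x => by
  simp only [rs_apply, map_smul, h i j x, smul_comm (eta i : ℂ)]

lemma rs_up (ι : Type*) : rs (up ι P) = up ι (rs P) := rfl

lemma it_AT {Q : Op M} (h : Cm Q P) : It2 (AT P) (AT P) (up I3 Q) (up I2 Q) :=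
  fun i x => funext fun I => (It2.AT (f := Q i) (g := Q i) (fun j x => h i j x) x I).symm

lemma AT_comm {Q : Op M} (h : Cm P Q) (G : I3 → I3 → M) (I J : I2) :
    AT P (fun a => AT Q (G a) J) I = AT Q (fun b => AT P (fun a => G a b) I) J := by
  have := congrFun ((it_AT h).AT G I) J
  rw [AT_up] at this
  rw [← this]
  exact congrArg (fun y => AT Q y J) (funext fun b => AT_up G I b)

/-! ## three slots -/

variable {P1 P2 P3 : Op M}

def B23 (P2 P3 : Op M) : (I3 → I3 → M) →ₗ[ℂ] I2 → I2 → M :=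
  AT (up I2 P2) ∘ₗ (AT P3).compLeft I3

def B3 (P1 P2 P3 : Op M) : (I3 → I3 → I3 → M) →ₗ[ℂ] I2 → I2 → I2 → M :=
  AT (up I2 (up I2 P1)) ∘ₗ (B23 P2 P3).compLeft I3

lemma B23_apply (Q : I3 → I3 → M) (J K : I2) :
    B23 P2 P3 Q J K = AT P2 (fun b => AT P3 (Q b) K) J := AT_up _ J K

lemma B3_apply (Q : I3 → I3 → I3 → M) (I J K : I2) : B3 P1 P2 P3 Q I J K =
    AT P1 (fun a => AT P2 (fun b => AT P3 (Q a b) K) J) I := by
  simp only [← B23_apply]
  exact (congrFun (AT_up _ I J) K).trans (AT_up _ I K)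

/-- the trace reversal in two slots -/
def T2 (a : ℂ) : (I2 → I2 → M) →ₗ[ℂ] I2 → I2 → M := tq a ∘ₗ (tq a).compLeft I2

lemma it_tq (a : ℂ) (P : Op M) : It (tq a) (up I2 P) (up I2 P) :=
  fun i x => funext fun I => (map_tq (P i) a x I).symm

lemma B23_eq (Q : I3 → I3 → M) : B23 P2 P3 Q = T2 (1 / 3) (Ko.A23 (rs P2) (rs P3) Q) := by
  refine congrArg (tq (M := I2 → M) (1 / 3)) (funext fun J => ?_)
  exact ((it_tq (1 / 3) (rs P2)).Ah (fun b => Ah (rs P3) (Q b)) J).symm

lemma T2_T2 {a b : ℂ} (h : a + b = 4 * a * b) (Y : I2 → I2 → M) : T2 a (T2 b Y) = Y := by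
  have : (tq a).compLeft I2 (T2 b Y) = tq b Y := funext fun J =>
    (map_tq (tq (M := M) a) b (fun J => tq b (Y J)) J).trans
      (congrArg (fun y => tq b y J) (funext fun J => tq_tq h (Y J)))
  exact (congrArg (tq a) this).trans (tq_tq h Y)

lemma h13 : (1 : ℂ) + 1 / 3 = 4 * 1 * (1 / 3) := by norm_num
lemma h31 : (1 / 3 : ℂ) + 1 = 4 * (1 / 3) * 1 := by norm_num

/-- the kernel of `B3` -/
theorem B3_ker {X1 X2 X3 : Op M} (t : Tri (rs P1) (rs P2) (rs P3) X1 X2 X3)
    (ρ : (I3 → I3 → I3 → M) →ₗ[ℂ] ℂ)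
    (h1 : ∀ U, Syz ⊤ (up I3 (up I3 (rs P1))) U → ρ U = 0)
    (h2 : ∀ U, (∀ a, Syz ⊤ (up I3 (rs P2)) (U a)) → ρ U = 0)
    (h3 : ∀ U, (∀ a b, Syz ⊤ (rs P3) (U a b)) → ρ U = 0) (Q : I3 → I3 → I3 → M)
    (h : B3 P1 P2 P3 Q = 0) : ρ Q = 0 := by
  obtain ⟨U1, U2, U3, s1, s2, s3, e⟩ := t.syz Q (by
    have k := congrArg (tq 1) h
    rw [map_zero] at k
    have k' : Ah (up I2 (up I2 (rs P1))) (fun a => B23 P2 P3 (Q a)) = 0 := (tq_tq h13 _).symm.trans k
    funext I
    have i : It (T2 1) (up I2 (up I2 (rs P1))) (up I2 (up I2 (rs P1))) :=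
      ((it_tq 1 _).up I2).comp (it_tq 1 _)
    have := i.Ah (fun a => B23 P2 P3 (Q a)) I
    rw [k'] at this
    simp only [B23_eq, T2_T2 h13, Pi.zero_apply, map_zero] at this
    exact this.symm)
  rw [e, map_add, map_add, h1 _ s1, h2 _ s2, h3 _ s3, add_zero, add_zero]

/-- closed in two slots -/
theorem B23_sur {X1 X2 X3 : Op M} (t : Tri (rs P1) (rs P2) (rs P3) X1 X2 X3) (Y : I2 → I2 → M)
    (s2 : ∀ J K, Y J.swap K = Y J K) (s3 : ∀ J K, Y J K.swap = Y J K)
    (h2 : ∀ K, Rh (rs P2) (tq 1 fun J => Y J K) = 0) (h3 : ∀ J, Rh (rs P3) (tq 1 (Y J)) = 0) :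
    ∃ Q, B23 P2 P3 Q = Y := by
  obtain ⟨Q, e⟩ := t.sur (T2 1 Y) (by
    have i := ((it_tq 1 (rs P2)).Rh (tq 1 Y)).symm
    have z : Rh (up I2 (rs P2)) (tq 1 Y) = 0 := funext fun K =>
      (R2_apply (tq 1 Y) K).trans ((congrArg _ (funext fun J =>
        map_tq (LinearMap.proj K : (I2 → M) →ₗ[ℂ] M) 1 Y J)).trans (h2 K))
    rw [z, map_zero] at i
    refine Eq.trans (congrArg _ (funext fun J => ?_)) i
    exact (map_tq (tq 1) 1 Y J).symm) (funext fun J => by
      refine (map_tq (Rh (rs P3)) 1 _ J).trans ?_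
      rw [show (fun I => Rh (rs P3) ((tq 1).compLeft I2 Y I)) = 0 from funext h3]
      exact congrFun (map_zero (tq 1)) J)
  refine ⟨Q, ?_⟩
  have y3 : ∀ J, sy (Y J) = Y J := fun J => funext fun K => by
    rw [sy_apply, s3]
    module
  have y2 : sy Y = Y := funext fun J => by
    rw [sy_apply, show Y J.swap = Y J from funext (s2 J)]
    module
  have : S23 (T2 1 Y) = T2 1 Y := by
    have a : (fun J => sy (T2 1 Y J)) = T2 1 Y := funext fun J =>
      (map_tq (sy (M := M)) 1 (fun J => tq 1 (Y J)) J).trans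
      (congrArg (fun y => tq 1 y J) (funext fun J => (tq_sy 1 (Y J)).symm.trans (by
        rw [y3]; rfl)))
    rw [S23_apply, a]
    refine (tq_sy 1 _).symm.trans (congrArg (tq 1) (funext fun J => ?_))
    exact (map_sy (tq 1) Y J).symm.trans (by rw [y2])
  rw [B23_eq, e, this, T2_T2 h31]

/-! ## infinitesimal Lorentz transformations -/

variable {w : Ix → V} {O : M →ₗ[ℂ] M} {O' : N →ₗ[ℂ] N}

def r2 (w : Ix → V) (O : M →ₗ[ℂ] M) : (I2 → M) →ₗ[ℂ] I2 → M where
  toFun β I := O (β I) + (∑ n, (w I.1 n : ℂ) • β (n, I.2) + ∑ n, (w I.2 n : ℂ) • β (I.1, n))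
  map_add' x y := funext fun I => by
    simp only [Pi.add_apply, smul_add, Finset.sum_add_distrib, map_add]
    abel
  map_smul' b x := funext fun I => by
    simp only [Pi.smul_apply, RingHom.id_apply, smul_comm _ b, ← Finset.smul_sum, smul_add,
      map_smul]

def r3 (w : Ix → V) (O : M →ₗ[ℂ] M) : (I3 → M) →ₗ[ℂ] I3 → M where
  toFun χ a := O (χ a) + (∑ n, (w a.1 n : ℂ) • χ (n, a.2.1, a.2.2) +
    ∑ n, (w a.2.1 n : ℂ) • χ (a.1, n, a.2.2) + ∑ n, (w a.2.2 n : ℂ) • χ (a.1, a.2.1, n))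
  map_add' x y := funext fun I => by
    simp only [Pi.add_apply, smul_add, Finset.sum_add_distrib, map_add]
    abel
  map_smul' b x := funext fun I => by
    simp only [Pi.smul_apply, RingHom.id_apply, smul_comm _ b, ← Finset.smul_sum, smul_add,
      map_smul]

lemma r2_apply (β : I2 → M) (I : I2) : r2 w O β I =
    O (β I) + (∑ n, (w I.1 n : ℂ) • β (n, I.2) + ∑ n, (w I.2 n : ℂ) • β (I.1, n)) := rfl

lemma r3_apply (χ : I3 → M) (a : I3) : r3 w O χ a = O (χ a) +
    (∑ n, (w a.1 n : ℂ) • χ (n, a.2.1, a.2.2) + ∑ n, (w a.2.1 n : ℂ) • χ (a.1, n, a.2.2) +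
      ∑ n, (w a.2.2 n : ℂ) • χ (a.1, a.2.1, n)) := rfl

lemma r2_l2 (β : I2 → M) (I : I2) : r2 w O β I = O (β I) + ∑ K, l2 w I K • β K := by
  simp [r2_apply, l2, GF.one, bas, Fintype.sum_prod_type, add_smul, Finset.sum_add_distrib,
    apply_ite Complex.ofReal]

/-- the commutation relation with the derivatives -/
def Ro (w : Ix → V) (O : M →ₗ[ℂ] M) (P : Op M) : Prop :=
  ∀ a x, P a (O x) = O (P a x) + ∑ n, (w a n : ℂ) • P n x

lemma so_c (hw : So w) (m n : Ix) : (eta m : ℂ) * w m n = -(eta n * w n m) := by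
  have h : (eta n : ℂ) * w m n = -(eta m * w n m) := by exact_mod_cast hw m n
  linear_combination (eta m * eta n : ℂ) * h - (eta m * w m n) * eta_sq n -
    (eta n * w n m) * eta_sq m

lemma so_can (hw : So w) (F : Ix → Ix → M) : ∑ k, (eta k : ℂ) • ∑ j, (w k j : ℂ) • F j k +
    ∑ k, (eta k : ℂ) • ∑ j, (w k j : ℂ) • F k j = 0 := by
  simp only [Finset.smul_sum, smul_smul]
  rw [Finset.sum_comm, ← Finset.sum_add_distrib]
  refine Finset.sum_eq_zero fun k _ => ?_
  rw [← Finset.sum_add_distrib]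
  exact Finset.sum_eq_zero fun j _ => by rw [← add_smul, so_c hw j k, neg_add_cancel, zero_smul]

lemma dv_r3 (hw : So w) (h : Ro w O P) (χ : I3 → M) :
    dv (rs P) (r3 w O χ) = r2 w O (dv (rs P) χ) := funext fun ⟨m, n⟩ => by
  have c := so_can hw fun j k => P j (χ (k, m, n) - χ (m, k, n))
  have e : ∀ (a : Ix) (x : Ix → Ix → M), ∑ k, (eta k : ℂ) • ∑ j, (w a j : ℂ) • x k j =
      ∑ j, (w a j : ℂ) • ∑ k, (eta k : ℂ) • x k j := fun a x => by
    simp only [Finset.smul_sum]
    exact Finset.sum_comm.trans (Finset.sum_congr rfl fun _ _ => Finset.sum_congr rfl fun _ _ =>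
      smul_comm _ _ _)
  simp only [dv_apply, r2_apply, rs_apply]
  simp only [r3_apply, map_sub, map_add, map_sum, map_smul, h _,
    smul_add, smul_sub, Finset.sum_add_distrib, Finset.sum_sub_distrib, e] at c ⊢
  linear_combination (norm := module) c

lemma sy_r2 (β : I2 → M) : sy (r2 w O β) = r2 w O (sy β) := funext fun ⟨m, n⟩ => by
  simp only [sy_apply, r2_apply, Prod.swap_prod_mk, map_smul, map_add, smul_add,
    Finset.sum_add_distrib, smul_comm _ (1 / 2 : ℂ), ← Finset.smul_sum]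
  abel

lemma tq_r2 (hw : So w) (a : ℂ) (β : I2 → M) : tq a (r2 w O β) = r2 w O (tq a β) :=
  funext fun ⟨m, n⟩ => by
  have c : tc (r2 w O β) = O (tc β) := by
    have := so_can hw fun j k => β (j, k)
    simp only [tc, r2_apply, smul_add, Finset.sum_add_distrib, this, add_zero, map_sum, map_smul]
  have e1 : ∑ j, (w m j : ℂ) • (gm (j, n) * a) • tc β = (w m n * (eta n * a)) • tc β := by
    simp [gm, smul_smul]
  have e2 : ∑ j, (w n j : ℂ) • (gm (m, j) * a) • tc β = (w n m * (eta m * a)) • tc β := by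
    simp [gm, smul_smul]
  have h : (eta n : ℂ) * w m n = -(eta m * w n m) := by exact_mod_cast hw m n
  simp only [tq_apply, r2_apply, c, map_sub, map_smul, smul_sub, Finset.sum_sub_distrib, e1, e2]
  rw [show (w m n * (eta n * a) : ℂ) = -(w n m * (eta m * a)) by linear_combination a * h]
  module

lemma AT_r3 (hw : So w) (h : Ro w O P) (χ : I3 → M) : AT P (r3 w O χ) = r2 w O (AT P χ) := by
  rw [AT_apply, Ah_apply, dv_r3 hw h, sy_r2, tq_r2 hw]
  rfl

lemma Ro.r2 (h : Ro w O P) : Ro w (r2 w O) (up I2 P) := fun a x => funext fun I => by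
  simp only [up_apply, r2_apply, map_add, map_sum, map_smul, h _, Pi.add_apply, Finset.sum_apply,
    Pi.smul_apply]
  abel

lemma map_r3 (h : ∀ x, f (O x) = O' (f x)) (χ : I3 → M) :
    f.compLeft I3 (r3 w O χ) = r3 w O' (f.compLeft I3 χ) := funext fun a => by
  show f (r3 w O χ a) = _
  simp only [r3_apply, map_add, map_sum, map_smul, h]
  rfl

/-- the action on sources -/
def omF (w : Ix → V) (O : M →ₗ[ℂ] M) : (I2 → I2 → I2 → M) →ₗ[ℂ] I2 → I2 → I2 → M :=
  r2 w (r2 w (r2 w O))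
/-- the action on potentials -/
def omQ (w : Ix → V) (O : M →ₗ[ℂ] M) : (I3 → I3 → I3 → M) →ₗ[ℂ] I3 → I3 → I3 → M :=
  r3 w (r3 w (r3 w O))

theorem B3_om (hw : So w) (h1 : Ro w O P1) (h2 : Ro w O P2) (h3 : Ro w O P3)
    (Q : I3 → I3 → I3 → M) : B3 P1 P2 P3 (omQ w O Q) = omF w O (B3 P1 P2 P3 Q) := by
  have a : ∀ Y, B23 P2 P3 (r3 w (r3 w O) Y) = r2 w (r2 w O) (B23 P2 P3 Y) := fun Y =>
    (congrArg (AT (up I2 P2)) (map_r3 (AT_r3 hw h3) Y)).trans (AT_r3 hw h2.r2 _)
  exact (congrArg (AT (up I2 (up I2 P1))) (map_r3 a Q)).trans (AT_r3 hw h1.r2.r2 _)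

lemma omF_apply (F : I2 → I2 → I2 → M) (I J K : I2) : omF w O F I J K = O (F I J K) +
    (∑ L, l2 w I L • F L J K + ∑ L, l2 w J L • F I L K + ∑ L, l2 w K L • F I J L) := by
  simp only [omF, r2_l2, Pi.add_apply, Finset.sum_apply, Pi.smul_apply]
  abel

/-! ## permutations -/

/-- exchange of the first two slots -/
def p12 {ι : Type*} (s : M →ₗ[ℂ] M) : (ι → ι → ι → M) →ₗ[ℂ] ι → ι → ι → M where
  toFun F a b c := s (F b a c)
  map_add' _ _ := funext fun _ => funext fun _ => funext fun _ => map_add s _ _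
  map_smul' _ _ := funext fun _ => funext fun _ => funext fun _ => map_smul s _ _

/-- exchange of the first and the third slot -/
def p13 {ι : Type*} (s : M →ₗ[ℂ] M) : (ι → ι → ι → M) →ₗ[ℂ] ι → ι → ι → M where
  toFun F a b c := s (F c b a)
  map_add' _ _ := funext fun _ => funext fun _ => funext fun _ => map_add s _ _
  map_smul' _ _ := funext fun _ => funext fun _ => funext fun _ => map_smul s _ _

variable {s : M →ₗ[ℂ] M}

theorem B3_p12 (c : Cm P1 P2) (h1 : It s P1 P2) (h2 : It s P2 P1) (h3 : It s P3 P3)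
    (Q : I3 → I3 → I3 → M) : B3 P1 P2 P3 (p12 s Q) = p12 s (B3 P1 P2 P3 Q) := by
  funext I J K
  show _ = s (B3 P1 P2 P3 Q J I K)
  simp only [B3_apply, It2.AT (f := s) (g := s) h1, It2.AT (f := s) (g := s) h2,
    It2.AT (f := s) (g := s) h3]
  exact AT_comm c (fun a b => AT P3 (fun c => s (Q b a c)) K) I J

theorem B3_p13 (c12 : Cm P1 P2) (c13 : Cm P1 P3) (c23 : Cm P2 P3) (h1 : It s P1 P3)
    (h2 : It s P2 P2) (h3 : It s P3 P1) (Q : I3 → I3 → I3 → M) :
    B3 P1 P2 P3 (p13 s Q) = p13 s (B3 P1 P2 P3 Q) := by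
  funext I J K
  show _ = s (B3 P1 P2 P3 Q K J I)
  simp only [B3_apply, It2.AT (f := s) (g := s) h1, It2.AT (f := s) (g := s) h2,
    It2.AT (f := s) (g := s) h3]
  rw [funext fun a => AT_comm c23 (p13 s Q a) J K, AT_comm c13]
  exact congrArg (fun y => AT P3 y K) (funext fun c => AT_comm c12 (fun a b => s (Q c b a)) I J)

/-- the sum over the permutations -/
def sum6 (a b : N →ₗ[ℂ] N) : N →ₗ[ℂ] N := 1 + a + b + a * b + b * a + a * (b * a)

lemma sum6_apply (a b : N →ₗ[ℂ] N) (x : N) :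
    sum6 a b x = x + a x + b x + a (b x) + b (a x) + a (b (a x)) := rfl

lemma map_sum6 {a b : M →ₗ[ℂ] M} {a' b' : N →ₗ[ℂ] N} (ha : ∀ x, f (a x) = a' (f x))
    (hb : ∀ x, f (b x) = b' (f x)) (x : M) : f (sum6 a b x) = sum6 a' b' (f x) := by
  simp only [sum6_apply, map_add, ha, hb]

/-! ## the gauge and the `W` potentials -/

/-- the potential of a pure gauge source -/
def ga : (Ix → M) →ₗ[ℂ] I3 → M where
  toFun Ξ a := (-gm a.2) • Ξ a.1
  map_add' _ _ := funext fun _ => smul_add _ _ _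
  map_smul' _ _ := funext fun _ => smul_comm _ _ _

lemma ga_apply (Ξ : Ix → M) (a : I3) : ga Ξ a = (-gm a.2) • Ξ a.1 := rfl

theorem AT_ga (Ξ : Ix → M) (I : I2) :
    AT P (ga Ξ) I = (1 / 2 : ℂ) • (P I.1 (Ξ I.2) + P I.2 (Ξ I.1)) := by
  have d : ∀ m n, dv (rs P) (ga Ξ) (m, n) =
      P n (Ξ m) - gm (m, n) • ∑ k, (eta k : ℂ) • P k (Ξ k) := fun m n => by
    have : ∑ k, gm (k, n) • (eta k : ℂ) • P k (Ξ m) = P n (Ξ m) := by
      rw [sum_gm n fun k => (eta k : ℂ) • P k (Ξ m), smul_smul, eta_sq, one_smul]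
    simp only [dv_apply, ga_apply, rs_apply, neg_smul, map_sub, map_neg, map_smul, smul_sub,
      smul_neg, Finset.sum_sub_distrib, Finset.sum_neg_distrib, this, ← Finset.smul_sum]
    abel
  have t : tc (dv (rs P) (ga Ξ)) = (-3 : ℂ) • ∑ k, (eta k : ℂ) • P k (Ξ k) := by
    simp only [tc, d, smul_sub, Finset.sum_sub_distrib, gm_diag, smul_smul, eta_sq, one_smul,
      Finset.sum_const, Finset.card_univ, Fintype.card_fin]
    module
  obtain ⟨m, n⟩ := I
  rw [AT_apply, Ah_apply, tq_sy, sy_apply]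
  simp only [tq_apply, Prod.swap_prod_mk, d, t]
  module

/-- the derivative along `a` -/
def da (P : Op M) : M →ₗ[ℂ] M := ∑ m, (va m : ℂ) • P m
/-- the wave operator -/
def bx (P : Op M) : M →ₗ[ℂ] M := ∑ m, (eta m : ℂ) • (P m ∘ₗ P m)
/-- `a` with lower index -/
def lo (m : Ix) : ℂ := eta m * va m

lemma da_apply (x : M) : da P x = ∑ m, (va m : ℂ) • P m x := by simp [da]
lemma bx_apply (x : M) : bx P x = ∑ m, (eta m : ℂ) • P m (P m x) := by simp [bx]
lemma aa_eq (I : I2) : aa I = lo I.1 * lo I.2 := by simp [aa, lo]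

/-- the source of `W` -/
def hW (P : Op M) (I : I2) : M →ₗ[ℂ] M := gm I • (da P ∘ₗ da P) + (3 * aa I) • bx P
/-- the potential of the source of `W` -/
def be (P : Op M) (a : I3) : M →ₗ[ℂ] M :=
  (3 * lo a.2.1 * lo a.2.2) • P a.1 + (3 * gm (a.1, a.2.2) * lo a.2.1) • da P

lemma hW_apply (I : I2) (x : M) : hW P I x = gm I • da P (da P x) + (3 * aa I) • bx P x := rfl
lemma be_apply (a : I3) (x : M) : be P a x = (3 * lo a.2.1 * lo a.2.2) • P a.1 x +
    (3 * gm (a.1, a.2.2) * lo a.2.1) • da P x := rfl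

lemma It2.da (h : It2 f g P P') (x : M) : f (da P x) = da P' (g x) := by
  simp only [da_apply, map_sum, map_smul, h _]

lemma It2.be (h : It2 f g P P') (a : I3) (x : M) : f (be P a x) = be P' a (g x) := by
  simp only [be_apply, map_add, map_smul, h _, h.da]

theorem AT_be (c : Cm P P) (x : M) (I : I2) : AT P (fun a => be P a x) I = hW P I x := by
  have cd : ∀ k y, da P (P k y) = P k (da P y) := fun k y =>
    (It2.da (f := P k) (g := P k) (fun i x => c k i x) y).symm
  have l : ∀ y, ∑ k, ((eta k : ℂ) * lo k) • P k y = da P y := fun y => by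
    simp only [da_apply, lo, ← mul_assoc, eta_sq, one_mul]
  have d : ∀ m n, dv (rs P) (fun a => be P a x) (m, n) = (3 * lo m * lo n) • bx P x +
      (3 * lo m) • P n (da P x) - (3 * lo n) • P m (da P x) -
      (3 * gm (m, n)) • da P (da P x) := fun m n => by
    have a1 : ∑ k, (3 * lo m * lo n) • (eta k : ℂ) • P k (P k x) = (3 * lo m * lo n) • bx P x := by
      simp only [bx_apply, Finset.smul_sum]
    have a2 : ∑ k, (3 * gm (k, n) * lo m) • (eta k : ℂ) • P k (da P x) =
        (3 * lo m) • P n (da P x) := by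
      rw [← one_smul ℂ (P n _), ← eta_sq n, mul_smul (eta n : ℂ), ← sum_gm n fun k =>
        (eta k : ℂ) • P k (da P x), Finset.smul_sum]
      exact Finset.sum_congr rfl fun k _ => by module
    have a3 : ∑ k, (3 * lo k * lo n) • (eta k : ℂ) • P k (P m x) = (3 * lo n) • P m (da P x) := by
      rw [← cd, ← l, Finset.smul_sum]
      exact Finset.sum_congr rfl fun k _ => by module
    have a4 : ∑ k, (3 * gm (m, n) * lo k) • (eta k : ℂ) • P k (da P x) =
        (3 * gm (m, n)) • da P (da P x) := by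
      rw [← l (da P x), Finset.smul_sum]
      exact Finset.sum_congr rfl fun k _ => by module
    simp only [dv_apply, be_apply, rs_apply, map_sub, map_add, map_smul, smul_sub, smul_add,
      Finset.sum_sub_distrib, Finset.sum_add_distrib, a1, a2, a3, a4]
    abel
  have z : ∑ k, (eta k : ℂ) * (3 * lo k * lo k) = 0 := by
    simp [lo, eta, va, o, Fin.sum_univ_four]
  have t : tc (dv (rs P) fun a => be P a x) = (-12 : ℂ) • da P (da P x) := by
    have : ∀ k : Ix, (eta k : ℂ) * (3 * eta k) = 3 := fun k => by linear_combination 3 * eta_sq k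
    simp only [tc, d, add_sub_cancel_right, smul_sub, Finset.sum_sub_distrib, gm_diag, smul_smul,
      this, ← Finset.sum_smul, z, Finset.sum_const, Finset.card_univ, Fintype.card_fin]
    module
  obtain ⟨m, n⟩ := I
  have gs : gm (n, m) = gm (m, n) := gm_swap (m, n)
  rw [AT_apply, Ah_apply, tq_sy, sy_apply, hW_apply, aa_eq]
  simp only [tq_apply, Prod.swap_prod_mk, d, t, gs]
  module

/-- the source of `W` has boost weight two -/
theorem r2_hW (c : Cm P P) (h : Ro wH O P) (x : M) (I : I2) :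
    r2 wH O (fun I => hW P I x) I = hW P I (O x) - (2 : ℂ) • hW P I x := by
  have h1 : ∀ y, da P (O y) = O (da P y) + da P y := fun y => by
    simp only [da_apply, h _, map_sum, map_smul, smul_add, Finset.sum_add_distrib]
    simp [wH, va, Fin.sum_univ_four, add_comm]
  have h2 : bx P (O x) = O (bx P x) := by
    simp only [bx_apply, h _, map_sum, map_smul, map_add, smul_add, Finset.sum_add_distrib]
    simp [wH, eta, o, Fin.sum_univ_four, c 0 1]
  obtain ⟨m, n⟩ := I
  simp only [r2_apply, hW_apply, h1, h2, map_add, map_smul, aa_eq]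
  generalize da P (da P x) = y
  generalize bx P x = z
  fin_cases m <;> fin_cases n <;> simp [wH, gm, lo, eta, va, o, Fin.sum_univ_four] <;> module

/-! ## orthogonal projections -/

theorem ex_proj (c : InnerProductSpace.Core ℂ M) (W : Submodule ℂ M) [FiniteDimensional ℂ W]
    (v : M) : ∃ y ∈ W, ∀ x ∈ W, c.inner x (v - y) = 0 := by
  letI := c.toNormedAddCommGroup
  letI : InnerProductSpace ℂ M := InnerProductSpace.ofCore c.toCore
  obtain ⟨y, hy, z, hz, rfl⟩ := W.exists_add_mem_mem_orthogonal v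
  exact ⟨y, hy, fun x hx => by rw [add_sub_cancel_left]; exact hz x hx⟩

theorem fischer (c : InnerProductSpace.Core ℂ M) (W : Submodule ℂ M) [FiniteDimensional ℂ W]
    {n : ℕ} (A A' : Fin n → M →ₗ[ℂ] M) (adj : ∀ i x y, c.inner x (A i y) = c.inner (A' i x) y)
    (h : ∀ i, ∀ x ∈ W, A i x ∈ W) (h' : ∀ i, ∀ x ∈ W, A' i x ∈ W) (v : Fin n → M)
    (hv : ∑ i, A i (v i) ∈ W) : ∃ y : Fin n → M, (∀ i, y i ∈ W) ∧
      ∑ i, A i (v i) = ∑ i, A i (y i) := by
  choose y hy e using fun i => ex_proj c W (v i)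
  letI := c.toNormedAddCommGroup
  letI : InnerProductSpace ℂ M := InnerProductSpace.ofCore c.toCore
  refine ⟨y, hy, sub_eq_zero.1 (inner_self_eq_zero (𝕜 := ℂ).1 ?_)⟩
  have m := W.sub_mem hv (W.sum_mem fun i (_ : i ∈ Finset.univ) => h i _ (hy i))
  generalize hx : ∑ i, A i (v i) - ∑ i, A i (y i) = x at m
  conv_lhs => enter [3]; rw [← hx]
  rw [← Finset.sum_sub_distrib, inner_sum]
  exact Finset.sum_eq_zero fun i _ => by
    rw [← map_sub]
    exact (adj i x _).trans (e i _ (h' i x m))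

set_option warn.classDefReducibility false in
/-- finite products -/
def piC (c : InnerProductSpace.Core ℂ M) (ι : Type) [Fintype ι] :
    InnerProductSpace.Core ℂ (ι → M) where
  inner x y := ∑ i, c.inner (x i) (y i)
  conj_inner_symm x y := by simp only [map_sum, c.conj_inner_symm]
  re_inner_nonneg x := by
    rw [map_sum]
    exact Finset.sum_nonneg fun i _ => c.re_inner_nonneg _
  add_left x y z := by simp only [Pi.add_apply, c.add_left, Finset.sum_add_distrib]
  smul_left x y a := by simp only [Pi.smul_apply, c.smul_left, Finset.mul_sum]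
  definite x h := funext fun i => by
    have h' := congrArg RCLike.re h
    rw [map_sum, map_zero, Finset.sum_eq_zero_iff_of_nonneg fun i _ => c.re_inner_nonneg _] at h'
    refine c.definite _ (Complex.ext (h' i (Finset.mem_univ i)) ?_)
    exact Complex.conj_eq_iff_im.1 (c.conj_inner_symm _ _)

theorem piC_r2 (c : InnerProductSpace.Core ℂ M) {A A' : M →ₗ[ℂ] M}
    (adj : ∀ x y, c.inner x (A y) = c.inner (A' x) y) (x y : I2 → M) :
    (piC c I2).inner x (r2 w A y) = (piC c I2).inner (r2 (fun m n => w n m) A' x) y := by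
  letI := c.toNormedAddCommGroup
  letI : InnerProductSpace ℂ M := InnerProductSpace.ofCore c.toCore
  have adj' : ∀ x y, inner ℂ x (A y) = inner ℂ (A' x) y := adj
  show ∑ I, inner ℂ (x I) (r2 w A y I) = ∑ I, inner ℂ (r2 (fun m n => w n m) A' x I) (y I)
  simp only [r2_apply, inner_add_right, inner_add_left, inner_sum, sum_inner, inner_smul_right,
    inner_smul_left, Complex.conj_ofReal, adj', Finset.sum_add_distrib, Fintype.sum_prod_type]
  congr 2
  · exact (Finset.sum_congr rfl fun _ _ => Finset.sum_comm).trans (Finset.sum_comm.trans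
      (Finset.sum_congr rfl fun _ _ => Finset.sum_comm))
  · exact Finset.sum_congr rfl fun _ _ => Finset.sum_comm

end

end Vale.Agent.P352L.RW
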