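import Vale.Agent.P352L.RES.WFun
import Vale.Agent.P352X.R.RES.CocB

/-!
# P352L, block RESW: test functions
-/

set_option linter.all false

open Filter Topology
open scoped ContDiff

namespace Vale.Agent.P352L.RW

open Vale.Agent.P352 Vale.Agent.P352.GF Vale.Agent.P352X Vale.Agent.P352X.RS Vale.Agent.P352X.RS.Red
open Ko Coc
open MvPolynomial (pderiv)

noncomputable section

/-! ## test functions -/

/-- test functions -/
def DS : Submodule ℂ Tf where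
  carrier := {φ | Dc φ}
  add_mem' h h' := ⟨h.1.add h'.1, h.2.add h'.2⟩
  zero_mem' := dc_zero
  smul_mem' a _ h := ⟨h.1.const_smul a, h.2.mul_left (f := fun _ => a)⟩

/-- the module of test functions -/
def DD : Type := DS

instance : AddCommGroup DD := inferInstanceAs (AddCommGroup DS)
instance : Module ℂ DD := inferInstanceAs (Module ℂ DS)

/-- the underlying function -/
def vl : DD →ₗ[ℂ] Tf where
  toFun φ := φ.1
  map_add' _ _ := rfl
  map_smul' _ _ := rfl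

lemma coe_sum (φ : Ix → DD) (c : Ix → ℂ) (z : V × V) :
    (∑ n, c n • φ n).1 z = ∑ n, c n * (φ n).1 z := by
  show vl (∑ n, c n • φ n) z = _
  simp only [map_sum, map_smul, Finset.sum_apply]
  rfl

/-- vanishing near the origin -/
def ZZ : Submodule ℂ DD where
  carrier := {φ | ∀ᶠ z in 𝓝 (0 : V × V), φ.1 z = 0}
  add_mem' h h' := by
    filter_upwards [h, h'] with z a b
    exact (congrArg₂ (· + ·) a b).trans (add_zero _)
  zero_mem' := .of_forall fun _ => rfl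
  smul_mem' c _ h := by
    filter_upwards [h] with z a
    exact (congrArg (c * ·) a).trans (mul_zero _)

/-- vector fields -/
def vf (X : V × V → V × V) (hX : ContDiff ℝ ∞ X) : DD →ₗ[ℂ] DD :=
  mkL (fun φ => ⟨fun z => fderiv ℝ φ.1 z (X z), dc_fderiv φ.2 hX⟩) fun φ ψ a =>
    Subtype.ext (funext fun z => fderiv_lin φ.2 a ψ.2 z _)

def dr (y : V × V) : DD →ₗ[ℂ] DD := vf (fun _ => y) contDiff_const
def lv (A : V × V →L[ℝ] V × V) : DD →ₗ[ℂ] DD := vf A A.contDiff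
def cm (σ : V × V →L[ℝ] V × V) (h : ∀ x, σ (σ x) = x) : DD →ₗ[ℂ] DD :=
  mkL (fun φ => ⟨fun z => φ.1 (σ z), dc_comp φ.2 σ h⟩) fun _ _ _ => rfl
def ee : Fin 3 → V → V × V := ![e1, e2, e3]
def PP (i : Fin 3) : Op DD := fun m => dr (ee i (bas m 1))

lemma snd_c {F : Tf} (h : Dc F) (a x v : V × V) :
    fderiv ℝ (fun y => fderiv ℝ F y a) x v = fderiv ℝ (fderiv ℝ F) x v a := by
  simpa using fderiv_vf h 0 a x v

lemma dr_comm (y y' : V × V) (φ : DD) : dr y (dr y' φ) = dr y' (dr y φ) :=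
  Subtype.ext (funext fun z => (snd_c φ.2 _ _ _).trans ((snd_symm φ.2 _ _ _).trans
    (snd_c φ.2 _ _ _).symm))

lemma dr_lv (y : V × V) (A : V × V →L[ℝ] V × V) (φ : DD) :
    dr y (lv A φ) = lv A (dr y φ) + dr (A y) φ := Subtype.ext (funext fun z => by
  have := fderiv_vf φ.2 A 0 z y
  simp only [add_zero] at this
  exact this.trans (congrArg (· + _) ((snd_symm φ.2 _ _ _).trans (snd_c φ.2 _ _ _).symm)))

lemma dr_sum (c : V) (y : Ix → V × V) (φ : DD) :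
    dr (∑ n, c n • y n) φ = ∑ n, (c n : ℂ) • dr (y n) φ := Subtype.ext (funext fun z => by
  rw [coe_sum]
  exact (map_sum _ _ _).trans (Finset.sum_congr rfl fun _ _ => map_smul _ _ _))

lemma cm_dr (σ : V × V →L[ℝ] V × V) (h : ∀ x, σ (σ x) = x) (y : V × V) (φ : DD) :
    cm σ h (dr y φ) = dr (σ y) (cm σ h φ) := Subtype.ext (funext fun z =>
  ((fderiv_comp_clm (dc_diff φ.2) σ z (σ y)).trans (by rw [h]; rfl)).symm)

lemma ee_sum (i : Fin 3) (x : V) : ee i x = ∑ n, x n • ee i (bas n 1) := by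
  fin_cases i <;> ext k <;> simp [ee, e1, e2, e3, bas, Prod.fst_sum, Prod.snd_sum]

lemma da_PP (i : Fin 3) (φ : DD) : da (PP i) φ = dr (ee i va) φ := by
  rw [ee_sum, dr_sum, da_apply]
  rfl

variable {σ : I2 → Tf → ℂ} {σ' : I2 → DD →ₗ[ℂ] ℂ}

lemma Ct_eq (i : Fin 3) (h : ∀ I φ, σ I φ.1 = σ' I φ) (a : I3) (φ : DD) :
    Ct (ee i) σ a φ.1 = CtL (PP i) σ' a φ := by
  simp only [CtL_apply, BtL_apply, ← h]
  rfl

lemma Wt_eq (i : Fin 3) (h : ∀ I φ, σ I φ.1 = σ' I φ) (φ : DD) :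
    Wt (ee i) σ φ.1 = WtL (PP i) σ' φ := by
  have b : Bx (ee i) φ.1 = (bx (PP i) φ).1 := funext fun z => by
    rw [bx_apply, coe_sum]
    rfl
  simp only [WtL_apply, hW_apply, da_PP, map_add, map_smul, smul_eq_mul, Finset.sum_add_distrib,
    mul_assoc, ← Finset.mul_sum]
  simp only [← h, ← b]
  rfl

/-- multiplication by a polynomial -/
def mu {φ : Tf} (h : Dc φ) : P20 →ₗ[ℂ] DD :=
  mkL (fun S => ⟨fun z => φ z * ev8 S z, h.1.mul (ev8_smooth S), h.2.mul_right⟩) fun S T a =>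
    Subtype.ext (funext fun z => by
      show φ z * _ = φ z * _ + a * (φ z * _)
      rw [ev8_add, ← MvPolynomial.C_mul', ev8_mul, ev8_C]
      ring)

lemma vf_mu {φ : Tf} (h : Dc φ) {X : V × V → V × V} (hX : ContDiff ℝ ∞ X) (S : P20) (z : V × V) :
    (vf X hX (mu h S)).1 z = φ z * fderiv ℝ (ev8 S) z (X z) + fderiv ℝ φ z (X z) * ev8 S z := by
  show fderiv ℝ (fun z => φ z * ev8 S z) z (X z) = _
  rw [fderiv_fun_mul (dc_diff h z) (ev8_diff S z)]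
  simp [mul_comm]

lemma mu_vf {φ : Tf} (h : Dc φ) {κ : ℂ} (h0 : ∀ᶠ z in 𝓝 (0 : V × V), φ z = κ) {X : V × V → V × V}
    (hX : ContDiff ℝ ∞ X) {S T : P20} (e : ∀ z, ev8 T z = fderiv ℝ (ev8 S) z (X z)) :
    mu h T - vf X hX (mu h S) ∈ ZZ := by
  filter_upwards [fderiv_ev h0 X] with z a
  show φ z * ev8 T z - (vf X hX (mu h S)).1 z = 0
  rw [vf_mu, a, ← e, zero_mul, add_zero, sub_self]

lemma mu_cm {φ : Tf} (h : Dc φ) {κ : ℂ} (h0 : ∀ᶠ z in 𝓝 (0 : V × V), φ z = κ)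
    {σ : V × V →L[ℝ] V × V} (hσ : ∀ x, σ (σ x) = x) {S T : P20} (e : ∀ z, ev8 T z = ev8 S (σ z)) :
    mu h T - cm σ hσ (mu h S) ∈ ZZ := by
  filter_upwards [h0, ev_comp h0 σ] with z a b
  show φ z * ev8 T z - φ (σ z) * ev8 S (σ z) = 0
  rw [a, b, e, sub_self]

lemma ev8_QQ (i : Fin 3) (m : Ix) (S : P20) (z : V × V) :
    ev8 (QQ i m S) z = fderiv ℝ (ev8 S) z (ee i (bas m 1)) := by
  have a : ∀ x y : V, fderiv ℝ (ev8 S) z (x, y) = ∑ n, x n * ev8 (pderiv (3, n) S) z +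
      ∑ n, y n * ev8 (pderiv (4, n) S) z := fun x y => by
    simp [ev8_der, cv, Fintype.sum_prod_type, Fin.sum_univ_five]
  have b : ev8 (Q2 m S) z = -(ev8 (pderiv (3, m) S) z + ev8 (pderiv (4, m) S) z) := by
    rw [← ev8_add]
    exact map_neg _ _
  fin_cases i
  · exact Eq.trans (by simp [bas, apply_ite Complex.ofReal]; rfl) (a _ _).symm
  · exact b.trans (Eq.trans (by simp [bas, apply_ite Complex.ofReal, add_comm]) (a _ _).symm)
  · exact Eq.trans (by simp [bas, apply_ite Complex.ofReal]; rfl) (a _ _).symm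

variable {τ : I2 → I2 → I2 → Tf → ℂ} (R : RDW τ)

/-- the linear functionals -/
def tL (I J K : I2) : DD →ₗ[ℂ] ℂ := mkL (fun φ => τ I J K φ.1) fun φ ψ a => R.lin I J K _ _ a φ.2 ψ.2

lemma tL_apply (I J K : I2) (φ : DD) : tL R I J K φ = τ I J K φ.1 := rfl
lemma tL_a (I J K : I2) (φ : DD) : tL R I J K (cm σ12 σ12_inv φ) = tL R J I K φ := R.s12 _ _ _ _ φ.2
lemma tL_b (I J K : I2) (φ : DD) : tL R I J K (cm σ13 σ13_inv φ) = tL R K J I φ := R.s13 _ _ _ _ φ.2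
lemma tL_1 (I : I2) : tL R I.swap = tL R I :=
  funext fun J => funext fun K => LinearMap.ext fun φ => congrFun (R.ind I J K) _
lemma tL_2 (I J : I2) : tL R I J.swap = tL R I J :=
  funext fun K => LinearMap.ext fun φ => by rw [← tL_a, tL_1, tL_a]
lemma tL_3 (I J K : I2) : tL R I J K.swap = tL R I J K :=
  LinearMap.ext fun φ => by rw [← tL_b, tL_1, tL_b]

lemma cm_PP (i k : Fin 3) : Cm (PP i) (PP k) := fun _ _ => dr_comm _ _

lemma tt_B3 (G : I3 → I3 → I3 → DD) :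
    t3 (tL R) (B3 (PP 0) (PP 1) (PP 2) G) = ∑ a, ∑ b, ∑ c, LC τ a b c (G a b c).1 := by
  have e : ∀ a b c (φ : DD), LC τ a b c φ.1 = CtL (PP 0) (fun I => CtL (PP 1)
      (fun J => CtL (PP 2) (tL R I J) c) b) a φ := fun a b c =>
    Ct_eq 0 (fun I => Ct_eq 1 (fun J => Ct_eq 2 (fun _ _ => rfl) c) b) a
  simp only [e, t3_B3 cm_PP (tL_1 R) (tL_2 R) (tL_3 R)]

lemma DW_eq (n : Ix) (b c : I3) (φ : DD) :
    DW τ n b c φ.1 = CtL (PP 1) (fun J => CtL (PP 2) (DL (tL R) (PP 0) n J) c) b φ :=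
  Ct_eq 1 (fun J => Ct_eq 2 (fun K φ => (DL_apply (τ := tL R) (P := PP 0) n J K φ).symm) c) b φ

lemma tt_ga (G : Ix → I3 → I3 → DD) :
    t3 (tL R) (B3 (PP 0) (PP 1) (PP 2) (ga3 G)) = ∑ n, ∑ b, ∑ c, DW τ n b c (G n b c).1 := by
  simp only [DW_eq R, t3_ga cm_PP (tL_1 R) (tL_2 R) (tL_3 R)]

lemma TW_eq (φ : DD) : TW τ φ.1 = t3 (tL R) (h3 PP φ) :=
  (Wt_eq 0 (fun I => Wt_eq 1 fun J => Wt_eq 2 (σ' := tL R I J) fun _ _ => rfl) φ).trans
    (t3_h3 φ).symm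

lemma AX_ee (w : Ix → V) (i : Fin 3) (m : Ix) : AX w (ee i (bas m 1)) = ee i (w m) := by
  have : ∀ z, AX w z = (sim 1 w 0 z.1, sim 1 w 0 z.2) := fun _ => rfl
  rw [this]
  fin_cases i <;> ext k <;> simp [ee, e1, e2, e3, bas, sim]

lemma ro_PP (i : Fin 3) (w : Ix → V) : Ro w (lv (AX w)) (PP i) := fun m φ => by
  rw [PP, dr_lv, AX_ee, ee_sum i (w m), dr_sum]
  rfl

lemma σ12_ee (i : Fin 3) (x : V) : σ12 (ee i x) = ee (![1, 0, 2] i) x := by
  fin_cases i <;> simp [ee, e1, e2, e3, σ12_apply]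

lemma σ13_ee (i : Fin 3) (x : V) : σ13 (ee i x) = ee (![2, 1, 0] i) x := by
  fin_cases i <;> simp [ee, e1, e2, e3, σ13_apply]

lemma lv_id (φ : DD) : (lv (.id ℝ _) φ).1 = Ef φ.1 := rfl
lemma lv_AX (w : Ix → V) (φ : DD) : (lv (AX w) φ).1 = Xf w φ.1 := rfl
lemma cm_coe (σ : V × V →L[ℝ] V × V) (h : ∀ x, σ (σ x) = x) (φ : DD) :
    (cm σ h φ).1 = fun z => φ.1 (σ z) := rfl

lemma lv_cm (σ : V × V →L[ℝ] V × V) (h : ∀ x, σ (σ x) = x) (φ : DD) :
    lv (.id ℝ _) (cm σ h φ) = cm σ h (lv (.id ℝ _) φ) := Subtype.ext (by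
  rw [lv_id, cm_coe, cm_coe, lv_id, Ef_comp (dc_diff φ.2)])

lemma lv_lv (w : Ix → V) (φ : DD) : lv (.id ℝ _) (lv (AX w) φ) = lv (AX w) (lv (.id ℝ _) φ) :=
  Subtype.ext (by rw [lv_id, lv_AX, lv_AX, lv_id, Xf_eq, Xf_eq, Ef_vf φ.2])

lemma vf_Z {X : V × V → V × V} (hX : ContDiff ℝ ∞ X) {φ : DD} (h : φ ∈ ZZ) : vf X hX φ ∈ ZZ :=
  fderiv_ev (F := φ.1) h X

lemma PP_E (i : Fin 3) (m : Ix) (φ : DD) :
    PP i m (lv (.id ℝ _) φ) = lv (.id ℝ _) (PP i m φ) + PP i m φ := by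
  rw [PP, dr_lv, ContinuousLinearMap.id_apply]

lemma PP_a (i : Fin 3) : It (cm σ12 σ12_inv) (PP i) (PP (![1, 0, 2] i)) := fun m φ => by
  rw [PP, PP, cm_dr, σ12_ee]

lemma PP_b (i : Fin 3) : It (cm σ13 σ13_inv) (PP i) (PP (![2, 1, 0] i)) := fun m φ => by
  rw [PP, PP, cm_dr, σ13_ee]

lemma PP_Z (i : Fin 3) (m : Ix) (φ : DD) (h : φ ∈ ZZ) : PP i m φ ∈ ZZ := vf_Z contDiff_const h

lemma tL_inv {w : Ix → V} (hw : So w) (I J K : I2) (φ : DD) : tL R I J K (lv (AX w) φ) +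
    (∑ L, l2 w L I * tL R L J K φ + ∑ L, l2 w L J * tL R I L K φ +
      ∑ L, l2 w L K * tL R I J L φ) = 0 := by
  simp only [tL_apply, lv_AX]
  exact R.inv w I J K φ.1 hw φ.2

include R in
lemma LC_hom (a b c : I3) (φ : DD) (h : φ ∈ ZZ) :
    LC τ a b c (lv (.id ℝ _) φ).1 = 7 * LC τ a b c φ.1 := by
  rw [lv_id]
  exact R.hom a b c _ φ.2 (notMem_tsupport_iff_eventuallyEq.2 h)

/-- the structure of test functions -/
def st : St DD where
  P := PP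
  O w := lv (AX w)
  E := lv (.id ℝ _)
  a := cm σ12 σ12_inv
  b := cm σ13 σ13_inv
  Z := ZZ
  t := t3 (tL R)
  c := cm_PP
  r := ro_PP
  e := PP_E
  eO := lv_lv
  ea := lv_cm _ _
  eb := lv_cm _ _
  ia := PP_a
  ib := PP_b
  z := PP_Z
  inv w F hw := t3_om (tL_inv R hw) F
  ta := t3_a (tL_a R)
  tb := t3_b (tL_b R)
  hom G h := by
    rw [tt_B3, tt_B3]
    simp only [Finset.mul_sum]
    exact Finset.sum_congr rfl fun a _ => Finset.sum_congr rfl fun b _ => Finset.sum_congr rfl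
      fun c _ => LC_hom R a b c _ (h a b c)

end

end Vale.Agent.P352L.RW
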