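import Vale.Agent.P352L.RES.WPol

/-!
# P352L, block RESW: the Fischer product, the source of `W W W`, the certificate
-/

set_option linter.all false

namespace Vale.Agent.P352L.RW

open Vale.Agent.P352 Vale.Agent.P352.GF Vale.Agent.P352X Vale.Agent.P352X.RS Vale.Agent.P352X.RS.Red
open Ko Coc
open MvPolynomial (X C pderiv aeval monomial coeff)
open scoped ComplexConjugate

noncomputable section

/-! ## the Fischer product -/

def fw (α : Fin 5 × Ix →₀ ℕ) : ℝ := ∏ i, ((α i).factorial : ℝ)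

lemma fw_pos (α : Fin 5 × Ix →₀ ℕ) : 0 < fw α :=
  Finset.prod_pos fun _ _ => Nat.cast_pos.2 (Nat.factorial_pos _)

/-- the bilinear pairing -/
def fb : P20 →ₗ[ℂ] P20 →ₗ[ℂ] ℂ :=
  (MvPolynomial.basisMonomials (Fin 5 × Ix) ℂ).constr ℂ fun α =>
    (fw α : ℂ) • MvPolynomial.lcoeff ℂ α

lemma fb_mon (α : Fin 5 × Ix →₀ ℕ) (a : ℂ) (w : P20) :
    fb (monomial α a) w = a * (fw α * coeff α w) := by
  have := (MvPolynomial.basisMonomials (Fin 5 × Ix) ℂ).constr_basis ℂ
    (fun α => (fw α : ℂ) • MvPolynomial.lcoeff ℂ α) α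
  rw [show monomial α a = a • monomial α (1 : ℂ) by simp [MvPolynomial.smul_monomial], map_smul]
  exact congrArg (fun l : P20 →ₗ[ℂ] ℂ => a * l w) this

lemma fw_add (α : Fin 5 × Ix →₀ ℕ) (i : Fin 5 × Ix) :
    fw (α + Finsupp.single i 1) = (α i + 1) * fw α := by
  rw [fw, fw, ← Finset.mul_prod_erase _ _ (Finset.mem_univ i),
    ← Finset.mul_prod_erase _ _ (Finset.mem_univ i), Finset.prod_congr rfl fun j hj => by
      rw [Finsupp.add_apply, Finsupp.single_eq_of_ne (Finset.ne_of_mem_erase hj), add_zero]]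
  simp [Nat.factorial_succ, mul_assoc]

lemma fb_adj (i : Fin 5 × Ix) (q w : P20) : fb (X i * q) w = fb q (pderiv i w) := by
  induction q using MvPolynomial.induction_on' with
  | monomial α a =>
    rw [mul_comm, ← pow_one (X i : P20), ← MvPolynomial.monomial_add_single, fb_mon, fb_mon, fw_add,
      MvPolynomial.coeff_pderiv]
    push_cast
    ring
  | add p q hp hq => simp only [mul_add, map_add, LinearMap.add_apply, hp, hq]

lemma fb_symm (q w : P20) : fb q w = fb w q := by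
  classical
  induction q using MvPolynomial.induction_on' with
  | add p q hp hq => simp only [map_add, LinearMap.add_apply, hp, hq]
  | monomial α a =>
    induction w using MvPolynomial.induction_on' with
    | add p q hp hq => simp only [map_add, LinearMap.add_apply, hp, hq]
    | monomial β b =>
      rw [fb_mon, fb_mon, MvPolynomial.coeff_monomial, MvPolynomial.coeff_monomial]
      by_cases h : α = β
      · simp [h]
        ring
      · simp [h, Ne.symm h]

/-- conjugation of the coefficients -/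
def cj : P20 →+* P20 := MvPolynomial.map (starRingEnd ℂ)

lemma fb_cj (p q : P20) : conj (fb (cj p) q) = fb p (cj q) := by
  induction p using MvPolynomial.induction_on' with
  | monomial α a => simp [cj, fb_mon, MvPolynomial.coeff_map]
  | add p q hp hq => simp only [map_add, LinearMap.add_apply, hp, hq]

lemma fb_self (p : P20) : fb (cj p) p =
    ((∑ α ∈ p.support, fw α * Complex.normSq (coeff α p) : ℝ) : ℂ) := by
  conv_lhs => enter [1]; rw [p.as_sum]
  simp only [map_sum, LinearMap.sum_apply, cj, MvPolynomial.map_monomial, fb_mon,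
    Complex.ofReal_sum, Complex.ofReal_mul, Complex.normSq_eq_conj_mul_self]
  exact Finset.sum_congr rfl fun _ _ => by ring

set_option warn.classDefReducibility false in
/-- the Fischer product -/
def fis : InnerProductSpace.Core ℂ P20 where
  inner p q := fb (cj p) q
  conj_inner_symm p q := by rw [fb_cj, fb_symm]
  re_inner_nonneg p := by
    rw [fb_self]
    exact (Finset.sum_nonneg fun _ _ => mul_nonneg (fw_pos _).le (Complex.normSq_nonneg _) :)
  add_left p q r := by simp only [map_add, LinearMap.add_apply]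
  smul_left p q a := by
    rw [← MvPolynomial.C_mul', map_mul, cj, MvPolynomial.map_C, MvPolynomial.C_mul', map_smul]
    rfl
  definite p h := by
    rw [fb_self, Complex.ofReal_eq_zero, Finset.sum_eq_zero_iff_of_nonneg fun _ _ =>
      mul_nonneg (fw_pos _).le (Complex.normSq_nonneg _)] at h
    refine MvPolynomial.ext _ _ fun α => by_contra fun hα => hα ?_
    exact Complex.normSq_eq_zero.1 ((mul_eq_zero.1 (h α (MvPolynomial.mem_support_iff.2
      hα))).resolve_left (fw_pos _).ne')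

lemma fis_om (w : Ix → V) (p q : P20) :
    fis.inner p (omL w q) = fis.inner (omL (fun m n => w n m) p) q := by
  have c : cj (om (fun m n => w n m) p) = om (fun m n => w n m) (cj p) := by
    simp only [om, map_sum, map_mul, cj, MvPolynomial.map_C, MvPolynomial.map_X,
      MvPolynomial.pderiv_map, Complex.conj_ofReal]
  show fb (cj p) _ = fb (cj _) q
  rw [omL_eq, omL_eq, c]
  simp only [om, map_sum, LinearMap.sum_apply, MvPolynomial.C_mul', smul_mul_assoc, map_smul,
    LinearMap.smul_apply, fb_adj, fb_symm (cj p)]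
  refine Finset.sum_congr rfl fun j _ => Finset.sum_comm.trans ?_
  exact Finset.sum_congr rfl fun _ _ => Finset.sum_congr rfl fun _ _ => by rw [fb_symm]

lemma so_tr {w : Ix → V} (h : So w) : So fun m n => w n m := fun m n => by
  have := so_c h n m
  have e : (eta n : ℂ) * w n m = -(eta m * w m n) := this
  exact_mod_cast e

lemma ro_1 (w : Ix → V) : Ro w (omL w) Q1 := ro_pd w 3
lemma ro_3 (w : Ix → V) : Ro w (omL w) Q3 := ro_pd w 4

lemma om_mem {N : ℕ} (hN : 1 ≤ N) (w : Ix → V) {S : P20}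
    (h : S ∈ MvPolynomial.restrictTotalDegree _ ℂ N) :
    omL w S ∈ MvPolynomial.restrictTotalDegree _ ℂ N := by
  rw [← S.sum_homogeneousComponent, map_sum]
  refine Submodule.sum_mem _ fun n hn => ?_
  rw [omL_eq]
  refine Submodule.sum_mem _ fun j _ => Submodule.sum_mem _ fun m _ => Submodule.sum_mem _
    fun k _ => (MvPolynomial.mem_restrictTotalDegree _ _ _).2 ?_
  have := (MvPolynomial.mem_restrictTotalDegree _ _ _).1 h
  have := Finset.mem_range.1 hn
  exact (((MvPolynomial.isHomogeneous_C _ _).mul (MvPolynomial.isHomogeneous_X _ _)).mul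
    (MvPolynomial.homogeneousComponent_isHomogeneous n S).pderiv).totalDegree_le.trans (by omega)

/-- a sum of variations in the image of `B3` is a sum of variations of images -/
theorem om_split' {M : Type} [AddCommGroup M] [Module ℂ M] (c : InnerProductSpace.Core ℂ M)
    {P1 P2 P3 : Op M} (O : (Ix → V) → M →ₗ[ℂ] M) (r1 : ∀ w, Ro w (O w) P1) (r2 : ∀ w, Ro w (O w) P2)
    (r3 : ∀ w, Ro w (O w) P3) (adj : ∀ w p q, c.inner p (O w q) = c.inner (O (fun m n => w n m) p) q)
    (U : Submodule ℂ M) [Module.Finite ℂ U] (hU : ∀ w, ∀ x ∈ U, O w x ∈ U) {n : ℕ}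
    {w : Fin n → Ix → V} (hw : ∀ i, So (w i)) (v : Fin n → I2 → I2 → I2 → M)
    (Q : I3 → I3 → I3 → M) (hQ : ∀ a b c, Q a b c ∈ U)
    (h : ∑ i, omF (w i) (O (w i)) (v i) = B3 P1 P2 P3 Q) :
    ∃ q : Fin n → I3 → I3 → I3 → M, B3 P1 P2 P3 (Q - ∑ i, omQ (w i) (O (w i)) (q i)) = 0 := by
  let ι : (I3 → I3 → I3 → U) →ₗ[ℂ] I3 → I3 → I3 → M :=
    ((U.subtype.compLeft I3).compLeft I3).compLeft I3
  have k : ∀ w, So w → ∀ x ∈ LinearMap.range (B3 P1 P2 P3 ∘ₗ ι),
      omF w (O w) x ∈ LinearMap.range (B3 P1 P2 P3 ∘ₗ ι) := by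
    rintro w hw _ ⟨y, rfl⟩
    refine ⟨omQ w ((O w).restrict (hU w)) y, ?_⟩
    rw [LinearMap.comp_apply, LinearMap.comp_apply, ← B3_om hw (r1 w) (r2 w) (r3 w)]
    exact congrArg _ (map_r3 (map_r3 (map_r3 (f := U.subtype) (O := (O w).restrict (hU w))
      (O' := O w) fun _ => rfl)) y)
  obtain ⟨y, hy, e⟩ := fischer (piC (piC (piC c I2) I2) I2) (LinearMap.range (B3 P1 P2 P3 ∘ₗ ι))
    (fun i => omF (w i) (O (w i))) (fun i => omF (fun m n => w i n m) (O fun m n => w i n m))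
    (fun i => piC_r2 _ (piC_r2 _ (piC_r2 _ (adj (w i))))) (fun i => k _ (hw i))
    (fun i => k _ (so_tr (hw i))) v ⟨fun a b c => ⟨Q a b c, hQ a b c⟩, h.symm⟩
  choose q hq using hy
  refine ⟨fun i => ι (q i), ?_⟩
  rw [map_sub, ← h, e, map_sum, sub_eq_zero]
  exact Finset.sum_congr rfl fun i _ => by
    rw [B3_om (hw i) (r1 _) (r2 _) (r3 _), ← hq, LinearMap.comp_apply]

theorem om_split {n : ℕ} {w : Fin n → Ix → V} (hw : ∀ i, So (w i)) (v : Fin n → I2 → I2 → I2 → P20)
    (Q : I3 → I3 → I3 → P20) (h : ∑ i, omF (w i) (omL (w i)) (v i) = B3 Q1 Q2 Q3 Q) :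
    ∃ q : Fin n → I3 → I3 → I3 → P20, B3 Q1 Q2 Q3 (Q - ∑ i, omQ (w i) (omL (w i)) (q i)) = 0 := by
  obtain ⟨N, hN⟩ := (Set.finite_range fun x : I3 × I3 × I3 =>
    (Q x.1 x.2.1 x.2.2).totalDegree).bddAbove
  exact om_split' fis omL ro_1 ro_2 ro_3 fis_om (MvPolynomial.restrictTotalDegree _ ℂ (N + 1))
    (fun w x => om_mem (Nat.succ_pos N) w) hw v Q (fun a b c =>
      (MvPolynomial.mem_restrictTotalDegree _ _ _).2 ((hN ⟨(a, b, c), rfl⟩).trans N.le_succ)) h

/-! ## the source -/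

/-- `al u - al v` -/
def el : P20 := linP vb 3 - linP vb 4

lemma p3_el (m : Ix) : pderiv (3, m) el = C ((eta m * vb m : ℝ) : ℂ) := by
  rw [el, map_sub, Link.pd_lin, Link.fr_lin (by decide), sub_zero]
lemma p4_el (m : Ix) : pderiv (4, m) el = -C ((eta m * vb m : ℝ) : ℂ) := by
  rw [el, map_sub, Link.pd_lin, Link.fr_lin (by decide), zero_sub]

lemma hW_el {P : Op P20} (d : Ix → Derivation ℂ P20 P20) (e : ∀ m S, P m S = d m S) {l : ℂ}
    (hl : ∀ m, d m el = C (l * (eta m * vb m : ℝ))) {R : P20} (h0 : d 0 R = 0) (h1 : d 1 R = 0)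
    (k : ℕ) (I : I2) : hW P I (R * el ^ (k + 2)) = (gm I * ((k + 2) * (k + 1) * l ^ 2)) •
      (R * el ^ k) + (3 * aa I) • (-(d 2 (d 2 R) + d 3 (d 3 R)) * el ^ (k + 2)) := by
  have p : ∀ m (k : ℕ), d m (el ^ (k + 1)) = ((k + 1 : ℂ) * l * (eta m * vb m : ℝ)) • el ^ k :=
    fun m k => by
      rw [Derivation.leibniz_pow, hl, ← MvPolynomial.C_mul']
      simp only [Nat.add_sub_cancel, smul_eq_mul, nsmul_eq_mul, map_mul, map_add, map_natCast,
        map_one, Nat.cast_add, Nat.cast_one]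
      ring
  have p0 : ∀ k : ℕ, d 0 (R * el ^ (k + 1)) = ((k + 1 : ℂ) * l / 2) • (R * el ^ k) := fun k => by
    rw [Derivation.leibniz, p, h0, smul_zero, add_zero, smul_eq_mul, mul_smul_comm]
    simp [vb, eta, o, div_eq_mul_inv]
  have p1 : ∀ k : ℕ, d 1 (R * el ^ (k + 1)) = ((k + 1 : ℂ) * l / 2) • (R * el ^ k) := fun k => by
    rw [Derivation.leibniz, p, h1, smul_zero, add_zero, smul_eq_mul, mul_smul_comm]
    simp [vb, eta, o, div_eq_mul_inv]
  have p2 : ∀ S, d 2 (S * el ^ (k + 2)) = d 2 S * el ^ (k + 2) := fun S => by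
    rw [Derivation.leibniz, p]
    simp [vb, mul_comm]
  have p3 : ∀ S, d 3 (S * el ^ (k + 2)) = d 3 S * el ^ (k + 2) := fun S => by
    rw [Derivation.leibniz, p]
    simp [vb, mul_comm]
  have a : ∀ S, da P S = d 0 S + d 1 S := fun S => by simp [da_apply, e, Fin.sum_univ_four, va]
  have b : ∀ S, bx P S = d 0 (d 0 S) - d 1 (d 1 S) - d 2 (d 2 S) - d 3 (d 3 S) := fun S => by
    simp [bx_apply, e, Fin.sum_univ_four, eta, o, sub_eq_add_neg]
  simp only [hW_apply, a, b, p0, p1, p2, p3, map_add, Derivation.map_smul, neg_mul, add_mul]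
  push_cast
  module

/-- `Re (U^2 conj(V)^2)` and `Re (U conj(V))` -/
def Rb : P20 := (X (3, 2) ^ 2 - X (3, 3) ^ 2) * (X (4, 2) ^ 2 - X (4, 3) ^ 2) +
  4 * X (3, 2) * X (3, 3) * X (4, 2) * X (4, 3)
def Ra : P20 := X (3, 2) * X (4, 2) + X (3, 3) * X (4, 3)

lemma d_four (d : Derivation ℂ P20 P20) : d 4 = 0 := d.map_natCast 4
lemma d_two (d : Derivation ℂ P20 P20) : d 2 = 0 := d.map_natCast 2

lemma hW_1 (I : I2) : hW Q1 I PW = (30 * gm I) • (Rb * el ^ 4) := by
  have := hW_el (P := Q1) (l := 1) (R := Rb) (fun m => pderiv (3, m)) (fun _ _ => rfl)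
    (fun m => by rw [p3_el, one_mul]) (by simp [Rb, pd_X', d_four]) (by simp [Rb, pd_X', d_four]) 4 I
  rw [show pderiv (3, 2) (pderiv (3, 2) Rb) + pderiv (3, 3) (pderiv (3, 3) Rb) = 0 by
    simp [Rb, pd_X', d_four, d_two]] at this
  refine this.trans ?_
  simp only [neg_zero, zero_mul, smul_zero, add_zero]
  congr 1
  push_cast
  ring

lemma hW_2 (I : I2) : hW Q2 I (Rb * el ^ 4) = (-48 * aa I) • (Ra * el ^ 4) := by
  have := hW_el (P := Q2) (l := 0) (R := Rb) dQ2 dQ2_eq
    (fun m => by simp [dQ2, p3_el, p4_el]) (by simp [dQ2, Rb, pd_X', d_four])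
    (by simp [dQ2, Rb, pd_X', d_four]) 2 I
  rw [show dQ2 2 (dQ2 2 Rb) + dQ2 3 (dQ2 3 Rb) = (16 : ℂ) • Ra by
    simp [dQ2, Rb, Ra, pd_X', d_four, d_two, MvPolynomial.smul_eq_C_mul, map_ofNat]
    ring] at this
  refine this.trans ?_
  simp only [neg_mul, smul_mul_assoc]
  module

lemma hW_3 (I : I2) : hW Q3 I (Ra * el ^ 4) = (12 * gm I) • Link.Q0 := by
  have := hW_el (P := Q3) (l := -1) (R := Ra) (fun m => pderiv (4, m)) (fun _ _ => rfl)
    (fun m => by rw [p4_el, neg_one_mul, map_neg]) (by simp [Ra, pd_X']) (by simp [Ra, pd_X']) 2 I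
  rw [show pderiv (4, 2) (pderiv (4, 2) Ra) + pderiv (4, 3) (pderiv (4, 3) Ra) = 0 by
    simp [Ra, pd_X']] at this
  refine this.trans ?_
  simp only [neg_zero, zero_mul, smul_zero, add_zero]
  congr 1
  push_cast
  ring

theorem hW_PW (I J K : I2) : hW Q3 K (hW Q2 J (hW Q1 I PW)) = (-2160 : ℂ) • cp S0 I J K := by
  have z : z0 Link.Q0 = Link.Q0 := by simp [Link.Q0, linP, z0]
  have c1 : ∀ I, Link.c1 I = 2 * gm I := fun I => by simp [Link.c1, gm]
  have c2 : ∀ I, Link.c2 I = 2 * aa I := fun I => by simp [Link.c2, aa]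
  rw [hW_1, map_smul, hW_2, map_smul, map_smul, hW_3, cp_apply, Link.d6_S0, MvPolynomial.C_mul',
    map_smul, z, c1, c1, c2]
  module

theorem om_PW : om wH PW = (6 : ℂ) • PW := by
  have a : omD wH el = el := by
    simp [el, linP, om_X, wH, vb, eta, o, Fin.sum_univ_four]
    ring
  have b : omD wH Rb = 0 := by simp [Rb, om_X, wH, Fin.sum_univ_four, d_four]
  rw [omD_eq, show PW = Rb * el ^ 6 from rfl, Derivation.leibniz, Derivation.leibniz_pow, a, b]
  simp [MvPolynomial.smul_eq_C_mul, map_ofNat]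
  ring

theorem deg_PW : Deg 10 PW := by
  have x : ∀ m, Deg 1 (X (3, m)) := fun m => deg_X (3, m)
  have y : ∀ m, Deg 1 (X (4, m)) := fun m => deg_X (4, m)
  have s : ∀ {n : ℕ} {S : P20} (k : ℕ), Deg n S → Deg (k * n) (S ^ k) := fun k h =>
    MvPolynomial.IsWeightedHomogeneous.pow h k
  have f : Deg 0 4 := MvPolynomial.isWeightedHomogeneous_C _ (4 : ℂ)
  exact deg_mul (deg_add (deg_mul (deg_sub (s 2 (x 2)) (s 2 (x 3))) (deg_sub (s 2 (y 2)) (s 2 (y 3)))
    rfl) (deg_mul (deg_mul (deg_mul (deg_mul f (x 2) rfl) (x 3) rfl) (y 2) rfl) (y 3) rfl))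
    (s 6 (deg_sub (deg_sum _ fun m _ => deg_C_mul _ (x m)) (deg_sum _ fun m _ =>
      deg_C_mul _ (y m)))) rfl

end

end Vale.Agent.P352L.RW
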