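import Vale.Agent.P352L.RES.WKey

/-!
# P352L, block RESW: functionals on modules
-/

set_option linter.all false

open Filter Topology
open scoped ContDiff

namespace Vale.Agent.P352L.RW

open Vale.Agent.P352 Vale.Agent.P352.GF Vale.Agent.P352X Vale.Agent.P352X.RS Vale.Agent.P352X.RS.Red
open Ko Coc
open MvPolynomial (pderiv)

noncomputable section

variable {M N : Type} [AddCommGroup M] [Module ℂ M] [AddCommGroup N] [Module ℂ N]

def mkL (F : M → N) (h : ∀ x y (a : ℂ), F (x + a • y) = F x + a • F y) : M →ₗ[ℂ] N where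
  toFun := F
  map_add' x y := by simpa using h x y 1
  map_smul' a x := by
    have h0 : F 0 = 0 := by simpa using h 0 0 1
    simpa [h0] using h 0 x a

/-- the pairing -/
def pr (σ : I2 → M →ₗ[ℂ] ℂ) : (I2 → M) →ₗ[ℂ] ℂ := ∑ I, σ I ∘ₗ LinearMap.proj I

lemma pr_apply (σ : I2 → M →ₗ[ℂ] ℂ) (x : I2 → M) : pr σ x = ∑ I, σ I (x I) := by simp [pr]

def BtL (σ : I2 → M →ₗ[ℂ] ℂ) (I : I2) : M →ₗ[ℂ] ℂ :=
  σ I - (gm I / 3) • ∑ k, (eta k : ℂ) • σ (k, k)
def CtL (P : Op M) (σ : I2 → M →ₗ[ℂ] ℂ) (a : I3) : M →ₗ[ℂ] ℂ :=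
  (eta a.1 : ℂ) • BtL σ (a.2.1, a.2.2) ∘ₗ P a.1 - (eta a.2.1 : ℂ) • BtL σ (a.1, a.2.2) ∘ₗ P a.2.1
def WtL (P : Op M) (σ : I2 → M →ₗ[ℂ] ℂ) : M →ₗ[ℂ] ℂ := ∑ I, σ I ∘ₗ hW P I

variable {σ σ' : I2 → M →ₗ[ℂ] ℂ} {P P' : Op M}

lemma BtL_apply (I : I2) (x : M) :
    BtL σ I x = σ I x - gm I / 3 * ∑ k, (eta k : ℂ) * σ (k, k) x := by simp [BtL]
lemma CtL_apply (a : I3) (x : M) : CtL P σ a x = eta a.1 * BtL σ (a.2.1, a.2.2) (P a.1 x) -
    eta a.2.1 * BtL σ (a.1, a.2.2) (P a.2.1 x) := rfl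
lemma WtL_apply (x : M) : WtL P σ x = ∑ I, σ I (hW P I x) := by simp [WtL]

lemma pr_sy (h : ∀ I, σ I.swap = σ I) (β : I2 → M) : ∑ I, σ I (sy β I) = ∑ I, σ I (β I) := by
  have := (Equiv.prodComm Ix Ix).sum_comp fun I => σ I (β I)
  simp only [Equiv.prodComm_apply, h] at this
  simp only [sy_apply, map_smul, map_add, smul_eq_mul, ← Finset.mul_sum, Finset.sum_add_distrib,
    this]
  ring

lemma pair (h : ∀ I, σ I.swap = σ I) (χ : I3 → M) :
    ∑ a, CtL P σ a (χ a) = ∑ I, σ I (AT P χ I) := by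
  have g : ∀ f : I2 → ℂ, ∑ I, gm I * f I = ∑ k, eta k * f (k, k) := fun f => by
    simp [gm, Fintype.sum_prod_type]
  have b : ∀ β : I2 → M, ∑ I, BtL σ I (β I) = ∑ I, σ I (tq (1 / 3) β I) := fun β => by
    simp only [BtL_apply, tq_apply, map_sub, map_smul, smul_eq_mul, Finset.sum_sub_distrib, tc,
      map_sum, div_eq_mul_inv, one_mul, mul_assoc, g]
    simp only [Finset.mul_sum]
    exact congrArg _ (Finset.sum_comm.trans (Finset.sum_congr rfl fun _ _ =>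
      Finset.sum_congr rfl fun _ _ => by ring))
  rw [AT_apply, Ah_apply, tq_sy, pr_sy h, ← b]
  simp only [CtL_apply, dv_apply, rs_apply, map_sum, map_smul, map_sub, smul_eq_mul, mul_sub,
    Finset.sum_sub_distrib, Fintype.sum_prod_type]
  congr 1
  · exact Finset.sum_comm.trans (Finset.sum_congr rfl fun _ _ => Finset.sum_comm)
  · exact Finset.sum_congr rfl fun _ _ => Finset.sum_comm

lemma pair23 {σ : I2 → I2 → M →ₗ[ℂ] ℂ} (c : Cm P P') (h : ∀ J, σ J.swap = σ J)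
    (h' : ∀ J K, σ J K.swap = σ J K) (G : I3 → I3 → M) :
    ∑ b, ∑ c, CtL P (fun J => CtL P' (σ J) c) b (G b c) = ∑ J, ∑ K, σ J K (B23 P P' G J K) := by
  rw [Finset.sum_comm, Finset.sum_congr rfl fun c _ => pair (fun J => by rw [h]) _, Finset.sum_comm]
  simp only [pair (h' _), B23_apply, AT_comm c]

lemma CtL_zero {S : M → Prop} (hS : ∀ m x, S x → S (P m x)) (h : ∀ I x, S x → σ I x = 0) (a : I3)
    (x : M) (hx : S x) : CtL P σ a x = 0 := by
  simp [CtL_apply, BtL_apply, h _ _ (hS _ _ hx)]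

variable {τ : I2 → I2 → I2 → M →ₗ[ℂ] ℂ} {Q : Fin 3 → Op M}

def t3 (τ : I2 → I2 → I2 → M →ₗ[ℂ] ℂ) : (I2 → I2 → I2 → M) →ₗ[ℂ] ℂ :=
  pr fun I => pr fun J => pr (τ I J)

lemma t3_apply (F : I2 → I2 → I2 → M) : t3 τ F = ∑ I, ∑ J, ∑ K, τ I J K (F I J K) := by
  simp only [t3, pr_apply]

/-- the divergence -/
def DL (τ : I2 → I2 → I2 → M →ₗ[ℂ] ℂ) (P : Op M) (n : Ix) (J K : I2) : M →ₗ[ℂ] ℂ :=
  ∑ m, τ (m, n) J K ∘ₗ P m

lemma DL_apply (n : Ix) (J K : I2) (x : M) : DL τ P n J K x = ∑ m, τ (m, n) J K (P m x) := by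
  simp [DL]

def ga3 (G : Ix → I3 → I3 → M) (a b c : I3) : M := (-gm a.2) • G a.1 b c

lemma ga3_eq (G : Ix → I3 → I3 → M) : ga G = ga3 G := rfl

lemma t3_h3 (x : M) :
    t3 τ (h3 Q x) = WtL (Q 0) (fun I => WtL (Q 1) fun J => WtL (Q 2) (τ I J)) x := by
  simp only [WtL_apply, t3_apply, h3]

lemma t3_om {w : Ix → V} {O : M →ₗ[ℂ] M} (h : ∀ I J K x, τ I J K (O x) + (∑ L, l2 w L I * τ L J K x +
    ∑ L, l2 w L J * τ I L K x + ∑ L, l2 w L K * τ I J L x) = 0) (F : I2 → I2 → I2 → M) :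
    t3 τ (omF w O F) = 0 := by
  have k := Finset.sum_eq_zero fun I (_ : I ∈ Finset.univ) => Finset.sum_eq_zero
    fun J (_ : J ∈ Finset.univ) => Finset.sum_eq_zero fun K (_ : K ∈ Finset.univ) =>
      h I J K (F I J K)
  simp only [t3_apply, omF_apply, map_add, map_sum, map_smul, smul_eq_mul,
    Finset.sum_add_distrib] at k ⊢
  rw [← k]
  refine congrArg _ (congrArg₂ _ (congrArg₂ _ ?_ ?_) ?_)
  · exact (Finset.sum_congr rfl fun _ _ => (Finset.sum_congr rfl fun _ _ =>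
      Finset.sum_comm).trans Finset.sum_comm).trans (Finset.sum_comm.trans
      (Finset.sum_congr rfl fun _ _ => Finset.sum_comm.trans
        (Finset.sum_congr rfl fun _ _ => Finset.sum_comm)))
  · exact Finset.sum_congr rfl fun _ _ => (Finset.sum_congr rfl fun _ _ =>
      Finset.sum_comm).trans (Finset.sum_comm.trans
        (Finset.sum_congr rfl fun _ _ => Finset.sum_comm))
  · exact Finset.sum_congr rfl fun _ _ => Finset.sum_congr rfl fun _ _ => Finset.sum_comm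

lemma t3_a {a : M →ₗ[ℂ] M} (h : ∀ I J K x, τ I J K (a x) = τ J I K x) (F : I2 → I2 → I2 → M) :
    t3 τ (p12 a F) = t3 τ F := by
  simp only [t3_apply]
  exact (Finset.sum_congr rfl fun I _ => Finset.sum_congr rfl fun J _ => Finset.sum_congr rfl
    fun K _ => h I J K _).trans Finset.sum_comm

lemma t3_b {a : M →ₗ[ℂ] M} (h : ∀ I J K x, τ I J K (a x) = τ K J I x) (F : I2 → I2 → I2 → M) :
    t3 τ (p13 a F) = t3 τ F := by
  simp only [t3_apply]
  exact (Finset.sum_congr rfl fun I _ => (Finset.sum_congr rfl fun J _ => Finset.sum_congr rfl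
    fun K _ => h I J K _).trans Finset.sum_comm).trans (Finset.sum_comm.trans
      (Finset.sum_congr rfl fun _ _ => Finset.sum_comm))

lemma St.t_s23 (s : St M) (G : Ix → I3 → I3 → M) :
    s.t (B3 (s.P 0) (s.P 1) (s.P 2) (ga3 fun n b c => s.a (s.b (s.a (G n c b))))) =
      s.t (B3 (s.P 0) (s.P 1) (s.P 2) (ga3 G)) := by
  have a := B3_p12 (s.c 0 1) (s.ia 0) (s.ia 1) (s.ia 2)
  have b := B3_p13 (s.c 0 1) (s.c 0 2) (s.c 1 2) (s.ib 0) (s.ib 1) (s.ib 2)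
  rw [← s.ta (B3 _ _ _ (ga3 G)), ← s.tb (p12 _ _), ← s.ta (p13 _ _)]
  refine congrArg _ (Eq.trans (congrArg _ ?_) ((a _).trans (congrArg _ ((b _).trans
    (congrArg _ (a _))))))
  funext x y z
  exact (((s.a ∘ₗ s.b ∘ₗ s.a).map_smul _ _).symm :)

variable (c : ∀ i k, Cm (Q i) (Q k)) (h1 : ∀ I, τ I.swap = τ I) (h2 : ∀ I J, τ I J.swap = τ I J)
  (h3 : ∀ I J K, τ I J K.swap = τ I J K)
include c h1 h2 h3

lemma t3_B3 (G : I3 → I3 → I3 → M) : t3 τ (B3 (Q 0) (Q 1) (Q 2) G) = ∑ a, ∑ b, ∑ c,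
    CtL (Q 0) (fun I => CtL (Q 1) (fun J => CtL (Q 2) (τ I J) c) b) a (G a b c) := by
  rw [Finset.sum_comm, Finset.sum_congr rfl fun b _ => Finset.sum_comm.trans
    ((Finset.sum_congr rfl fun c _ => pair (fun J => by rw [h1]) _).trans Finset.sum_comm),
    Finset.sum_comm, t3_apply]
  simp only [pair23 (c 1 2) (h2 _) (h3 _), B23_apply, B3_apply, AT_comm (c 0 1), AT_comm (c 0 2)]

lemma t3_ga (G : Ix → I3 → I3 → M) : t3 τ (B3 (Q 0) (Q 1) (Q 2) (ga3 G)) = ∑ n, ∑ b, ∑ c,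
    CtL (Q 1) (fun J => CtL (Q 2) (DL τ (Q 0) n J) c) b (G n b c) := by
  rw [← ga3_eq]
  have e : ∀ a J K, B23 (Q 1) (Q 2) (ga G a) J K = ga (fun n => B23 (Q 1) (Q 2) (G n) J K) a :=
    fun a J K => by simp only [ga_apply, map_smul, Pi.smul_apply]
  have s : ∀ I J K, B3 (Q 0) (Q 1) (Q 2) (ga G) I J K =
      sy (fun I => Q 0 I.1 (B23 (Q 1) (Q 2) (G I.2) J K)) I := fun I J K => by
    simp only [B3_apply, ← B23_apply, e, AT_ga]
    rfl
  simp only [t3_apply, s, fun n => pair23 (σ := DL τ (Q 0) n) (c 1 2)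
    (fun J => by unfold DL; simp only [h2]) fun J K => by unfold DL; simp only [h3]]
  rw [Finset.sum_comm, Finset.sum_congr rfl fun J _ => Finset.sum_comm.trans
    (Finset.sum_congr rfl fun K _ => (pr_sy (σ := fun I => τ I J K) (fun I => by rw [h1]) _).trans
      ((Fintype.sum_prod_type _).trans Finset.sum_comm))]
  simp only [DL_apply]
  exact (Finset.sum_congr rfl fun J _ => Finset.sum_comm).trans Finset.sum_comm

end

end Vale.Agent.P352L.RW
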