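import Vale.Agent.P352L.RES.WFis

/-!
# P352L, block RESW: the residue argument on modules
-/

set_option linter.all false

namespace Vale.Agent.P352L.RW

open Vale.Agent.P352 Vale.Agent.P352.GF Vale.Agent.P352X Vale.Agent.P352X.RS Vale.Agent.P352X.RS.Red
open Ko Coc

noncomputable section

variable {M N : Type} [AddCommGroup M] [Module ℂ M] [AddCommGroup N] [Module ℂ N]

lemma cm_hW {P P' : Op M} (h : Cm P P') (I : I2) : It2 (hW P I) (hW P I) P' P' := fun i x => by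
  simp only [hW_apply, da_apply, bx_apply, h _ i, map_add, map_smul, map_sum]

lemma AT_near {D : Op M} {P : Op N} (c : Cm P P) {f g : M →ₗ[ℂ] N} {Z : Submodule ℂ N}
    (h : ∀ i x, f (D i x) - P i (g x) ∈ Z) {χ : I3 → M} (s : Syz ⊤ (rs D) χ) :
    ∃ χ', AT P χ' = 0 ∧ ∀ a, f (χ a) - χ' a ∈ Z := by
  obtain ⟨s, r, ψ, -, -, hs, hr, hψ, e⟩ := s
  refine ⟨fun a => f (s a.1 a.2.1 a.2.2) + f (r a.1 a.2.1 a.2.2) +
    ∑ l, rs P l (g (ψ l a.1 a.2.1 a.2.2)), ?_, fun ⟨k, m, n⟩ => ?_⟩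
  · rw [AT_apply, Syz.zero (S := ⊤) (cm_rs c) ⟨fun k m n => f (s k m n), fun k m n => f (r k m n),
      fun l k m n => g (ψ l k m n), fun _ _ _ => ⟨trivial, trivial⟩, fun _ _ _ _ => trivial,
      fun k m n => congrArg f (hs k m n), fun k m n => ⟨(congrArg f (hr k m n).1).trans
        (map_neg _ _), (congrArg f (hr k m n).2).trans (map_neg _ _)⟩, fun n l k m =>
      ⟨(congrArg g (hψ n l k m).1).trans (map_neg _ _), (congrArg g (hψ n l k m).2).trans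
        (map_neg _ _)⟩, fun _ _ _ => rfl⟩, map_zero]
  · simp only [e, map_add, map_sum, add_sub_add_left_eq_sub, ← Finset.sum_sub_distrib, rs_apply,
      map_smul, ← smul_sub]
    exact Z.sum_mem fun l _ => Z.smul_mem _ (h _ _)

lemma syz_ev {ι : Type} {D : Op M} {χ : I3 → ι → M} (h : Syz ⊤ (up ι D) χ) (b : ι) :
    Syz ⊤ D fun a => χ a b := by
  obtain ⟨s, r, ψ, -, -, hs, hr, hψ, e⟩ := h
  exact ⟨fun k m n => s k m n b, fun k m n => r k m n b, fun l k m n => ψ l k m n b,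
    fun _ _ _ => ⟨trivial, trivial⟩, fun _ _ _ _ => trivial, fun k m n => congrFun (hs k m n) b,
    fun k m n => ⟨congrFun (hr k m n).1 b, congrFun (hr k m n).2 b⟩, fun n l k m =>
      ⟨congrFun (hψ n l k m).1 b, congrFun (hψ n l k m).2 b⟩, fun k m n => by
      simp only [e, Pi.add_apply, Finset.sum_apply, up_apply]⟩

lemma r3_sub {w : Ix → V} (f : M →ₗ[ℂ] N) (O : M →ₗ[ℂ] M) (O' : N →ₗ[ℂ] N) (χ : I3 → M) (a : I3) :
    f (r3 w O χ a) - r3 w O' (f.compLeft I3 χ) a = f (O (χ a)) - O' (f (χ a)) := by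
  simp only [r3_apply, map_add, map_sum, map_smul, LinearMap.compLeft_apply, Function.comp_apply,
    add_sub_add_right_eq_sub]

lemma omQ_sub {w : Ix → V} (f : M →ₗ[ℂ] N) (O : M →ₗ[ℂ] M) (O' : N →ₗ[ℂ] N) (Q : I3 → I3 → I3 → M)
    (a b c : I3) : f (omQ w O Q a b c) - omQ w O' (((f.compLeft I3).compLeft I3).compLeft I3 Q) a b c =
      f (O (Q a b c)) - O' (f (Q a b c)) :=
  (congrFun (congrFun (r3_sub ((f.compLeft I3).compLeft I3) _ _ Q a) b) c).trans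
    ((congrFun (r3_sub (f.compLeft I3) _ _ (Q a) b) c).trans (r3_sub f O O' (Q a b) c))

variable {P : Fin 3 → Op M}

lemma B3_rev (c : ∀ i k, Cm (P i) (P k)) (Q : I3 → I3 → I3 → M) (I J K : I2) :
    B3 (P 0) (P 1) (P 2) Q I J K =
      AT (P 2) (fun c => AT (P 1) (fun b => AT (P 0) (fun a => Q a b c) I) J) K := by
  rw [B3_apply, funext fun a => AT_comm (c 1 2) (Q a) J K, AT_comm (c 0 2)]
  exact congrArg (fun y => AT (P 2) y K) (funext fun d => AT_comm (c 0 1) (fun a b => Q a b d) I J)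

/-- the potential of the source of `W W W` -/
def b3 (P : Fin 3 → Op M) (x : M) (a b c : I3) : M := be (P 2) c (be (P 1) b (be (P 0) a x))
/-- the source of `W W W` -/
def h3 (P : Fin 3 → Op M) (x : M) (I J K : I2) : M := hW (P 2) K (hW (P 1) J (hW (P 0) I x))

lemma B3_be (c : ∀ i k, Cm (P i) (P k)) (x : M) : B3 (P 0) (P 1) (P 2) (b3 P x) = h3 P x := by
  funext I J K
  have : ∀ a b, b3 P x a b = fun c => be (P 2) c (be (P 1) b (be (P 0) a x)) := fun _ _ => rfl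
  simp only [B3_apply, this, h3, AT_be (c _ _), ← (cm_hW (c 2 1) K).AT, ← (cm_hW (c 2 0) K).AT,
    ← (cm_hW (c 1 0) J).AT]

/-- the three derivatives on polynomials -/
def QQ : Fin 3 → Op P20 := ![Q1, Q2, Q3]

lemma cm_QQ : ∀ i k, Cm (QQ i) (QQ k) := fun i k => by
  fin_cases i <;> fin_cases k
  exacts [cm_pd 3 3, cm_pd2 3, cm_pd 3 4, (cm_pd2 3).symm, cm22, (cm_pd2 4).symm, cm_pd 4 3,
    cm_pd2 4, cm_pd 4 4]

lemma core0 (B : M →ₗ[ℂ] N) (a b : M →ₗ[ℂ] M) (a' b' : N →ₗ[ℂ] N) (Ba : ∀ x, B (a x) = a' (B x))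
    (Bb : ∀ x, B (b x) = b' (B x)) (ρ : M →ₗ[ℂ] ℂ) (hk : ∀ Q, B Q = 0 → ρ Q = 0)
    (ha : ∀ Q, ρ (a Q) = ρ Q) (hb : ∀ Q, ρ (b Q) = ρ Q) {x y : M} {X Y : N} {n : ℕ}
    {u v : Fin n → N} {A : Fin n → M →ₗ[ℂ] M} (k0 : B x = (-2160 : ℂ) • X) (k1 : (2 : ℂ) • B y = Y)
    (k3 : sum6 a' b' (X - ∑ i, u i - Y) = 0) (k4 : ∀ i, sum6 a' b' (u i) = v i)
    (k5 : ∀ Q, ∑ i, v i = B Q → ∃ q : Fin n → M, B (Q - ∑ i, A i (q i)) = 0)
    (ho : ∀ i Q, ρ (A i Q) = 0) (hy : ρ y = 0) : ρ x = 0 := by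
  obtain ⟨q, hq⟩ := k5 (sum6 a b ((-1 / 2160 : ℂ) • x - (2 : ℂ) • y)) (by
    rw [map_sub, map_sub, map_sum] at k3
    simp only [k4] at k3
    rw [map_sum6 Ba Bb, map_sub, map_smul, map_smul, k0, k1, smul_smul, map_sub, map_smul]
    linear_combination (norm := module) (-1 : ℂ) • k3)
  have k := hk _ hq
  simp only [map_sub, map_sum, ho, sum6_apply, map_add, ha, hb, map_smul, hy, smul_eq_mul,
    Finset.sum_const_zero] at k
  linear_combination (-360) * k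

lemma B3_PW : B3 Q1 Q2 Q3 (b3 QQ PW) = (-2160 : ℂ) • cp S0 := by
  refine (B3_be cm_QQ PW).trans (funext fun I => funext fun J => funext fun K => ?_)
  rw [Pi.smul_apply, Pi.smul_apply, Pi.smul_apply, ← hW_PW]
  rfl

lemma B3_ga {Y : Ix → I3 → I3 → P20} {Ξ : P20}
    (hY : ∀ n J K, B23 Q2 Q3 (Y n) J K = z0 (d5 n J K Ξ)) :
    (2 : ℂ) • B3 Q1 Q2 Q3 (ga Y) = cp (d1 Ξ) := by
  funext I J K
  have : ∀ a, B23 Q2 Q3 (ga Y a) J K = ga (fun n => z0 (d5 n J K Ξ)) a := fun a => by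
    simp only [ga_apply, map_smul, Pi.smul_apply, hY]
  simp only [Pi.smul_apply, B3_apply, ← B23_apply, this, AT_ga, cp_d1, smul_smul]
  simp

lemma cp_cert {n : ℕ} {S T : P20} {U : Fin n → P20} (h : sym6 (S - ∑ i, U i - T) = 0) :
    sum6 (p12 s12.toLinearMap) (p13 s13.toLinearMap) (cp S - ∑ i, cp (U i) - cp T) = 0 := by
  rw [← map_sum cp, ← map_sub cp, ← map_sub cp, ← cp_sym6, h, map_zero]

lemma cp_so (w : Ix → V) (S : P20) : sum6 (p12 s12.toLinearMap) (p13 s13.toLinearMap)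
    (cp (om w S)) = omF w (omL w) (cp (sym6 S)) := by rw [← cp_sym6, sym6_om, cp_om]

/-- the algebraic core -/
theorem core (ρ : (I3 → I3 → I3 → P20) →ₗ[ℂ] ℂ) (hk : ∀ Q, B3 Q1 Q2 Q3 Q = 0 → ρ Q = 0)
    (ho : ∀ w Q, So w → ρ (omQ w (omL w) Q) = 0) (ha : ∀ Q, ρ (p12 s12.toLinearMap Q) = ρ Q)
    (hb : ∀ Q, ρ (p13 s13.toLinearMap Q) = ρ Q)
    (hg : ∀ (Ξ3 ζ3 Ξ2 ζ2 : P20) (Y : Ix → I3 → I3 → P20), Deg 5 Ξ3 → Deg 6 ζ3 → Deg 5 Ξ2 →
      Deg 6 ζ2 → Ξ3 + d3 ζ3 = Ξ2 + RS.d2 ζ2 → box3 Ξ3 = 0 → dd3 Ξ3 = 0 → box2 Ξ2 = 0 →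
      dd2 Ξ2 = 0 → (∀ n b c, Deg 7 (Y n b c)) →
      (∀ n J K, B23 Q2 Q3 (Y n) J K = z0 (d5 n J K (Ξ3 + d3 ζ3))) → ρ (ga Y) = 0) :
    ρ (b3 QQ PW) = 0 := by
  obtain ⟨n, w, S, Ξ3, ζ3, Ξ2, ζ2, hw, g1, g2, g3, g4, he, b3', e3, b2, e2, hs⟩ := alg2_row
  obtain ⟨Y, dY, hY⟩ := ex_pot (deg_add g1 (deg_d3 g2)) he b3' e3 b2 e2
  exact core0 (B3 Q1 Q2 Q3) (p12 s12.toLinearMap) (p13 s13.toLinearMap) (p12 s12.toLinearMap)
    (p13 s13.toLinearMap) (B3_p12 (cm_pd2 3) s12_13 s12_21 s12_33)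
    (B3_p13 (cm_pd2 3) (cm_pd 3 4) (cm_pd2 4).symm s13_13 s13_22 s13_31) ρ hk ha hb B3_PW
    (B3_ga hY) (cp_cert hs) (fun i => cp_so _ _) (om_split (fun i => (hw i).1) _)
    (fun i Q => ho _ Q (hw i).1) (hg _ _ _ _ Y g1 g2 g3 g4 he b3' e3 b2 e2 dY hY)

/-- test functions with derivatives, Lorentz fields, the Euler field and permutations -/
structure St (M : Type) [AddCommGroup M] [Module ℂ M] where
  P : Fin 3 → Op M
  O : (Ix → V) → M →ₗ[ℂ] M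
  E : M →ₗ[ℂ] M
  a : M →ₗ[ℂ] M
  b : M →ₗ[ℂ] M
  Z : Submodule ℂ M
  t : (I2 → I2 → I2 → M) →ₗ[ℂ] ℂ
  c : ∀ i k, Cm (P i) (P k)
  r : ∀ i w, Ro w (O w) (P i)
  e : ∀ i m x, P i m (E x) = E (P i m x) + P i m x
  eO : ∀ w x, E (O w x) = O w (E x)
  ea : ∀ x, E (a x) = a (E x)
  eb : ∀ x, E (b x) = b (E x)
  ia : ∀ i, It a (P i) (P (![1, 0, 2] i))
  ib : ∀ i, It b (P i) (P (![2, 1, 0] i))
  z : ∀ i m, ∀ x ∈ Z, P i m x ∈ Z
  inv : ∀ w F, So w → t (omF w (O w) F) = 0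
  ta : ∀ F, t (p12 a F) = t F
  tb : ∀ F, t (p13 b F) = t F
  hom : ∀ G : I3 → I3 → I3 → M, (∀ a b c, G a b c ∈ Z) →
    t (B3 (P 0) (P 1) (P 2) fun a b c => E (G a b c)) = 7 * t (B3 (P 0) (P 1) (P 2) G)

namespace St

variable (s : St M)

/-- `E - n` -/
def En (n : ℕ) : M →ₗ[ℂ] M := s.E - (n : ℂ) • LinearMap.id

lemma En_apply (n : ℕ) (x : M) : s.En n x = s.E x - (n : ℂ) • x := rfl

lemma it_En (n : ℕ) (i : Fin 3) : It2 (s.En n) (s.En (n + 1)) (s.P i) (s.P i) := fun m x => by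
  simp only [En_apply, map_sub, map_smul, s.e]
  push_cast
  module

lemma En_b3 (x : M) (a b c : I3) : s.En 7 (b3 s.P x a b c) = b3 s.P (s.En 10 x) a b c := by
  rw [b3, (s.it_En 7 2).be, (s.it_En 8 1).be, (s.it_En 9 0).be, b3]

lemma near {G G' : I3 → I3 → I3 → M} (h : ∀ a b c, G a b c - G' a b c ∈ s.Z.map (s.En 7)) :
    s.t (B3 (s.P 0) (s.P 1) (s.P 2) G) = s.t (B3 (s.P 0) (s.P 1) (s.P 2) G') := by
  choose H h1 h2 using h
  have : G - G' = (fun a b c => s.E (H a b c)) - (7 : ℂ) • H :=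
    funext fun a => funext fun b => funext fun c => (h2 a b c).symm
  rw [← sub_eq_zero, ← map_sub, ← map_sub, this, map_sub, map_sub, s.hom H h1, map_smul, map_smul,
    smul_eq_mul, sub_self]

/-- the induced operators -/
def Pq (i : Fin 3) : Op (M ⧸ s.Z) := fun m => s.Z.mapQ s.Z (s.P i m) (s.z i m)

lemma it_Pq (i : Fin 3) : It2 s.Z.mkQ s.Z.mkQ (s.P i) (s.Pq i) := fun _ _ => rfl

lemma mk_b3 (x : M) (a b c : I3) : s.Z.mkQ (b3 s.P x a b c) = b3 s.Pq (s.Z.mkQ x) a b c := by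
  simp only [b3, (s.it_Pq _).be]

theorem t_zero {x : M} (h : x ∈ s.Z) : s.t (h3 s.P (s.En 10 x)) = 0 := by
  rw [← B3_be s.c, s.near (G' := 0) fun a b c => ⟨b3 s.P x a b c, ?_, ?_⟩, map_zero, map_zero]
  · refine (Submodule.Quotient.mk_eq_zero _).1 ((s.mk_b3 x a b c).trans ?_)
    simp only [b3, show s.Z.mkQ x = 0 from (Submodule.Quotient.mk_eq_zero _).2 h, map_zero]
  · exact (s.En_b3 x a b c).trans (sub_zero _).symm

theorem t_boost (x : M) : s.t (h3 s.P (s.O wH x)) = 6 * s.t (h3 s.P x) := by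
  have k : ∀ i I x, ∑ L, l2 wH I L • hW (s.P i) L x = hW (s.P i) I (s.O wH x) -
      (2 : ℂ) • hW (s.P i) I x - s.O wH (hW (s.P i) I x) := fun i I x => by
    rw [← r2_hW (s.c i i) (s.r i wH), r2_l2, add_sub_cancel_left]
  have : omF wH (s.O wH) (h3 s.P x) = h3 s.P (s.O wH x) - (6 : ℂ) • h3 s.P x := by
    funext I J K
    simp only [omF_apply, h3, ← map_smul (hW (s.P 2) K), ← map_sum (hW (s.P 2) K),
      ← map_smul (hW (s.P 1) J), ← map_sum (hW (s.P 1) J), k]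
    simp only [map_sub, map_smul, Pi.sub_apply, Pi.smul_apply, h3]
    module
  have h := s.inv wH (h3 s.P x) alg1_row.2.1
  rw [this, map_sub, map_smul] at h
  exact sub_eq_zero.1 h

theorem key (j : P20 →ₗ[ℂ] M) (jP : ∀ i m S, j (QQ i m S) - s.P i m (j S) ∈ s.Z)
    (jO : ∀ w S, j (om w S) - s.O w (j S) ∈ s.Z) (ja : ∀ S, j (s12 S) - s.a (j S) ∈ s.Z)
    (jb : ∀ S, j (s13 S) - s.b (j S) ∈ s.Z)
    (hg : ∀ (Ξ3 ζ3 Ξ2 ζ2 : P20) (Y : Ix → I3 → I3 → P20), Deg 5 Ξ3 → Deg 6 ζ3 → Deg 5 Ξ2 →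
      Deg 6 ζ2 → Ξ3 + d3 ζ3 = Ξ2 + RS.d2 ζ2 → box3 Ξ3 = 0 → dd3 Ξ3 = 0 → box2 Ξ2 = 0 →
      dd2 Ξ2 = 0 → (∀ n b c, Deg 7 (Y n b c)) →
      (∀ n J K, B23 Q2 Q3 (Y n) J K = z0 (d5 n J K (Ξ3 + d3 ζ3))) →
      s.t (B3 (s.P 0) (s.P 1) (s.P 2) (ga fun n b c => s.En 7 (j (Y n b c)))) = 0) :
    s.t (h3 s.P (s.En 10 (j PW))) = 0 := by
  let f := s.En 7 ∘ₗ j
  let F := ((f.compLeft I3).compLeft I3).compLeft I3
  have h : ∀ i m S, f (QQ i m S) - s.P i m ((s.En 8 ∘ₗ j) S) ∈ s.Z.map (s.En 7) := fun i m S =>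
    ⟨_, jP i m S, by rw [map_sub, s.it_En 7 i]; rfl⟩
  have c : ∀ (A : M →ₗ[ℂ] M), (∀ x, s.E (A x) = A (s.E x)) → ∀ S T, j S - A (j T) ∈ s.Z →
      f S - A (f T) ∈ s.Z.map (s.En 7) := fun A e S T h => ⟨_, h, by
    simp only [f, LinearMap.comp_apply, En_apply, map_sub, map_smul, e, smul_sub]⟩
  have k := core (s.t ∘ₗ B3 (s.P 0) (s.P 1) (s.P 2) ∘ₗ F) (B3_ker tri _ (fun U hU => ?_)
    (fun U hU => ?_) fun U hU => ?_) (fun w Q hw => ?_) (fun Q => ?_) (fun Q => ?_)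
    fun Ξ3 ζ3 Ξ2 ζ2 Y g1 g2 g3 g4 he b3 e3 b2 e2 dY hY => ?_
  · rw [← B3_be s.c, ← k]
    refine s.near fun a b c => ⟨b3 s.P (j PW) a b c - j (b3 QQ PW a b c), ?_, ?_⟩
    · have i : ∀ i, It2 (s.Z.mkQ ∘ₗ j) (s.Z.mkQ ∘ₗ j) (QQ i) (s.Pq i) := fun i m S =>
        (Submodule.Quotient.eq _).2 (jP i m S)
      refine (Submodule.Quotient.eq _).1 ((s.mk_b3 _ a b c).trans (Eq.symm ?_))
      exact ((i 2).be _ _).trans (congrArg _ (((i 1).be _ _).trans (congrArg _ ((i 0).be _ _))))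
    · rw [map_sub, s.En_b3]
      rfl
  · choose G h1 h2 using fun b c => AT_near (s.c 0 0) (h 0) (syz_ev (syz_ev hU b) c)
    refine (s.near (G' := fun a b c => G b c a) fun a b c => h2 b c a).trans ?_
    rw [show B3 _ _ _ _ = 0 from funext fun I => funext fun J => funext fun K => by
      simp only [B3_rev s.c, h1, Pi.zero_apply, ← Pi.zero_def, map_zero], map_zero]
  · choose G h1 h2 using fun a c => AT_near (s.c 1 1) (h 1) (syz_ev (hU a) c)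
    refine (s.near (G' := fun a b c => G a c b) fun a b c => h2 a c b).trans ?_
    rw [show B3 _ _ _ _ = 0 from funext fun I => funext fun J => funext fun K => by
      simp only [B3_apply, AT_comm (s.c 1 2), h1, Pi.zero_apply, ← Pi.zero_def, map_zero], map_zero]
  · choose G h1 h2 using fun a b => AT_near (s.c 2 2) (h 2) (hU a b)
    refine (s.near (G' := G) h2).trans ?_
    rw [show B3 _ _ _ _ = 0 from funext fun I => funext fun J => funext fun K => by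
      simp only [B3_apply, h1, Pi.zero_apply, ← Pi.zero_def, map_zero], map_zero]
  · refine (s.near (G' := omQ w (s.O w) (F Q)) fun a b d => ?_).trans ?_
    · have := c _ (s.eO w) _ _ (jO w (Q a b d))
      rwa [← omL_eq, ← omQ_sub] at this
    · rw [B3_om hw (s.r 0 w) (s.r 1 w) (s.r 2 w), s.inv w _ hw]
  · refine (s.near (G' := p12 s.a (F Q)) fun a b d => c _ s.ea _ _ (ja _)).trans ?_
    rw [B3_p12 (s.c 0 1) (s.ia 0) (s.ia 1) (s.ia 2), s.ta]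
    rfl
  · refine (s.near (G' := p13 s.b (F Q)) fun a b d => c _ s.eb _ _ (jb _)).trans ?_
    rw [B3_p13 (s.c 0 1) (s.c 0 2) (s.c 1 2) (s.ib 0) (s.ib 1) (s.ib 2), s.tb]
    rfl
  · refine Eq.trans (congrArg (fun y => s.t (B3 _ _ _ y)) ?_)
      (hg Ξ3 ζ3 Ξ2 ζ2 Y g1 g2 g3 g4 he b3 e3 b2 e2 dY hY)
    exact funext fun a => funext fun b => funext fun c => map_smul f _ _

end St

end

end Vale.Agent.P352L.RW
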