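import Vale.Agent.P352L.RES.WAlg
import Vale.Agent.P352X.R.RES.CocA
import Vale.Agent.P352X.R.RES.Link
import Vale.Agent.P352X.R.RES.Alg2

/-!
# P352L, block RESW: the algebraic part of the residue argument
-/

set_option linter.all false

namespace Vale.Agent.P352L.RW

open Vale.Agent.P352 Vale.Agent.P352.GF Vale.Agent.P352X Vale.Agent.P352X.RS Vale.Agent.P352X.RS.Red
open Ko Coc
open MvPolynomial (X C pderiv aeval monomial coeff)
open scoped ComplexConjugate

noncomputable section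

/-! ## derivatives and radial fields -/

/-- the partial derivatives in the vector `j` -/
def pd (j : Fin 5) : Op P20 := fun m => (pderiv (j, m) : Derivation ℂ P20 P20)
/-- the derivatives in the three points -/
def Q1 : Op P20 := pd 3
def Q2 : Op P20 := fun m => -(pd 3 m + pd 4 m)
def Q3 : Op P20 := pd 4
/-- multiplication operators -/
def xm (x : Ix → P20) : Op P20 := fun m => (eta m : ℂ) • LinearMap.mulLeft ℂ (x m)

lemma pd_apply (j : Fin 5) (m : Ix) (S : P20) : pd j m S = pderiv (j, m) S := rfl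
lemma Q1_apply (m : Ix) (S : P20) : Q1 m S = pderiv (3, m) S := rfl
lemma Q2_apply (m : Ix) (S : P20) : Q2 m S = -(pderiv (3, m) S + pderiv (4, m) S) := rfl
lemma Q3_apply (m : Ix) (S : P20) : Q3 m S = pderiv (4, m) S := rfl
lemma xm_apply (x : Ix → P20) (m : Ix) (S : P20) : xm x m S = (eta m : ℂ) • (x m * S) := rfl

lemma cm_pd (j k : Fin 5) : Cm (pd j) (pd k) := fun _ _ _ => pd_comm _ _ _
lemma cm_pd2 (j : Fin 5) : Cm (pd j) Q2 := fun _ _ _ => by
  simp only [Q2_apply, pd_apply, map_neg, map_add, pd_comm (j, _)]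
lemma cm22 : Cm Q2 Q2 := fun i j x => by
  rw [Q2_apply i, Q2_apply i, map_neg, map_add]
  exact congrArg _ (congrArg₂ _ (cm_pd2 3 i j x) (cm_pd2 4 i j x))

lemma pd_X' (j k : Fin 5) (a m : Ix) :
    pderiv (j, a) (X (k, m) : P20) = if j = k ∧ a = m then 1 else 0 := by
  classical
  simp [MvPolynomial.pderiv_X, Pi.single_apply, eq_comm]

theorem wey_pd (j : Fin 5) : Wey ⊤ (rs (pd j)) (xm fun m => X (j, m)) := by
  have e : ∀ c α (a : ℂ), Eu (rs (pd j)) (xm fun m => X (j, m)) c (monomial α a) =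
      ((∑ i, α (j, i) + c + 1 : ℕ) : ℂ) • monomial α a := fun c α a => by
    have ee : ∀ (i : Ix) (x : P20), (eta i : ℂ) • (eta i : ℂ) • x = x := fun i x => by
      rw [smul_smul, eta_sq, one_smul]
    simp only [Eu, rs_apply, xm_apply, pd_apply, mul_smul_comm, ee,
      MvPolynomial.X_mul_pderiv_monomial, ← Nat.cast_smul_eq_nsmul ℂ, ← Finset.sum_smul]
    push_cast
    module
  have n : ∀ c (α : Fin 5 × Ix →₀ ℕ), ((∑ i, α (j, i) + c + 1 : ℕ) : ℂ) ≠ 0 := fun c α =>
    Nat.cast_ne_zero.2 (Nat.succ_ne_zero _)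
  refine ⟨cm_rs (cm_pd j j), fun i k x => ?_, fun _ _ _ => trivial, fun c x h => ?_,
    fun c y _ => ?_⟩
  · simp only [rs_apply, xm_apply, pd_apply, map_smul, Derivation.leibniz, pd_X', smul_eq_mul,
      mul_smul_comm, smul_add, true_and, smul_comm (eta i : ℂ)]
    split_ifs with h
    · subst h
      rw [mul_one, smul_smul _ _ x, eta_sq, one_smul]
    · simp
  · have k : ∀ α x, coeff α (Eu (rs (pd j)) (xm fun m => X (j, m)) c x) =
        ((∑ i, α (j, i) + c + 1 : ℕ) : ℂ) * coeff α x := fun α x => by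
      classical
      induction x using MvPolynomial.induction_on' with
      | monomial β a =>
        rw [e, MvPolynomial.coeff_smul, MvPolynomial.coeff_monomial]
        split_ifs with h
        · rw [h, smul_eq_mul]
        · simp
      | add p q hp hq => rw [Eu_add, MvPolynomial.coeff_add, hp, hq, MvPolynomial.coeff_add, mul_add]
    exact MvPolynomial.ext _ _ fun α => (mul_eq_zero.1 ((k α x).symm.trans (by
      rw [h, MvPolynomial.coeff_zero]))).resolve_left (n c α)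
  · induction y using MvPolynomial.induction_on' with
    | monomial α a =>
      exact ⟨monomial α (a / ((∑ i, α (j, i) + c + 1 : ℕ) : ℂ)), trivial, by
        rw [e, MvPolynomial.smul_monomial, smul_eq_mul, mul_div_cancel₀ _ (n c α)]⟩
    | add p q hp hq =>
      obtain ⟨x, -, a⟩ := hp trivial
      obtain ⟨y, -, b⟩ := hq trivial
      exact ⟨x + y, trivial, by rw [Eu_add, a, b]⟩

theorem wey_conj {M : Type*} [AddCommGroup M] [Module ℂ M] {D X D' X' : Op M} (w : Wey ⊤ D X)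
    {s : M →ₗ[ℂ] M} (hs : ∀ x, s (s x) = x) (h : It s D D') (h' : It s X X') : Wey ⊤ D' X' where
  dd i j x := by rw [← hs x, ← h, ← h, ← h, ← h, w.dd]
  dx i j x := by
    rw [← hs x, ← h', ← h, ← h, ← h', w.dx, map_add]
    split_ifs <;> simp
  mX _ _ _ := trivial
  inj c x e := by
    rw [← hs x, ← Eu_map h h'] at e
    rw [← hs x, w.inj c (s x) (by rw [← hs (Eu _ _ _ _), e, map_zero]), map_zero]
  sur c y _ := by
    obtain ⟨x, -, e⟩ := w.sur c (s y) trivial
    exact ⟨s x, trivial, by rw [← Eu_map h h', e, hs]⟩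

lemma it_rs {M N : Type*} [AddCommGroup M] [Module ℂ M] [AddCommGroup N] [Module ℂ N] {P : Op M}
    {P' : Op N} {f : M →ₗ[ℂ] N} (h : It f P P') : It f (rs P) (rs P') := fun i x => by
  simp only [rs_apply, map_smul, h _]

lemma it_xm (s : P20 →ₐ[ℂ] P20) (x : Ix → P20) : It s.toLinearMap (xm x) (xm fun m => s (x m)) :=
  fun i y => by simp only [xm_apply, AlgHom.toLinearMap_apply, map_smul, map_mul]

/-- the derivation of `Q2` -/
def dQ2 (m : Ix) : Derivation ℂ P20 P20 := -(pderiv (3, m) + pderiv (4, m))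

lemma dQ2_eq (m : Ix) (S : P20) : Q2 m S = dQ2 m S := by simp [Q2_apply, dQ2]

lemma s12_13 : It s12.toLinearMap Q1 Q2 := fun m S => ((dQ2_eq m _).trans (comm s12 (dQ2 m)
  (pderiv (3, m)) (fun ⟨j, n⟩ => by
    classical
    by_cases h : n = m <;>
      fin_cases j <;> simp [s12, dQ2, MvPolynomial.pderiv_X, Pi.single_apply, h]) S)).symm
lemma s12_21 : It s12.toLinearMap Q2 Q1 := fun m S => ((comm s12 (pderiv (3, m)) (dQ2 m)
  (fun ⟨j, n⟩ => by
    classical
    fin_cases j <;> simp [s12, dQ2, MvPolynomial.pderiv_X, Pi.single_apply, apply_ite]) S).trans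
    (congrArg s12 (dQ2_eq m S).symm)).symm
lemma s12_33 : It s12.toLinearMap Q3 Q3 := fun m S => (comm s12 (pderiv (4, m)) (pderiv (4, m))
  (fun ⟨j, n⟩ => by
    classical
    fin_cases j <;> simp [s12, MvPolynomial.pderiv_X, Pi.single_apply, apply_ite]) S).symm
lemma s13_13 : It s13.toLinearMap Q1 Q3 := fun m S => (comm s13 (pderiv (4, m)) (pderiv (3, m))
  (fun ⟨j, n⟩ => by
    classical
    fin_cases j <;> simp [s13, MvPolynomial.pderiv_X, Pi.single_apply, apply_ite]) S).symm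
lemma s13_31 : It s13.toLinearMap Q3 Q1 := fun m S => (comm s13 (pderiv (3, m)) (pderiv (4, m))
  (fun ⟨j, n⟩ => by
    classical
    fin_cases j <;> simp [s13, MvPolynomial.pderiv_X, Pi.single_apply, apply_ite]) S).symm
lemma s13_22 : It s13.toLinearMap Q2 Q2 := fun m S => by
  rw [Q2_apply, Q2_apply, map_neg, map_add, add_comm]
  exact congrArg _ (congrArg₂ _ (s13_31 m S) (s13_13 m S))

lemma s12_s12 (S : P20) : s12 (s12 S) = S :=
  AlgHom.congr_fun (show s12.comp s12 = AlgHom.id ℂ P20 from MvPolynomial.algHom_ext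
    fun ⟨j, m⟩ => by fin_cases j <;> simp [s12]) S

lemma s23_s23 (S : P20) : s23 (s23 S) = S :=
  AlgHom.congr_fun (show s23.comp s23 = AlgHom.id ℂ P20 from MvPolynomial.algHom_ext
    fun ⟨j, m⟩ => by fin_cases j <;> simp [s23]) S

lemma cm_xm {x : Ix → P20} {P : Op P20} (d : Ix → Derivation ℂ P20 P20) (e : ∀ m S, P m S = d m S)
    (h : ∀ i m, d m (x i) = 0) : Cm (xm x) (rs P) := fun i m S => by
  simp only [xm_apply, rs_apply, e, map_smul, Derivation.leibniz, h, mul_zero, add_zero,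
    smul_eq_mul, mul_smul_comm, smul_comm (eta i : ℂ)]

theorem tri : Tri (rs Q1) (rs Q2) (rs Q3) (xm fun m => s23 (X (3, m))) (xm fun m => s12 (X (3, m)))
    (xm fun m => s12 (X (4, m))) where
  w1 := wey_conj (wey_pd 3) (s := s23.toLinearMap) s23_s23
    (it_rs fun m S => (p3_s23 m S).symm) (it_xm _ _)
  w2 := wey_conj (wey_pd 3) (s := s12.toLinearMap) s12_s12 (it_rs s12_13) (it_xm _ _)
  w3 := wey_conj (wey_pd 4) (s := s12.toLinearMap) s12_s12 (it_rs s12_33) (it_xm _ _)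
  c12 := cm_rs (cm_pd2 3)
  c13 := cm_rs (cm_pd 3 4)
  c23 := cm_rs (cm_pd2 4).symm
  x12 := cm_xm dQ2 dQ2_eq fun i m => by
    classical
    simp [s23, dQ2, MvPolynomial.pderiv_X, Pi.single_apply]
  x23 := cm_xm (fun m => pderiv (4, m)) (fun _ _ => rfl) fun i m => by
    classical
    simp [s12, MvPolynomial.pderiv_X, Pi.single_apply]
  x32 := cm_xm dQ2 dQ2_eq fun i m => by
    classical
    simp [s12, dQ2, MvPolynomial.pderiv_X, Pi.single_apply]

/-! ## the Lorentz algebra -/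

def omD (w : Ix → V) : Derivation ℂ P20 P20 :=
  ∑ j : Fin 5, ∑ m, ∑ n, (C (w m n : ℂ) * X (j, m) : P20) • pderiv (j, n)

lemma dsum {ι : Type} (t : Finset ι) (D : ι → Derivation ℂ P20 P20) (S : P20) :
    (∑ i ∈ t, D i) S = ∑ i ∈ t, D i S := by
  classical
  induction t using Finset.induction_on with
  | empty => simp
  | insert a t h e => rw [Finset.sum_insert h, Finset.sum_insert h, Derivation.add_apply, e]

lemma omD_eq (w : Ix → V) (S : P20) : om w S = omD w S := by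
  simp only [omD, om, dsum, Derivation.smul_apply, smul_eq_mul]

/-- as a linear map -/
def omL (w : Ix → V) : P20 →ₗ[ℂ] P20 := omD w

lemma omL_eq (w : Ix → V) (S : P20) : omL w S = om w S := (omD_eq w S).symm

lemma om_X (w : Ix → V) (j : Fin 5) (n : Ix) :
    omD w (X (j, n)) = ∑ m, C (w m n : ℂ) * X (j, m) := by
  rw [← omD_eq]
  simp only [om, pd_X', ite_and, mul_ite, mul_one, mul_zero, Finset.sum_ite_irrel,
    Finset.sum_ite_eq', Finset.mem_univ, if_true, Finset.sum_const_zero]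

lemma ro_pd (w : Ix → V) (j : Fin 5) : Ro w (omL w) (pd j) := fun a S => by
  simp only [omL_eq, pd_apply, pd_om, MvPolynomial.C_mul']

lemma ro_2 (w : Ix → V) : Ro w (omL w) Q2 := fun a S => by
  have h3 := ro_pd w 3 a S
  have h4 := ro_pd w 4 a S
  simp only [pd_apply] at h3 h4
  simp only [Q2_apply, h3, h4, map_neg, map_add, smul_neg, smul_add, Finset.sum_neg_distrib,
    Finset.sum_add_distrib]
  abel

lemma om_s12 (w : Ix → V) (S : P20) : om w (s12 S) = s12 (om w S) := by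
  rw [omD_eq, omD_eq]
  exact comm s12 _ _ (fun ⟨j, n⟩ => by
    fin_cases j <;> simp [s12, om_X, mul_sub, Finset.sum_sub_distrib]) S

lemma om_s13 (w : Ix → V) (S : P20) : om w (s13 S) = s13 (om w S) := by
  rw [omD_eq, omD_eq]
  exact comm s13 _ _ (fun ⟨j, n⟩ => by fin_cases j <;> simp [s13, om_X]) S

lemma om_z0 (w : Ix → V) (S : P20) : om w (z0 S) = z0 (om w S) := by
  rw [omD_eq, omD_eq]
  exact comm z0 _ _ (fun ⟨j, n⟩ => by fin_cases j <;> simp [z0, om_X]) S

lemma z0_s12 (S : P20) : z0 (s12 S) = s12 (z0 S) :=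
  AlgHom.congr_fun (show z0.comp s12 = s12.comp z0 from MvPolynomial.algHom_ext
    fun ⟨j, m⟩ => by fin_cases j <;> simp [s12, z0]) S

lemma z0_s13 (S : P20) : z0 (s13 S) = s13 (z0 S) :=
  AlgHom.congr_fun (show z0.comp s13 = s13.comp z0 from MvPolynomial.algHom_ext
    fun ⟨j, m⟩ => by fin_cases j <;> simp [s13, z0]) S

lemma z0_1 : It z0.toLinearMap Q1 Q1 := fun m S => (comm z0 (pderiv (3, m)) (pderiv (3, m))
  (fun ⟨j, n⟩ => by
    classical
    fin_cases j <;> simp [z0, MvPolynomial.pderiv_X, Pi.single_apply, apply_ite]) S).symm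
lemma z0_3 : It z0.toLinearMap Q3 Q3 := fun m S => (comm z0 (pderiv (4, m)) (pderiv (4, m))
  (fun ⟨j, n⟩ => by
    classical
    fin_cases j <;> simp [z0, MvPolynomial.pderiv_X, Pi.single_apply, apply_ite]) S).symm
lemma z0_2 : It z0.toLinearMap Q2 Q2 := fun m S => by
  rw [Q2_apply, Q2_apply, map_neg, map_add]
  exact congrArg _ (congrArg₂ _ (z0_1 m S) (z0_3 m S))

lemma deg_z0 {n : ℕ} {S : P20} (h : Deg n S) : Deg n (z0 S) := deg_aeval _ (fun i => by
  split_ifs
  exacts [deg_X i, MvPolynomial.isWeightedHomogeneous_zero ℂ _ _]) h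

/-! ## components -/

/-- `∂_(j, I.1) ∂_(j, I.2)` -/
def dpL (j : Fin 5) (I : I2) : P20 →ₗ[ℂ] P20 := pd j I.1 ∘ₗ pd j I.2

/-- the components of a source -/
def cp : P20 →ₗ[ℂ] I2 → I2 → I2 → P20 := LinearMap.pi fun I => LinearMap.pi fun J =>
  LinearMap.pi fun K => z0.toLinearMap ∘ₗ dpL 0 I ∘ₗ dpL 1 J ∘ₗ dpL 2 K

lemma cp_apply (S : P20) (I J K : I2) : cp S I J K = z0 (d6 I J K S) := rfl

lemma cp_om (w : Ix → V) (S : P20) : cp (om w S) = omF w (omL w) (cp S) := by
  funext I J K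
  simp only [omF_apply, cp_apply, d6_om, map_add, map_sum, omL_eq, om_z0, MvPolynomial.C_mul',
    map_smul]

lemma cp_sym6 (S : P20) :
    cp (sym6 S) = sum6 (p12 s12.toLinearMap) (p13 s13.toLinearMap) (cp S) := by
  have a : ∀ S, cp (s12 S) = p12 s12.toLinearMap (cp S) := fun S => funext fun I => funext fun J =>
    funext fun K => (congrArg z0 (d6_s12 I J K S)).trans (z0_s12 _)
  have b : ∀ S, cp (s13 S) = p13 s13.toLinearMap (cp S) := fun S => funext fun I => funext fun J =>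
    funext fun K => (congrArg z0 (d6_s13 I J K S)).trans (z0_s13 _)
  simp only [sym6, sum6_apply, map_add, a, b]

lemma sym6_om (w : Ix → V) (S : P20) : sym6 (om w S) = om w (sym6 S) := by
  have a : ∀ S T, om w (S + T) = om w S + om w T := fun S T => by simp only [omD_eq, map_add]
  simp only [sym6, a, om_s12, om_s13]

/-- the components of a pure gauge source -/
lemma z0_gauge {j : Fin 5} (hj : ¬ 3 ≤ j) {P : Op P20} (c : Cm (pd j) P)
    (z : It z0.toLinearMap P P) (ζ : P20) (K : I2) : z0 (dp j K (∑ m, X (j, m) * P m ζ)) =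
      P K.1 (z0 (pderiv (j, K.2) ζ)) + P K.2 (z0 (pderiv (j, K.1) ζ)) := by
  have x : ∀ m, z0 (X (j, m)) = 0 := fun m => by simp [z0, hj]
  have c' : ∀ a m S, pderiv (j, a) (P m S) = P m (pderiv (j, a) S) := c
  have z' : ∀ m S, z0 (P m S) = P m (z0 S) := z
  have l : ∀ (a : Ix) (T : Ix → P20), pderiv (j, a) (∑ m, X (j, m) * T m) =
      ∑ m, X (j, m) * pderiv (j, a) (T m) + T a := fun a T => by
    simp only [map_sum, Derivation.leibniz, smul_eq_mul, pd_X', true_and, mul_ite, mul_one,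
      mul_zero, Finset.sum_add_distrib, Finset.sum_ite_eq, Finset.mem_univ, if_true]
  rw [dp, l, map_add, l]
  simp only [map_add, map_sum, map_mul, x, zero_mul, Finset.sum_const_zero, zero_add, c', z']

lemma dp_X {j k : Fin 5} (h : j ≠ k) (I : I2) (m : Ix) (S : P20) :
    dp j I (X (k, m) * S) = X (k, m) * dp j I S := by
  simp [dp, pd_X', h]

lemma pd_dp (i : Fin 5 × Ix) (j : Fin 5) (I : I2) (S : P20) :
    pderiv i (dp j I S) = dp j I (pderiv i S) := by simp only [dp, pd_comm i]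

lemma cp_d1 (Ξ : P20) (I J K : I2) :
    cp (d1 Ξ) I J K = Q1 I.1 (z0 (d5 I.2 J K Ξ)) + Q1 I.2 (z0 (d5 I.1 J K Ξ)) := by
  rw [cp_apply, d6_eq, d1, dp_sum, dp_sum]
  simp only [dp_X (show (2 : Fin 5) ≠ 0 by decide), dp_X (show (1 : Fin 5) ≠ 0 by decide),
    ← pd_dp]
  exact z0_gauge (by decide) (cm_pd 0 3) z0_1 _ I

lemma it_bx {f : P20 →ₗ[ℂ] P20} {P : Op P20} (h : It f P P) (S : P20) :
    bx P (f S) = f (bx P S) := by simp only [bx_apply, map_sum, map_smul, h _]

lemma closed {j : Fin 5} (hj : ¬ 3 ≤ j) {P : Op P20} (cc : Cm P P) (c : Cm (pd j) P)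
    (z : It z0.toLinearMap P P) (Ξ ζ : P20) (hb : bx P Ξ = 0)
    (hd : Rh (rs P) (fun K => dp j K Ξ) = 0) :
    Rh (rs P) (tq 1 fun K => z0 (dp j K (Ξ + ∑ m, X (j, m) * P m ζ))) = 0 := by
  have e : (fun K => z0 (dp j K (Ξ + ∑ m, X (j, m) * P m ζ))) = (fun K => z0 (dp j K Ξ)) +
      (2 : ℂ) • AT P (ga fun n => z0 (pderiv (j, n) ζ)) := funext fun K => by
    rw [dp_add, map_add, z0_gauge hj c z, Pi.add_apply, Pi.smul_apply, AT_ga, smul_smul]
    simp
  have g : ∀ t, Rh (rs P) (fun K => (gm K * 1) • t) = bx P t := fun t => by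
    simp only [Rh_apply, map_smul, mul_one, fun n => sum_gm n fun m => rs P m t]
    simp only [bx_apply, rs_apply, map_smul, smul_smul, eta_sq, mul_one]
  rw [e, map_add, map_add, map_smul, map_smul, AT_apply, tq_tq h13, Rh_Ah (cm_rs cc), smul_zero,
    add_zero, show (tq 1 fun K => z0 (dp j K Ξ)) = (fun K => z0 (dp j K Ξ)) - fun K =>
      (gm K * 1) • tc fun K => z0 (dp j K Ξ) from rfl, map_sub, g, tc, map_sum,
    show (Rh (rs P) fun K => z0 (dp j K Ξ)) = _ from ((it_rs z).Rh _).symm, hd, map_zero,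
    Finset.sum_eq_zero, sub_zero]
  intro k _
  rw [map_smul, show z0 (dp j (k, k) Ξ) = (z0.toLinearMap ∘ₗ pd j k ∘ₗ pd j k) Ξ from rfl,
    it_bx (((c.it k).comp (c.it k)).comp z), hb, map_zero, smul_zero]

lemma bx_3 (S : P20) : bx Q3 S = box3 S := by
  simp only [bx_apply, box3, MvPolynomial.C_mul', Q3_apply]
lemma bx_2 (S : P20) : bx Q2 S = box2 S := by
  simp only [bx_apply, box2, MvPolynomial.C_mul', D2, Q2_apply]
lemma Rh_3 (S : P20) : Rh (rs Q3) (fun K => dp 2 K S) = dd3 S := by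
  simp only [Rh_apply, map_sum, rs_apply, map_smul, dd3, MvPolynomial.C_mul', smul_smul, dp,
    Q3_apply, Complex.ofReal_mul, pd_comm (2, _) (2, _)]
  exact Finset.sum_congr rfl fun _ _ => Finset.sum_congr rfl fun _ _ => by rw [mul_comm, pd_comm (2, _)]
lemma Rh_2 (S : P20) : Rh (rs Q2) (fun K => dp 1 K S) = dd2 S := by
  simp only [Rh_apply, map_sum, rs_apply, map_smul, dd2, MvPolynomial.C_mul', smul_smul, dp,
    Complex.ofReal_mul]
  exact Finset.sum_congr rfl fun _ _ => Finset.sum_congr rfl fun _ _ => by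
    rw [mul_comm, pd_comm (1, _)]
    rfl

lemma AP_eq (P : Op P20) (χ : I3 → P20) : AP (fun m S => P m S) χ = AT P χ := by
  funext I
  simp only [AP, trP, syP, dvP, AT_apply, tq_apply, tc, Ah_apply, sy_apply, dv_apply, rs_apply,
    MvPolynomial.C_mul', mul_one_div]

lemma A23_eq (Q : I3 → I3 → P20) (J K : I2) : RW.A23 Q J K = B23 Q2 Q3 Q J K := by
  rw [B23_apply, ← AP_eq]
  simp only [← AP_eq]
  rfl

/-- homogeneous components -/
def hc (n : ℕ) : P20 →ₗ[ℂ] P20 := MvPolynomial.weightedHomogeneousComponent Coc.wt n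

lemma hc_pd (n : ℕ) {j : Fin 5} (hj : 3 ≤ j) : It2 (hc n) (hc (n + 1)) (pd j) (pd j) :=
  fun m S => MvPolynomial.ext _ _ fun α => by
    classical
    simp only [hc, pd_apply, MvPolynomial.coeff_weightedHomogeneousComponent,
      MvPolynomial.coeff_pderiv, map_add, Finsupp.weight_single, Coc.wt, hj, if_true, smul_eq_mul,
      mul_one, add_left_inj, ite_mul, zero_mul]

lemma hc_2 (n : ℕ) : It2 (hc n) (hc (n + 1)) Q2 Q2 := fun m S => by
  rw [Q2_apply, Q2_apply, map_neg, map_add]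
  exact congrArg _ (congrArg₂ _ (hc_pd n (by decide) m S) (hc_pd n (by decide) m S))

lemma closed' {j k : Fin 5} (hj : ¬ 3 ≤ j) (h0 : 0 ≠ j) (hk : k ≠ j) {P : Op P20} (cc : Cm P P)
    (c : ∀ i, Cm (pd i) P) (z : It z0.toLinearMap P P) (Ξ ζ : P20) (hb : bx P Ξ = 0)
    (hd : Rh (rs P) (fun K => dp j K Ξ) = 0) (n : Ix) (J : I2) : Rh (rs P) (tq 1 fun K =>
      z0 (pderiv (0, n) (dp k J (dp j K (Ξ + ∑ m, X (j, m) * P m ζ))))) = 0 := by
  obtain ⟨f, hf⟩ : ∃ f : P20 →ₗ[ℂ] P20, f = pd 0 n ∘ₗ dpL k J := ⟨_, rfl⟩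
  have fa : ∀ S, f S = pderiv (0, n) (dp k J S) := fun S => by rw [hf]; rfl
  have c' : ∀ i a m S, pderiv (i, a) (P m S) = P m (pderiv (i, a) S) := c
  have i : It f P P := fun m S => by simp only [fa, dp, c']
  have fd : ∀ K S, dp j K (f S) = f (dp j K S) := fun K S => by rw [fa, fa, ← pd_dp, dp_comm]
  have fx : ∀ m S, f (X (j, m) * S) = X (j, m) * f S := fun m S => by
    simp [fa, dp_X hk, pd_X', h0]
  have := closed hj cc (c j) z (f Ξ) (f ζ) (by rw [it_bx i, hb, map_zero]) (by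
    simp only [fd]
    rw [← (it_rs i).Rh, hd, map_zero])
  have e : f Ξ + ∑ m, X (j, m) * P m (f ζ) = f (Ξ + ∑ m, X (j, m) * P m ζ) := by
    simp only [map_add, map_sum, fx, i _]
  simp only [e, fd] at this
  simpa only [fa] using this

/-- the potential of the gauge parameter -/
theorem ex_pot {Ξ3 ζ3 Ξ2 ζ2 : P20} (g : Deg 5 (Ξ3 + d3 ζ3)) (he : Ξ3 + d3 ζ3 = Ξ2 + RS.d2 ζ2)
    (b3 : box3 Ξ3 = 0) (e3 : dd3 Ξ3 = 0) (b2 : box2 Ξ2 = 0) (e2 : dd2 Ξ2 = 0) :
    ∃ Y : Ix → I3 → I3 → P20, (∀ n b c, Deg 7 (Y n b c)) ∧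
      ∀ n J K, B23 Q2 Q3 (Y n) J K = z0 (d5 n J K (Ξ3 + d3 ζ3)) := by
  choose Y hY using fun n => B23_sur tri (fun J K => z0 (d5 n J K (Ξ3 + d3 ζ3)))
    (fun J K => by simp only [d5, dp, Prod.fst_swap, Prod.snd_swap, pd_comm (1, J.1)])
    (fun J K => by simp only [d5, dp, Prod.fst_swap, Prod.snd_swap, pd_comm (2, K.1)])
    (fun K => by
      simp only [he, d5, dp_comm 1]
      exact closed' (j := 1) (k := 2) (by decide) (by decide) (by decide) cm22 cm_pd2 z0_2 Ξ2 ζ2
        ((bx_2 _).trans b2) ((Rh_2 _).trans e2) n K)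
    (fun J => closed' (j := 2) (k := 1) (by decide) (by decide) (by decide) (cm_pd 4 4)
      (fun k => cm_pd k 4) z0_3 Ξ3 ζ3 ((bx_3 _).trans b3) ((Rh_3 _).trans e3) n J)
  refine ⟨fun n b c => hc 7 (Y n b c), fun n b c =>
    MvPolynomial.weightedHomogeneousComponent_isWeightedHomogeneous _ _, fun n J K => ?_⟩
  have d : Deg 5 (z0 (d5 n J K (Ξ3 + d3 ζ3))) :=
    deg_z0 (deg_pderiv (0, n) (dp_deg (dp_deg g (by decide) K) (by decide) J) rfl)
  have h3 : It2 (hc 6) (hc 7) Q3 Q3 := hc_pd 6 (by decide)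
  rw [← show hc 5 _ = _ from (MvPolynomial.weightedHomogeneousComponent_of_mem d).trans
    (if_pos rfl), ← congrFun (congrFun (hY n) J) K, B23_apply, B23_apply, (hc_2 5).AT]
  simp only [h3.AT]

end

end Vale.Agent.P352L.RW
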